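import Vale.Agent.P154.Hel.CP.Poi2.W0
import Vale.Agent.P154.Hel.CP.Poi2.W1
import Vale.Agent.P154.Hel.CP.Poi2.W2
import Vale.Agent.P154.Hel.CP.Poi2.W3
import Vale.Agent.P154.Hel.CP.Poi2.W4
import Vale.Agent.P154.Hel.CP.Poi2.W5
import Vale.Agent.P154.Hel.CP.Poi2.W6
import Vale.Agent.P154.Hel.CP.Poi2.W7
import Vale.Agent.P154.Hel.CP.Poi2.W8
import Vale.Agent.P154.Hel.CP.Poi2.W9
import Vale.Agent.P154.Hel.CP.Poi2.W10
import Vale.Agent.P154.Hel.CP.Poi2.W11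
import Vale.Agent.P154.Hel.CP.Poi2.W12
import Vale.Agent.P154.Hel.CP.Poi2.W13
import Vale.Agent.P154.Hel.CP.Poi2.W14
import Vale.Agent.P154.Hel.CP.Poi2.W15
import Vale.Agent.P154.Hel.CP.Poi2.W16
import Vale.Agent.P154.Hel.CP.Poi2.W17
import Vale.Agent.P154.Hel.CP.Poi2.W18
import Vale.Agent.P154.Hel.CP.Poi2.W19
import Vale.Agent.P154.Hel.CP.Poi2.W20
import Vale.Agent.P154.Hel.CP.Poi2.W21
import Vale.Agent.P154.Hel.CP.Poi2.W22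
import Vale.Agent.P154.Hel.CP.Poi2.W23
import Vale.Agent.P154.Hel.CP.Poi2.W24
import Vale.Agent.P154.Hel.CP.Poi2.W25
import Vale.Agent.P154.Hel.CP.Poi2.W26
import Vale.Agent.P154.Hel.CP.Poi2.W27
import Vale.Agent.P154.Hel.CP.Poi2.W28
import Vale.Agent.P154.Hel.CP.Poi2.W29
import Vale.Agent.P154.Hel.CP.Poi2.W30
import Vale.Agent.P154.Hel.CP.Poi2.W31
import Vale.Agent.P154.Hel.CP.Poi2.W32
import Vale.Agent.P154.Hel.CP.Poi2.W33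
import Vale.Agent.P154.Hel.CP.Poi2.W34
import Vale.Agent.P154.Hel.CP.Poi2.W35
import Vale.Agent.P154.Hel.CP.Poi2.W36
import Vale.Agent.P154.Hel.CP.Poi2.W37
import Vale.Agent.P154.Hel.CP.Poi2.W38
import Vale.Agent.P154.Hel.CP.Poi2.W39
import Vale.Agent.P154.Hel.CP.Poi2.W40
import Vale.Agent.P154.Hel.CP.Poi2.W41
import Vale.Agent.P154.Hel.CP.Poi2.W42
import Vale.Agent.P154.Hel.CP.Poi2.W43
import Vale.Agent.P154.Hel.CP.Poi2.W44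
import Vale.Agent.P154.Hel.CP.Poi2.W45
import Vale.Agent.P154.Hel.CP.Poi2.W46
import Vale.Agent.P154.Hel.CP.Poi2.W47
import Vale.Agent.P154.Hel.CP.Poi2.W48
import Vale.Agent.P154.Hel.CP.Poi2.W49
import Vale.Agent.P154.Hel.CP.Poi2.W50
import Vale.Agent.P154.Hel.CP.Poi2.W51
import Vale.Agent.P154.Hel.CP.Poi2.W52


/-!
The forms of the planes on the unit square.
-/

namespace Vale.Agent.P154.Hel.Direct.Poi2

open TM

/-- A cell. -/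
theorem hF_1_0_0 : GoodC (tabsR X9) zF [] 1 0 0 :=
  goodC_split rfl rfl rfl rfl rfl (g_2_0_0.weakF) (g_2_1_0.weakF) (g_2_0_1.weakF) (g_2_1_1.weakF)

/-- A cell. -/
theorem hF_3_5_0 : GoodC (tabsR X9) zF [] 3 5 0 :=
  goodC_split rfl rfl rfl rfl rfl (g_4_10_0.weakF) (g_4_11_0.weakF) (g_4_10_1.weakF) (g_4_11_1.weakF)

/-- A cell. -/
theorem hF_3_5_1 : GoodC (tabsR X9) zF [] 3 5 1 :=
  goodC_split rfl rfl rfl rfl rfl (g_4_10_2.weakF) (g_4_11_2.weakF) (g_4_10_3.weakF) (g_4_11_3.weakF)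

/-- A cell. -/
theorem hF_2_2_0 : GoodC (tabsR X9) zF [] 2 2 0 :=
  goodC_split rfl rfl rfl rfl rfl (g_3_4_0.weakF) (hF_3_5_0) (g_3_4_1.weakF) (hF_3_5_1)

/-- A cell. -/
theorem hF_4_12_0 : GoodC (tabsR X9) zF [] 4 12 0 :=
  goodC_split rfl rfl rfl rfl rfl (g_5_24_0.weakF) (g_5_25_0.weakF) (g_5_24_1.weakF) (g_5_25_1.weakF)

/-- A cell. -/
theorem hF_3_6_0 : GoodC (tabsR X9) zF [] 3 6 0 :=
  goodC_split rfl rfl rfl rfl rfl (hF_4_12_0) (g_4_13_0.weakF) (g_4_12_1.weakF) (g_4_13_1.weakF)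

/-- A cell. -/
theorem hF_4_15_0 : GoodC (tabsR X9) zF [] 4 15 0 :=
  goodC_split rfl rfl rfl rfl rfl (g_5_30_0.weakF) (g_5_31_0.weakF) (g_5_30_1.weakF) (g_5_31_1.weakF)

/-- A cell. -/
theorem hF_3_7_0 : GoodC (tabsR X9) zF [] 3 7 0 :=
  goodC_split rfl rfl rfl rfl rfl (g_4_14_0.weakF) (hF_4_15_0) (g_4_14_1.weakF) (g_4_15_1.weakF)

/-- A cell. -/
theorem hF_3_6_1 : GoodC (tabsR X9) zF [] 3 6 1 :=
  goodC_split rfl rfl rfl rfl rfl (g_4_12_2.weakF) (g_4_13_2.weakF) (g_4_12_3.weakF) (g_4_13_3.weakF)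

/-- A cell. -/
theorem hF_3_7_1 : GoodC (tabsR X9) zF [] 3 7 1 :=
  goodC_split rfl rfl rfl rfl rfl (g_4_14_2.weakF) (g_4_15_2.weakF) (g_4_14_3.weakF) (g_4_15_3.weakF)

/-- A cell. -/
theorem hF_2_3_0 : GoodC (tabsR X9) zF [] 2 3 0 :=
  goodC_split rfl rfl rfl rfl rfl (hF_3_6_0) (hF_3_7_0) (hF_3_6_1) (hF_3_7_1)

/-- A cell. -/
theorem hF_2_2_1 : GoodC (tabsR X9) zF [] 2 2 1 :=
  goodC_split rfl rfl rfl rfl rfl (g_3_4_2.weakF) (g_3_5_2.weakF) (g_3_4_3.weakF) (g_3_5_3.weakF)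

/-- A cell. -/
theorem hF_3_7_2 : GoodC (tabsR X9) zF [] 3 7 2 :=
  goodC_split rfl rfl rfl rfl rfl (g_4_14_4.weakF) (g_4_15_4.weakF) (g_4_14_5.weakF) (g_4_15_5.weakF)

/-- A cell. -/
theorem hF_3_7_3 : GoodC (tabsR X9) zF [] 3 7 3 :=
  goodC_split rfl rfl rfl rfl rfl (g_4_14_6.weakF) (g_4_15_6.weakF) (g_4_14_7.weakF) (g_4_15_7.weakF)

/-- A cell. -/
theorem hF_2_3_1 : GoodC (tabsR X9) zF [] 2 3 1 :=
  goodC_split rfl rfl rfl rfl rfl (g_3_6_2.weakF) (hF_3_7_2) (g_3_6_3.weakF) (hF_3_7_3)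

/-- A cell. -/
theorem hF_1_1_0 : GoodC (tabsR X9) zF [] 1 1 0 :=
  goodC_split rfl rfl rfl rfl rfl (hF_2_2_0) (hF_2_3_0) (hF_2_2_1) (hF_2_3_1)

/-- A cell. -/
theorem hF_2_0_3 : GoodC (tabsR X9) zF [] 2 0 3 :=
  goodC_split rfl rfl rfl rfl rfl (g_3_0_6.weakF) (g_3_1_6.weakF) (g_3_0_7.weakF) (g_3_1_7.weakF)

/-- A cell. -/
theorem hF_4_5_15 : GoodC (tabsR X9) zF [] 4 5 15 :=
  goodC_split rfl rfl rfl rfl rfl (g_5_10_30.weakF) (g_5_11_30.weakF) (g_5_10_31.weakF) (g_5_11_31.weakF)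

/-- A cell. -/
theorem hF_3_2_7 : GoodC (tabsR X9) zF [] 3 2 7 :=
  goodC_split rfl rfl rfl rfl rfl (g_4_4_14.weakF) (g_4_5_14.weakF) (g_4_4_15.weakF) (hF_4_5_15)

/-- A cell. -/
theorem hF_4_6_15 : GoodC (tabsR X9) zF [] 4 6 15 :=
  goodC_split rfl rfl rfl rfl rfl (g_5_12_30.weakF) (g_5_13_30.weakF) (g_5_12_31.weakF) (g_5_13_31.weakF)

/-- A cell. -/
theorem hF_3_3_7 : GoodC (tabsR X9) zF [] 3 3 7 :=
  goodC_split rfl rfl rfl rfl rfl (g_4_6_14.weakF) (g_4_7_14.weakF) (hF_4_6_15) (g_4_7_15.weakF)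

/-- A cell. -/
theorem hF_2_1_3 : GoodC (tabsR X9) zF [] 2 1 3 :=
  goodC_split rfl rfl rfl rfl rfl (g_3_2_6.weakF) (g_3_3_6.weakF) (hF_3_2_7) (hF_3_3_7)

/-- A cell. -/
theorem hF_1_0_1 : GoodC (tabsR X9) zF [] 1 0 1 :=
  goodC_split rfl rfl rfl rfl rfl (g_2_0_2.weakF) (g_2_1_2.weakF) (hF_2_0_3) (hF_2_1_3)

/-- A cell. -/
theorem hF_3_7_4 : GoodC (tabsR X9) zF [] 3 7 4 :=
  goodC_split rfl rfl rfl rfl rfl (g_4_14_8.weakF) (g_4_15_8.weakF) (g_4_14_9.weakF) (g_4_15_9.weakF)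

/-- A cell. -/
theorem hF_3_6_5 : GoodC (tabsR X9) zF [] 3 6 5 :=
  goodC_split rfl rfl rfl rfl rfl (g_4_12_10.weakF) (g_4_13_10.weakF) (g_4_12_11.weakF) (g_4_13_11.weakF)

/-- A cell. -/
theorem hF_4_15_10 : GoodC (tabsR X9) zF [] 4 15 10 :=
  goodC_split rfl rfl rfl rfl rfl (g_5_30_20.weakF) (g_5_31_20.weakF) (g_5_30_21.weakF) (g_5_31_21.weakF)

/-- A cell. -/
theorem hF_4_15_11 : GoodC (tabsR X9) zF [] 4 15 11 :=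
  goodC_split rfl rfl rfl rfl rfl (g_5_30_22.weakF) (g_5_31_22.weakF) (g_5_30_23.weakF) (g_5_31_23.weakF)

/-- A cell. -/
theorem hF_3_7_5 : GoodC (tabsR X9) zF [] 3 7 5 :=
  goodC_split rfl rfl rfl rfl rfl (g_4_14_10.weakF) (hF_4_15_10) (g_4_14_11.weakF) (hF_4_15_11)

/-- A cell. -/
theorem hF_2_3_2 : GoodC (tabsR X9) zF [] 2 3 2 :=
  goodC_split rfl rfl rfl rfl rfl (g_3_6_4.weakF) (hF_3_7_4) (hF_3_6_5) (hF_3_7_5)

/-- A cell. -/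
theorem hF_3_5_7 : GoodC (tabsR X9) zF [] 3 5 7 :=
  goodC_split rfl rfl rfl rfl rfl (g_4_10_14.weakF) (g_4_11_14.weakF) (g_4_10_15.weakF) (g_4_11_15.weakF)

/-- A cell. -/
theorem hF_2_2_3 : GoodC (tabsR X9) zF [] 2 2 3 :=
  goodC_split rfl rfl rfl rfl rfl (g_3_4_6.weakF) (g_3_5_6.weakF) (g_3_4_7.weakF) (hF_3_5_7)

/-- A cell. -/
theorem hF_4_15_12 : GoodC (tabsR X9) zF [] 4 15 12 :=
  goodC_split rfl rfl rfl rfl rfl (g_5_30_24.weakF) (g_5_31_24.weakF) (g_5_30_25.weakF) (g_5_31_25.weakF)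

/-- A cell. -/
theorem hF_4_15_13 : GoodC (tabsR X9) zF [] 4 15 13 :=
  goodC_split rfl rfl rfl rfl rfl (g_5_30_26.weakF) (g_5_31_26.weakF) (g_5_30_27.weakF) (g_5_31_27.weakF)

/-- A cell. -/
theorem hF_3_7_6 : GoodC (tabsR X9) zF [] 3 7 6 :=
  goodC_split rfl rfl rfl rfl rfl (g_4_14_12.weakF) (hF_4_15_12) (g_4_14_13.weakF) (hF_4_15_13)

/-- A cell. -/
theorem hF_4_13_15 : GoodC (tabsR X9) zF [] 4 13 15 :=
  goodC_split rfl rfl rfl rfl rfl (g_5_26_30.weakF) (g_5_27_30.weakF) (g_5_26_31.weakF) (g_5_27_31.weakF)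

/-- A cell. -/
theorem hF_3_6_7 : GoodC (tabsR X9) zF [] 3 6 7 :=
  goodC_split rfl rfl rfl rfl rfl (g_4_12_14.weakF) (g_4_13_14.weakF) (g_4_12_15.weakF) (hF_4_13_15)

/-- A cell. -/
theorem hF_4_15_14 : GoodC (tabsR X9) zF [] 4 15 14 :=
  goodC_split rfl rfl rfl rfl rfl (g_5_30_28.weakF) (g_5_31_28.weakF) (g_5_30_29.weakF) (g_5_31_29.weakF)

/-- A cell. -/
theorem hF_5_29_31 : GoodC (tabsR X9) zF [] 5 29 31 :=
  goodC_split rfl rfl rfl rfl rfl (g_6_58_62.weakF) (g_6_59_62.weakF) (g_6_58_63.weakF) (g_6_59_63.weakF)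

/-- A cell. -/
theorem hF_4_14_15 : GoodC (tabsR X9) zF [] 4 14 15 :=
  goodC_split rfl rfl rfl rfl rfl (g_5_28_30.weakF) (g_5_29_30.weakF) (g_5_28_31.weakF) (hF_5_29_31)

/-- A cell. -/
theorem hF_5_30_30 : GoodC (tabsR X9) zF [] 5 30 30 :=
  goodC_split rfl rfl rfl rfl rfl (g_6_60_60.weakF) (g_6_61_60.weakF) (g_6_60_61.weakF) (g_6_61_61.weakF)

/-- A cell. -/
theorem hF_5_31_30 : GoodC (tabsR X9) zF [] 5 31 30 :=
  goodC_split rfl rfl rfl rfl rfl (g_6_62_60.weakF) (g_6_63_60.weakF) (g_6_62_61.weakF) (g_6_63_61.weakF)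

/-- A cell. -/
theorem hF_6_61_63 : GoodC (tabsR X9) zF [] 6 61 63 :=
  goodC_split rfl rfl rfl rfl rfl (g_7_122_126.weakF) (g_7_123_126.weakF) (g_7_122_127.weakF) (g_7_123_127.weakF)

/-- A cell. -/
theorem hF_5_30_31 : GoodC (tabsR X9) zF [] 5 30 31 :=
  goodC_split rfl rfl rfl rfl rfl (g_6_60_62.weakF) (g_6_61_62.weakF) (g_6_60_63.weakF) (hF_6_61_63)

/-- A cell. -/
theorem hF_6_62_62 : GoodC (tabsR X9) zF [] 6 62 62 :=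
  goodC_split rfl rfl rfl rfl rfl (g_7_124_124.weakF) (g_7_125_124.weakF) (g_7_124_125.weakF) (g_7_125_125.weakF)

/-- A cell. -/
theorem hF_6_63_62 : GoodC (tabsR X9) zF [] 6 63 62 :=
  goodC_split rfl rfl rfl rfl rfl (g_7_126_124.weakF) (g_7_127_124.weakF) (g_7_126_125.weakF) (g_7_127_125.weakF)

/-- A cell. -/
theorem hF_6_62_63 : GoodC (tabsR X9) zF [] 6 62 63 :=
  goodC_split rfl rfl rfl rfl rfl (g_7_124_126.weakF) (g_7_125_126.weakF) (g_7_124_127.weakF) (g_7_125_127.weakF)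

/-- A cell. -/
theorem hF_5_31_31 : GoodC (tabsR X9) zF [] 5 31 31 :=
  goodC_split rfl rfl rfl rfl rfl (hF_6_62_62) (hF_6_63_62) (hF_6_62_63) (g_6_63_63.weakF)

/-- A cell. -/
theorem hF_4_15_15 : GoodC (tabsR X9) zF [] 4 15 15 :=
  goodC_split rfl rfl rfl rfl rfl (hF_5_30_30) (hF_5_31_30) (hF_5_30_31) (hF_5_31_31)

/-- A cell. -/
theorem hF_3_7_7 : GoodC (tabsR X9) zF [] 3 7 7 :=
  goodC_split rfl rfl rfl rfl rfl (g_4_14_14.weakF) (hF_4_15_14) (hF_4_14_15) (hF_4_15_15)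

/-- A cell. -/
theorem hF_2_3_3 : GoodC (tabsR X9) zF [] 2 3 3 :=
  goodC_split rfl rfl rfl rfl rfl (g_3_6_6.weakF) (hF_3_7_6) (hF_3_6_7) (hF_3_7_7)

/-- A cell. -/
theorem hF_1_1_1 : GoodC (tabsR X9) zF [] 1 1 1 :=
  goodC_split rfl rfl rfl rfl rfl (g_2_2_2.weakF) (hF_2_3_2) (hF_2_2_3) (hF_2_3_3)

/-- A cell. -/
theorem hF_0_0_0 : GoodC (tabsR X9) zF [] 0 0 0 :=
  goodC_split rfl rfl rfl rfl rfl (hF_1_0_0) (hF_1_1_0) (hF_1_0_1) (hF_1_1_1)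

/-- A cell. -/
theorem hD_4_5_15 : GoodC (tabsR X9) [] zD 4 5 15 :=
  goodC_split rfl rfl rfl rfl rfl (g_5_10_30.weakD) (g_5_11_30.weakD) (g_5_10_31.weakD) (g_5_11_31.weakD)

/-- A cell. -/
theorem hD_3_2_7 : GoodC (tabsR X9) [] zD 3 2 7 :=
  goodC_split rfl rfl rfl rfl rfl (g_4_4_14.weakD) (g_4_5_14.weakD) (g_4_4_15.weakD) (hD_4_5_15)

/-- A cell. -/
theorem hD_4_6_15 : GoodC (tabsR X9) [] zD 4 6 15 :=
  goodC_split rfl rfl rfl rfl rfl (g_5_12_30.weakD) (g_5_13_30.weakD) (g_5_12_31.weakD) (g_5_13_31.weakD)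

/-- A cell. -/
theorem hD_3_3_7 : GoodC (tabsR X9) [] zD 3 3 7 :=
  goodC_split rfl rfl rfl rfl rfl (g_4_6_14.weakD) (g_4_7_14.weakD) (hD_4_6_15) (g_4_7_15.weakD)

/-- A cell. -/
theorem hD_2_1_3 : GoodC (tabsR X9) [] zD 2 1 3 :=
  goodC_split rfl rfl rfl rfl rfl (g_3_2_6.weakD) (g_3_3_6.weakD) (hD_3_2_7) (hD_3_3_7)

/-- A cell. -/
theorem hD_3_5_0 : GoodC (tabsR X9) [] zD 3 5 0 :=
  goodC_split rfl rfl rfl rfl rfl (g_4_10_0.weakD) (g_4_11_0.weakD) (g_4_10_1.weakD) (g_4_11_1.weakD)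

/-- A cell. -/
theorem hD_3_5_1 : GoodC (tabsR X9) [] zD 3 5 1 :=
  goodC_split rfl rfl rfl rfl rfl (g_4_10_2.weakD) (g_4_11_2.weakD) (g_4_10_3.weakD) (g_4_11_3.weakD)

/-- A cell. -/
theorem hD_2_2_0 : GoodC (tabsR X9) [] zD 2 2 0 :=
  goodC_split rfl rfl rfl rfl rfl (g_3_4_0.weakD) (hD_3_5_0) (g_3_4_1.weakD) (hD_3_5_1)

/-- A cell. -/
theorem hD_4_12_0 : GoodC (tabsR X9) [] zD 4 12 0 :=
  goodC_split rfl rfl rfl rfl rfl (g_5_24_0.weakD) (g_5_25_0.weakD) (g_5_24_1.weakD) (g_5_25_1.weakD)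

/-- A cell. -/
theorem hD_3_6_0 : GoodC (tabsR X9) [] zD 3 6 0 :=
  goodC_split rfl rfl rfl rfl rfl (hD_4_12_0) (g_4_13_0.weakD) (g_4_12_1.weakD) (g_4_13_1.weakD)

/-- A cell. -/
theorem hD_4_15_0 : GoodC (tabsR X9) [] zD 4 15 0 :=
  goodC_split rfl rfl rfl rfl rfl (g_5_30_0.weakD) (g_5_31_0.weakD) (g_5_30_1.weakD) (g_5_31_1.weakD)

/-- A cell. -/
theorem hD_3_7_0 : GoodC (tabsR X9) [] zD 3 7 0 :=
  goodC_split rfl rfl rfl rfl rfl (g_4_14_0.weakD) (hD_4_15_0) (g_4_14_1.weakD) (g_4_15_1.weakD)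

/-- A cell. -/
theorem hD_3_6_1 : GoodC (tabsR X9) [] zD 3 6 1 :=
  goodC_split rfl rfl rfl rfl rfl (g_4_12_2.weakD) (g_4_13_2.weakD) (g_4_12_3.weakD) (g_4_13_3.weakD)

/-- A cell. -/
theorem hD_3_7_1 : GoodC (tabsR X9) [] zD 3 7 1 :=
  goodC_split rfl rfl rfl rfl rfl (g_4_14_2.weakD) (g_4_15_2.weakD) (g_4_14_3.weakD) (g_4_15_3.weakD)

/-- A cell. -/
theorem hD_2_3_0 : GoodC (tabsR X9) [] zD 2 3 0 :=
  goodC_split rfl rfl rfl rfl rfl (hD_3_6_0) (hD_3_7_0) (hD_3_6_1) (hD_3_7_1)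

/-- A cell. -/
theorem hD_2_2_1 : GoodC (tabsR X9) [] zD 2 2 1 :=
  goodC_split rfl rfl rfl rfl rfl (g_3_4_2.weakD) (g_3_5_2.weakD) (g_3_4_3.weakD) (g_3_5_3.weakD)

/-- A cell. -/
theorem hD_3_7_2 : GoodC (tabsR X9) [] zD 3 7 2 :=
  goodC_split rfl rfl rfl rfl rfl (g_4_14_4.weakD) (g_4_15_4.weakD) (g_4_14_5.weakD) (g_4_15_5.weakD)

/-- A cell. -/
theorem hD_3_7_3 : GoodC (tabsR X9) [] zD 3 7 3 :=
  goodC_split rfl rfl rfl rfl rfl (g_4_14_6.weakD) (g_4_15_6.weakD) (g_4_14_7.weakD) (g_4_15_7.weakD)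

/-- A cell. -/
theorem hD_2_3_1 : GoodC (tabsR X9) [] zD 2 3 1 :=
  goodC_split rfl rfl rfl rfl rfl (g_3_6_2.weakD) (hD_3_7_2) (g_3_6_3.weakD) (hD_3_7_3)

/-- A cell. -/
theorem hD_1_1_0 : GoodC (tabsR X9) [] zD 1 1 0 :=
  goodC_split rfl rfl rfl rfl rfl (hD_2_2_0) (hD_2_3_0) (hD_2_2_1) (hD_2_3_1)

/-- A cell. -/
theorem hD_3_7_4 : GoodC (tabsR X9) [] zD 3 7 4 :=
  goodC_split rfl rfl rfl rfl rfl (g_4_14_8.weakD) (g_4_15_8.weakD) (g_4_14_9.weakD) (g_4_15_9.weakD)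

/-- A cell. -/
theorem hD_3_6_5 : GoodC (tabsR X9) [] zD 3 6 5 :=
  goodC_split rfl rfl rfl rfl rfl (g_4_12_10.weakD) (g_4_13_10.weakD) (g_4_12_11.weakD) (g_4_13_11.weakD)

/-- A cell. -/
theorem hD_4_15_10 : GoodC (tabsR X9) [] zD 4 15 10 :=
  goodC_split rfl rfl rfl rfl rfl (g_5_30_20.weakD) (g_5_31_20.weakD) (g_5_30_21.weakD) (g_5_31_21.weakD)

/-- A cell. -/
theorem hD_4_15_11 : GoodC (tabsR X9) [] zD 4 15 11 :=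
  goodC_split rfl rfl rfl rfl rfl (g_5_30_22.weakD) (g_5_31_22.weakD) (g_5_30_23.weakD) (g_5_31_23.weakD)

/-- A cell. -/
theorem hD_3_7_5 : GoodC (tabsR X9) [] zD 3 7 5 :=
  goodC_split rfl rfl rfl rfl rfl (g_4_14_10.weakD) (hD_4_15_10) (g_4_14_11.weakD) (hD_4_15_11)

/-- A cell. -/
theorem hD_2_3_2 : GoodC (tabsR X9) [] zD 2 3 2 :=
  goodC_split rfl rfl rfl rfl rfl (g_3_6_4.weakD) (hD_3_7_4) (hD_3_6_5) (hD_3_7_5)

/-- A cell. -/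
theorem hD_3_5_7 : GoodC (tabsR X9) [] zD 3 5 7 :=
  goodC_split rfl rfl rfl rfl rfl (g_4_10_14.weakD) (g_4_11_14.weakD) (g_4_10_15.weakD) (g_4_11_15.weakD)

/-- A cell. -/
theorem hD_2_2_3 : GoodC (tabsR X9) [] zD 2 2 3 :=
  goodC_split rfl rfl rfl rfl rfl (g_3_4_6.weakD) (g_3_5_6.weakD) (g_3_4_7.weakD) (hD_3_5_7)

/-- A cell. -/
theorem hD_4_15_12 : GoodC (tabsR X9) [] zD 4 15 12 :=
  goodC_split rfl rfl rfl rfl rfl (g_5_30_24.weakD) (g_5_31_24.weakD) (g_5_30_25.weakD) (g_5_31_25.weakD)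

/-- A cell. -/
theorem hD_4_15_13 : GoodC (tabsR X9) [] zD 4 15 13 :=
  goodC_split rfl rfl rfl rfl rfl (g_5_30_26.weakD) (g_5_31_26.weakD) (g_5_30_27.weakD) (g_5_31_27.weakD)

/-- A cell. -/
theorem hD_3_7_6 : GoodC (tabsR X9) [] zD 3 7 6 :=
  goodC_split rfl rfl rfl rfl rfl (g_4_14_12.weakD) (hD_4_15_12) (g_4_14_13.weakD) (hD_4_15_13)

/-- A cell. -/
theorem hD_4_13_15 : GoodC (tabsR X9) [] zD 4 13 15 :=
  goodC_split rfl rfl rfl rfl rfl (g_5_26_30.weakD) (g_5_27_30.weakD) (g_5_26_31.weakD) (g_5_27_31.weakD)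

/-- A cell. -/
theorem hD_3_6_7 : GoodC (tabsR X9) [] zD 3 6 7 :=
  goodC_split rfl rfl rfl rfl rfl (g_4_12_14.weakD) (g_4_13_14.weakD) (g_4_12_15.weakD) (hD_4_13_15)

/-- A cell. -/
theorem hD_4_15_14 : GoodC (tabsR X9) [] zD 4 15 14 :=
  goodC_split rfl rfl rfl rfl rfl (g_5_30_28.weakD) (g_5_31_28.weakD) (g_5_30_29.weakD) (g_5_31_29.weakD)

/-- A cell. -/
theorem hD_5_29_31 : GoodC (tabsR X9) [] zD 5 29 31 :=
  goodC_split rfl rfl rfl rfl rfl (g_6_58_62.weakD) (g_6_59_62.weakD) (g_6_58_63.weakD) (g_6_59_63.weakD)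

/-- A cell. -/
theorem hD_4_14_15 : GoodC (tabsR X9) [] zD 4 14 15 :=
  goodC_split rfl rfl rfl rfl rfl (g_5_28_30.weakD) (g_5_29_30.weakD) (g_5_28_31.weakD) (hD_5_29_31)

/-- A cell. -/
theorem hD_5_30_30 : GoodC (tabsR X9) [] zD 5 30 30 :=
  goodC_split rfl rfl rfl rfl rfl (g_6_60_60.weakD) (g_6_61_60.weakD) (g_6_60_61.weakD) (g_6_61_61.weakD)

/-- A cell. -/
theorem hD_5_31_30 : GoodC (tabsR X9) [] zD 5 31 30 :=
  goodC_split rfl rfl rfl rfl rfl (g_6_62_60.weakD) (g_6_63_60.weakD) (g_6_62_61.weakD) (g_6_63_61.weakD)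

/-- A cell. -/
theorem hD_6_61_63 : GoodC (tabsR X9) [] zD 6 61 63 :=
  goodC_split rfl rfl rfl rfl rfl (g_7_122_126.weakD) (g_7_123_126.weakD) (g_7_122_127.weakD) (g_7_123_127.weakD)

/-- A cell. -/
theorem hD_5_30_31 : GoodC (tabsR X9) [] zD 5 30 31 :=
  goodC_split rfl rfl rfl rfl rfl (g_6_60_62.weakD) (g_6_61_62.weakD) (g_6_60_63.weakD) (hD_6_61_63)

/-- A cell. -/
theorem hD_6_62_62 : GoodC (tabsR X9) [] zD 6 62 62 :=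
  goodC_split rfl rfl rfl rfl rfl (g_7_124_124.weakD) (g_7_125_124.weakD) (g_7_124_125.weakD) (g_7_125_125.weakD)

/-- A cell. -/
theorem hD_6_63_62 : GoodC (tabsR X9) [] zD 6 63 62 :=
  goodC_split rfl rfl rfl rfl rfl (g_7_126_124.weakD) (g_7_127_124.weakD) (g_7_126_125.weakD) (g_7_127_125.weakD)

/-- A cell. -/
theorem hD_6_62_63 : GoodC (tabsR X9) [] zD 6 62 63 :=
  goodC_split rfl rfl rfl rfl rfl (g_7_124_126.weakD) (g_7_125_126.weakD) (g_7_124_127.weakD) (g_7_125_127.weakD)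

/-- A cell. -/
theorem hD_5_31_31 : GoodC (tabsR X9) [] zD 5 31 31 :=
  goodC_split rfl rfl rfl rfl rfl (hD_6_62_62) (hD_6_63_62) (hD_6_62_63) (g_6_63_63.weakD)

/-- A cell. -/
theorem hD_4_15_15 : GoodC (tabsR X9) [] zD 4 15 15 :=
  goodC_split rfl rfl rfl rfl rfl (hD_5_30_30) (hD_5_31_30) (hD_5_30_31) (hD_5_31_31)

/-- A cell. -/
theorem hD_3_7_7 : GoodC (tabsR X9) [] zD 3 7 7 :=
  goodC_split rfl rfl rfl rfl rfl (g_4_14_14.weakD) (hD_4_15_14) (hD_4_14_15) (hD_4_15_15)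

/-- A cell. -/
theorem hD_2_3_3 : GoodC (tabsR X9) [] zD 2 3 3 :=
  goodC_split rfl rfl rfl rfl rfl (g_3_6_6.weakD) (hD_3_7_6) (hD_3_6_7) (hD_3_7_7)

/-- A cell. -/
theorem hD_1_1_1 : GoodC (tabsR X9) [] zD 1 1 1 :=
  goodC_split rfl rfl rfl rfl rfl (g_2_2_2.weakD) (hD_2_3_2) (hD_2_2_3) (hD_2_3_3)

/-- The two rows of every plane of the list, over the denominator `D`. -/
theorem rows {p : Plane} (hp : p ∈ planes) (D : ℕ) (hD : 0 < D) :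
    (∀ x : Fin 3 → ℝ, (∀ i, 0 < x i) →
      ∑ j, coef p.C D X9.length j * psi (expo X9 j) (-(1 / 2)) x + ((p.C0 : ℝ) / D) * yyv x + ((p.E : ℝ) / D) * mass x
        ≤ phiF (coef p.A D X9.length) (expo X9) x) ∧
    (∀ x : Fin 3 → ℝ, (∀ i, 0 < x i) → 0 ≤ rowD X9 p.C p.Eps p.Eta x) :=
  zone_rows hX9 zF_eq zD_eq hF_0_0_0 z_35_3_0 z_27_4_2 z_23_4_3 g_2_1_0.weakD g_2_1_1.weakD g_2_1_2.weakD hD_2_1_3 hD_1_1_0 hD_1_1_1
    hp (lengths p hp).1 (lengths p hp).2 D hD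

end Vale.Agent.P154.Hel.Direct.Poi2
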