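import Vale.Agent.P154.Hel.FastZone

/-!
Data of a list of planes: the planes and their linear forms on the tables.
-/

namespace Vale.Agent.P154.Hel.Direct.Poi2

open TM

/-- A plane. -/
def p0 : Plane := ⟨[.ofNat 630548, .ofNat 0, .ofNat 19952525, .ofNat 0, .ofNat 0, .ofNat 61677487, .ofNat 45605676, .ofNat 0, .negSucc 83886079], [.ofNat 2516582, .ofNat 0, .ofNat 79332538, .ofNat 0, .ofNat 0, .ofNat 244478413, .ofNat 180972455, .ofNat 0, .negSucc 331950666], .ofNat 117, .negSucc 453, .ofNat 1953, .ofNat 26⟩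

/-- Its row F. -/
def f0 : List ℤ := [.negSucc 262737421, .negSucc 630547, .ofNat 0, .negSucc 19952524, .ofNat 0, .ofNat 0, .negSucc 61677486, .negSucc 45605675, .ofNat 0, .ofNat 83886080, .ofNat 2516582, .ofNat 0, .ofNat 79332538, .ofNat 0, .ofNat 0, .ofNat 244478413, .ofNat 180972455, .ofNat 0, .negSucc 331950666, .negSucc 116]

/-- Its row D. -/
def d0 : List ℤ := [.ofNat 2516582, .ofNat 0, .ofNat 79332538, .ofNat 0, .ofNat 0, .ofNat 244478413, .ofNat 180972455, .ofNat 0, .negSucc 331950666, .ofNat 1953, .ofNat 26]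

/-- A plane. -/
def p1 : Plane := ⟨[.ofNat 631162, .ofNat 0, .ofNat 19670628, .ofNat 0, .ofNat 0, .ofNat 61688056, .ofNat 45775418, .ofNat 0, .negSucc 83886079], [.ofNat 2516582, .ofNat 0, .ofNat 78118085, .ofNat 0, .ofNat 0, .ofNat 244081688, .ofNat 181359050, .ofNat 0, .negSucc 331240817], .ofNat 143, .negSucc 639, .ofNat 2380, .ofNat 16⟩

/-- Its row F. -/
def f1 : List ℤ := [.negSucc 261909525, .negSucc 631161, .ofNat 0, .negSucc 19670627, .ofNat 0, .ofNat 0, .negSucc 61688055, .negSucc 45775417, .ofNat 0, .ofNat 83886080, .ofNat 2516582, .ofNat 0, .ofNat 78118085, .ofNat 0, .ofNat 0, .ofNat 244081688, .ofNat 181359050, .ofNat 0, .negSucc 331240817, .negSucc 142]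

/-- Its row D. -/
def d1 : List ℤ := [.ofNat 2516582, .ofNat 0, .ofNat 78118085, .ofNat 0, .ofNat 0, .ofNat 244081688, .ofNat 181359050, .ofNat 0, .negSucc 331240817, .ofNat 2380, .ofNat 16]

/-- A plane. -/
def p2 : Plane := ⟨[.ofNat 631604, .ofNat 0, .ofNat 19303149, .ofNat 0, .ofNat 0, .ofNat 61701774, .ofNat 45997011, .ofNat 0, .negSucc 83886079], [.ofNat 2516582, .ofNat 0, .ofNat 76538048, .ofNat 0, .ofNat 0, .ofNat 243557474, .ofNat 181856064, .ofNat 0, .negSucc 330306541], .ofNat 173, .negSucc 951, .ofNat 2900, .ofNat 22⟩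

/-- Its row F. -/
def f2 : List ℤ := [.negSucc 260826431, .negSucc 631603, .ofNat 0, .negSucc 19303148, .ofNat 0, .ofNat 0, .negSucc 61701773, .negSucc 45997010, .ofNat 0, .ofNat 83886080, .ofNat 2516582, .ofNat 0, .ofNat 76538048, .ofNat 0, .ofNat 0, .ofNat 243557474, .ofNat 181856064, .ofNat 0, .negSucc 330306541, .negSucc 172]

/-- Its row D. -/
def d2 : List ℤ := [.ofNat 2516582, .ofNat 0, .ofNat 76538048, .ofNat 0, .ofNat 0, .ofNat 243557474, .ofNat 181856064, .ofNat 0, .negSucc 330306541, .ofNat 2900, .ofNat 22]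

/-- A plane. -/
def p3 : Plane := ⟨[.ofNat 632143, .ofNat 0, .ofNat 18855653, .ofNat 0, .ofNat 0, .ofNat 61720890, .ofNat 46265180, .ofNat 0, .negSucc 83886079], [.ofNat 2516582, .ofNat 0, .ofNat 74620296, .ofNat 0, .ofNat 0, .ofNat 242924759, .ofNat 182450410, .ofNat 0, .negSucc 329171403], .ofNat 211, .negSucc 1389, .ofNat 3535, .ofNat 31⟩

/-- Its row F. -/
def f3 : List ℤ := [.negSucc 259502933, .negSucc 632142, .ofNat 0, .negSucc 18855652, .ofNat 0, .ofNat 0, .negSucc 61720889, .negSucc 46265179, .ofNat 0, .ofNat 83886080, .ofNat 2516582, .ofNat 0, .ofNat 74620296, .ofNat 0, .ofNat 0, .ofNat 242924759, .ofNat 182450410, .ofNat 0, .negSucc 329171403, .negSucc 210]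

/-- Its row D. -/
def d3 : List ℤ := [.ofNat 2516582, .ofNat 0, .ofNat 74620296, .ofNat 0, .ofNat 0, .ofNat 242924759, .ofNat 182450410, .ofNat 0, .negSucc 329171403, .ofNat 3535, .ofNat 31]

/-- A plane. -/
def p4 : Plane := ⟨[.ofNat 632134, .ofNat 0, .ofNat 18326424, .ofNat 0, .ofNat 0, .ofNat 61740369, .ofNat 46587377, .ofNat 0, .negSucc 83886079], [.ofNat 2516582, .ofNat 0, .ofNat 72356385, .ofNat 0, .ofNat 0, .ofNat 242173802, .ofNat 183154841, .ofNat 0, .negSucc 327827697], .ofNat 255, .negSucc 2026, .ofNat 4273, .ofNat 59⟩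

/-- Its row F. -/
def f4 : List ℤ := [.negSucc 257943321, .negSucc 632133, .ofNat 0, .negSucc 18326423, .ofNat 0, .ofNat 0, .negSucc 61740368, .negSucc 46587376, .ofNat 0, .ofNat 83886080, .ofNat 2516582, .ofNat 0, .ofNat 72356385, .ofNat 0, .ofNat 0, .ofNat 242173802, .ofNat 183154841, .ofNat 0, .negSucc 327827697, .negSucc 254]

/-- Its row D. -/
def d4 : List ℤ := [.ofNat 2516582, .ofNat 0, .ofNat 72356385, .ofNat 0, .ofNat 0, .ofNat 242173802, .ofNat 183154841, .ofNat 0, .negSucc 327827697, .ofNat 4273, .ofNat 59]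

/-- A plane. -/
def p5 : Plane := ⟨[.ofNat 632760, .ofNat 0, .ofNat 17690503, .ofNat 0, .ofNat 0, .ofNat 61766982, .ofNat 46971098, .ofNat 0, .negSucc 83886079], [.ofNat 2516582, .ofNat 0, .ofNat 69655811, .ofNat 0, .ofNat 0, .ofNat 241281085, .ofNat 184015232, .ofNat 0, .negSucc 326238987], .ofNat 308, .negSucc 2960, .ofNat 5165, .ofNat 81⟩

/-- Its row F. -/
def f5 : List ℤ := [.negSucc 256102995, .negSucc 632759, .ofNat 0, .negSucc 17690502, .ofNat 0, .ofNat 0, .negSucc 61766981, .negSucc 46971097, .ofNat 0, .ofNat 83886080, .ofNat 2516582, .ofNat 0, .ofNat 69655811, .ofNat 0, .ofNat 0, .ofNat 241281085, .ofNat 184015232, .ofNat 0, .negSucc 326238987, .negSucc 307]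

/-- Its row D. -/
def d5 : List ℤ := [.ofNat 2516582, .ofNat 0, .ofNat 69655811, .ofNat 0, .ofNat 0, .ofNat 241281085, .ofNat 184015232, .ofNat 0, .negSucc 326238987, .ofNat 5165, .ofNat 81]

/-- A plane. -/
def p6 : Plane := ⟨[.ofNat 633517, .ofNat 0, .ofNat 16944728, .ofNat 0, .ofNat 0, .ofNat 61797562, .ofNat 47423905, .ofNat 0, .negSucc 83886079], [.ofNat 2516582, .ofNat 0, .ofNat 66500212, .ofNat 0, .ofNat 0, .ofNat 240205857, .ofNat 184980070, .ofNat 0, .negSucc 324328844], .ofNat 371, .negSucc 4213, .ofNat 6244, .ofNat 109⟩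

/-- Its row F. -/
def f6 : List ℤ := [.negSucc 253912059, .negSucc 633516, .ofNat 0, .negSucc 16944727, .ofNat 0, .ofNat 0, .negSucc 61797561, .negSucc 47423904, .ofNat 0, .ofNat 83886080, .ofNat 2516582, .ofNat 0, .ofNat 66500212, .ofNat 0, .ofNat 0, .ofNat 240205857, .ofNat 184980070, .ofNat 0, .negSucc 324328844, .negSucc 370]

/-- Its row D. -/
def d6 : List ℤ := [.ofNat 2516582, .ofNat 0, .ofNat 66500212, .ofNat 0, .ofNat 0, .ofNat 240205857, .ofNat 184980070, .ofNat 0, .negSucc 324328844, .ofNat 6244, .ofNat 109]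

/-- A plane. -/
def p7 : Plane := ⟨[.ofNat 634434, .ofNat 0, .ofNat 16449097, .ofNat 0, .ofNat 0, .ofNat 61790465, .ofNat 47736527, .ofNat 0, .negSucc 83886079], [.ofNat 2516582, .ofNat 0, .ofNat 64328808, .ofNat 0, .ofNat 0, .ofNat 238725387, .ofNat 185262812, .ofNat 0, .negSucc 322091749], .ofNat 445, .negSucc 5822, .ofNat 7488, .ofNat 174⟩

/-- Its row F. -/
def f7 : List ℤ := [.negSucc 252023145, .negSucc 634433, .ofNat 0, .negSucc 16449096, .ofNat 0, .ofNat 0, .negSucc 61790464, .negSucc 47736526, .ofNat 0, .ofNat 83886080, .ofNat 2516582, .ofNat 0, .ofNat 64328808, .ofNat 0, .ofNat 0, .ofNat 238725387, .ofNat 185262812, .ofNat 0, .negSucc 322091749, .negSucc 444]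

/-- Its row D. -/
def d7 : List ℤ := [.ofNat 2516582, .ofNat 0, .ofNat 64328808, .ofNat 0, .ofNat 0, .ofNat 238725387, .ofNat 185262812, .ofNat 0, .negSucc 322091749, .ofNat 7488, .ofNat 174]

/-- A plane. -/
def p8 : Plane := ⟨[.ofNat 635493, .ofNat 0, .ofNat 18121951, .ofNat 0, .ofNat 0, .ofNat 61420282, .ofNat 46925378, .ofNat 0, .negSucc 83886079], [.ofNat 2516582, .ofNat 0, .ofNat 70553120, .ofNat 0, .ofNat 0, .ofNat 235722188, .ofNat 181059606, .ofNat 0, .negSucc 319604379], .ofNat 500, .negSucc 8047, .ofNat 8389, .ofNat 205⟩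

/-- Its row F. -/
def f8 : List ℤ := [.negSucc 254044087, .negSucc 635492, .ofNat 0, .negSucc 18121950, .ofNat 0, .ofNat 0, .negSucc 61420281, .negSucc 46925377, .ofNat 0, .ofNat 83886080, .ofNat 2516582, .ofNat 0, .ofNat 70553120, .ofNat 0, .ofNat 0, .ofNat 235722188, .ofNat 181059606, .ofNat 0, .negSucc 319604379, .negSucc 499]

/-- Its row D. -/
def d8 : List ℤ := [.ofNat 2516582, .ofNat 0, .ofNat 70553120, .ofNat 0, .ofNat 0, .ofNat 235722188, .ofNat 181059606, .ofNat 0, .negSucc 319604379, .ofNat 8389, .ofNat 205]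

/-- A plane. -/
def p9 : Plane := ⟨[.ofNat 636650, .ofNat 0, .ofNat 19949926, .ofNat 0, .ofNat 0, .ofNat 61016280, .ofNat 46040215, .ofNat 0, .negSucc 83886079], [.ofNat 2516582, .ofNat 0, .ofNat 77301526, .ofNat 0, .ofNat 0, .ofNat 232557307, .ofNat 176585434, .ofNat 0, .negSucc 317033765], .ofNat 504, .negSucc 11001, .ofNat 8389, .ofNat 288⟩

/-- Its row F. -/
def f9 : List ℤ := [.negSucc 256318179, .negSucc 636649, .ofNat 0, .negSucc 19949925, .ofNat 0, .ofNat 0, .negSucc 61016279, .negSucc 46040214, .ofNat 0, .ofNat 83886080, .ofNat 2516582, .ofNat 0, .ofNat 77301526, .ofNat 0, .ofNat 0, .ofNat 232557307, .ofNat 176585434, .ofNat 0, .negSucc 317033765, .negSucc 503]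

/-- Its row D. -/
def d9 : List ℤ := [.ofNat 2516582, .ofNat 0, .ofNat 77301526, .ofNat 0, .ofNat 0, .ofNat 232557307, .ofNat 176585434, .ofNat 0, .negSucc 317033765, .ofNat 8389, .ofNat 288]

/-- A plane. -/
def p10 : Plane := ⟨[.ofNat 637805, .ofNat 0, .ofNat 21565174, .ofNat 0, .ofNat 0, .ofNat 60663646, .ofNat 45249262, .ofNat 0, .negSucc 83886079], [.ofNat 2516582, .ofNat 0, .ofNat 83203760, .ofNat 0, .ofNat 0, .ofNat 229682743, .ofNat 172548416, .ofNat 0, .negSucc 314616149], .ofNat 508, .negSucc 13935, .ofNat 8389, .ofNat 394⟩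

/-- Its row F. -/
def f10 : List ℤ := [.negSucc 258183215, .negSucc 637804, .ofNat 0, .negSucc 21565173, .ofNat 0, .ofNat 0, .negSucc 60663645, .negSucc 45249261, .ofNat 0, .ofNat 83886080, .ofNat 2516582, .ofNat 0, .ofNat 83203760, .ofNat 0, .ofNat 0, .ofNat 229682743, .ofNat 172548416, .ofNat 0, .negSucc 314616149, .negSucc 507]

/-- Its row D. -/
def d10 : List ℤ := [.ofNat 2516582, .ofNat 0, .ofNat 83203760, .ofNat 0, .ofNat 0, .ofNat 229682743, .ofNat 172548416, .ofNat 0, .negSucc 314616149, .ofNat 8389, .ofNat 394]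

/-- A plane. -/
def p11 : Plane := ⟨[.ofNat 638845, .ofNat 0, .ofNat 23026648, .ofNat 0, .ofNat 0, .ofNat 60347208, .ofNat 44530293, .ofNat 0, .negSucc 83886079], [.ofNat 2516582, .ofNat 0, .ofNat 88517564, .ofNat 0, .ofNat 0, .ofNat 227129341, .ofNat 168939085, .ofNat 0, .negSucc 312484967], .ofNat 511, .negSucc 16861, .ofNat 8389, .ofNat 408⟩

/-- Its row F. -/
def f11 : List ℤ := [.negSucc 259887655, .negSucc 638844, .ofNat 0, .negSucc 23026647, .ofNat 0, .ofNat 0, .negSucc 60347207, .negSucc 44530292, .ofNat 0, .ofNat 83886080, .ofNat 2516582, .ofNat 0, .ofNat 88517564, .ofNat 0, .ofNat 0, .ofNat 227129341, .ofNat 168939085, .ofNat 0, .negSucc 312484967, .negSucc 510]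

/-- Its row D. -/
def d11 : List ℤ := [.ofNat 2516582, .ofNat 0, .ofNat 88517564, .ofNat 0, .ofNat 0, .ofNat 227129341, .ofNat 168939085, .ofNat 0, .negSucc 312484967, .ofNat 8389, .ofNat 408]

/-- A plane. -/
def p12 : Plane := ⟨[.ofNat 639757, .ofNat 0, .ofNat 9113928, .ofNat 0, .ofNat 0, .ofNat 3556293, .ofNat 26246231, .ofNat 67876085, .negSucc 83886079], [.ofNat 2516582, .ofNat 0, .ofNat 34946116, .ofNat 0, .ofNat 0, .ofNat 13322039, .ofNat 99174778, .ofNat 252590435, .negSucc 310717599], .ofNat 513, .negSucc 10191, .ofNat 8389, .ofNat 413⟩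

/-- Its row F. -/
def f12 : List ℤ := [.negSucc 136551887, .negSucc 639756, .ofNat 0, .negSucc 9113927, .ofNat 0, .ofNat 0, .negSucc 3556292, .negSucc 26246230, .negSucc 67876084, .ofNat 83886080, .ofNat 2516582, .ofNat 0, .ofNat 34946116, .ofNat 0, .ofNat 0, .ofNat 13322039, .ofNat 99174778, .ofNat 252590435, .negSucc 310717599, .negSucc 512]

/-- Its row D. -/
def d12 : List ℤ := [.ofNat 2516582, .ofNat 0, .ofNat 34946116, .ofNat 0, .ofNat 0, .ofNat 13322039, .ofNat 99174778, .ofNat 252590435, .negSucc 310717599, .ofNat 8389, .ofNat 413]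

/-- A plane. -/
def p13 : Plane := ⟨[.ofNat 640476, .ofNat 0, .ofNat 8859868, .ofNat 0, .ofNat 0, .ofNat 0, .ofNat 24860604, .ofNat 71972791, .negSucc 83886079], [.ofNat 2516582, .ofNat 0, .ofNat 33875582, .ofNat 0, .ofNat 0, .ofNat 0, .ofNat 93601545, .ofNat 266677126, .negSucc 309257992], .ofNat 516, .negSucc 11119, .ofNat 8389, .ofNat 407⟩

/-- Its row F. -/
def f13 : List ℤ := [.negSucc 129908125, .negSucc 640475, .ofNat 0, .negSucc 8859867, .ofNat 0, .ofNat 0, .ofNat 0, .negSucc 24860603, .negSucc 71972790, .ofNat 83886080, .ofNat 2516582, .ofNat 0, .ofNat 33875582, .ofNat 0, .ofNat 0, .ofNat 0, .ofNat 93601545, .ofNat 266677126, .negSucc 309257992, .negSucc 515]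

/-- Its row D. -/
def d13 : List ℤ := [.ofNat 2516582, .ofNat 0, .ofNat 33875582, .ofNat 0, .ofNat 0, .ofNat 0, .ofNat 93601545, .ofNat 266677126, .negSucc 309257992, .ofNat 8389, .ofNat 407]

/-- A plane. -/
def p14 : Plane := ⟨[.ofNat 641112, .ofNat 0, .ofNat 9217736, .ofNat 0, .ofNat 0, .ofNat 0, .ofNat 24714724, .ofNat 71886800, .negSucc 83886079], [.ofNat 2516582, .ofNat 0, .ofNat 35192244, .ofNat 0, .ofNat 0, .ofNat 0, .ofNat 92862706, .ofNat 265645988, .negSucc 308388291], .ofNat 516, .negSucc 12056, .ofNat 8389, .ofNat 522⟩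

/-- Its row F. -/
def f14 : List ℤ := [.negSucc 130485757, .negSucc 641111, .ofNat 0, .negSucc 9217735, .ofNat 0, .ofNat 0, .ofNat 0, .negSucc 24714723, .negSucc 71886799, .ofNat 83886080, .ofNat 2516582, .ofNat 0, .ofNat 35192244, .ofNat 0, .ofNat 0, .ofNat 0, .ofNat 92862706, .ofNat 265645988, .negSucc 308388291, .negSucc 515]

/-- Its row D. -/
def d14 : List ℤ := [.ofNat 2516582, .ofNat 0, .ofNat 35192244, .ofNat 0, .ofNat 0, .ofNat 0, .ofNat 92862706, .ofNat 265645988, .negSucc 308388291, .ofNat 8389, .ofNat 522]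

/-- A plane. -/
def p15 : Plane := ⟨[.ofNat 29241421, .ofNat 0, .ofNat 0, .negSucc 52969218, .ofNat 23853719, .ofNat 83886080, .ofNat 19102885, .ofNat 11955774, .negSucc 83886079], [.ofNat 114794090, .ofNat 0, .ofNat 0, .negSucc 201487532, .ofNat 89210026, .ofNat 312522048, .ofNat 71836560, .ofNat 44227806, .negSucc 308729638], .ofNat 517, .negSucc 10834, .ofNat 8389, .ofNat 472⟩

/-- Its row F. -/
def f15 : List ℤ := [.negSucc 182355885, .negSucc 29241420, .ofNat 0, .ofNat 0, .ofNat 52969219, .negSucc 23853718, .negSucc 83886079, .negSucc 19102884, .negSucc 11955773, .ofNat 83886080, .ofNat 114794090, .ofNat 0, .ofNat 0, .negSucc 201487532, .ofNat 89210026, .ofNat 312522048, .ofNat 71836560, .ofNat 44227806, .negSucc 308729638, .negSucc 516]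

/-- Its row D. -/
def d15 : List ℤ := [.ofNat 114794090, .ofNat 0, .ofNat 0, .negSucc 201487532, .ofNat 89210026, .ofNat 312522048, .ofNat 71836560, .ofNat 44227806, .negSucc 308729638, .ofNat 8389, .ofNat 472]

/-- A plane. -/
def p16 : Plane := ⟨[.ofNat 33672787, .ofNat 0, .ofNat 0, .negSucc 66723044, .ofNat 33161362, .ofNat 83886080, .ofNat 8776636, .ofNat 18087398, .negSucc 83886079], [.ofNat 131986974, .ofNat 0, .ofNat 0, .negSucc 252805983, .ofNat 123335592, .ofNat 310834348, .ofNat 32846349, .ofNat 66493682, .negSucc 306716251], .ofNat 520, .negSucc 9311, .ofNat 8389, .ofNat 453⟩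

/-- Its row F. -/
def f16 : List ℤ := [.negSucc 157980517, .negSucc 33672786, .ofNat 0, .ofNat 0, .ofNat 66723045, .negSucc 33161361, .negSucc 83886079, .negSucc 8776635, .negSucc 18087397, .ofNat 83886080, .ofNat 131986974, .ofNat 0, .ofNat 0, .negSucc 252805983, .ofNat 123335592, .ofNat 310834348, .ofNat 32846349, .ofNat 66493682, .negSucc 306716251, .negSucc 519]

/-- Its row D. -/
def d16 : List ℤ := [.ofNat 131986974, .ofNat 0, .ofNat 0, .negSucc 252805983, .ofNat 123335592, .ofNat 310834348, .ofNat 32846349, .ofNat 66493682, .negSucc 306716251, .ofNat 8389, .ofNat 453]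

/-- A plane. -/
def p17 : Plane := ⟨[.ofNat 37046929, .ofNat 0, .ofNat 0, .negSucc 75821031, .ofNat 38822591, .ofNat 83886080, .ofNat 2256932, .ofNat 22259760, .negSucc 83886079], [.ofNat 144991573, .ofNat 0, .ofNat 0, .negSucc 286162526, .ofNat 143687537, .ofNat 309089557, .ofNat 8404388, .ofNat 81335914, .negSucc 304744564], .ofNat 523, .negSucc 7909, .ofNat 8389, .ofNat 444⟩

/-- Its row F. -/
def f17 : List ℤ := [.negSucc 144057573, .negSucc 37046928, .ofNat 0, .ofNat 0, .ofNat 75821032, .negSucc 38822590, .negSucc 83886079, .negSucc 2256931, .negSucc 22259759, .ofNat 83886080, .ofNat 144991573, .ofNat 0, .ofNat 0, .negSucc 286162526, .ofNat 143687537, .ofNat 309089557, .ofNat 8404388, .ofNat 81335914, .negSucc 304744564, .negSucc 522]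

/-- Its row D. -/
def d17 : List ℤ := [.ofNat 144991573, .ofNat 0, .ofNat 0, .negSucc 286162526, .ofNat 143687537, .ofNat 309089557, .ofNat 8404388, .ofNat 81335914, .negSucc 304744564, .ofNat 8389, .ofNat 444]

/-- A plane. -/
def p18 : Plane := ⟨[.ofNat 38618666, .ofNat 0, .ofNat 0, .negSucc 79075404, .ofNat 40448799, .ofNat 83886080, .ofNat 0, .ofNat 23944227, .negSucc 83886079], [.ofNat 150916923, .ofNat 0, .ofNat 0, .negSucc 297310616, .ofNat 148910276, .ofNat 307424088, .ofNat 0, .ofNat 87009664, .negSucc 302825119], .ofNat 527, .negSucc 8115, .ofNat 8389, .ofNat 439⟩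

/-- Its row F. -/
def f18 : List ℤ := [.negSucc 140361621, .negSucc 38618665, .ofNat 0, .ofNat 0, .ofNat 79075405, .negSucc 40448798, .negSucc 83886079, .ofNat 0, .negSucc 23944226, .ofNat 83886080, .ofNat 150916923, .ofNat 0, .ofNat 0, .negSucc 297310616, .ofNat 148910276, .ofNat 307424088, .ofNat 0, .ofNat 87009664, .negSucc 302825119, .negSucc 526]

/-- Its row D. -/
def d18 : List ℤ := [.ofNat 150916923, .ofNat 0, .ofNat 0, .negSucc 297310616, .ofNat 148910276, .ofNat 307424088, .ofNat 0, .ofNat 87009664, .negSucc 302825119, .ofNat 8389, .ofNat 439]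

/-- A plane. -/
def p19 : Plane := ⟨[.ofNat 38892656, .ofNat 0, .ofNat 0, .negSucc 79028011, .ofNat 40057934, .ofNat 83886080, .ofNat 0, .ofNat 24162818, .negSucc 83886079], [.ofNat 151790750, .ofNat 0, .ofNat 0, .negSucc 296031928, .ofNat 146757761, .ofNat 305779956, .ofNat 0, .ofNat 87303752, .negSucc 300966574], .ofNat 530, .negSucc 9092, .ofNat 8389, .ofNat 409⟩

/-- Its row F. -/
def f19 : List ℤ := [.negSucc 141078451, .negSucc 38892655, .ofNat 0, .ofNat 0, .ofNat 79028012, .negSucc 40057933, .negSucc 83886079, .ofNat 0, .negSucc 24162817, .ofNat 83886080, .ofNat 151790750, .ofNat 0, .ofNat 0, .negSucc 296031928, .ofNat 146757761, .ofNat 305779956, .ofNat 0, .ofNat 87303752, .negSucc 300966574, .negSucc 529]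

/-- Its row D. -/
def d19 : List ℤ := [.ofNat 151790750, .ofNat 0, .ofNat 0, .negSucc 296031928, .ofNat 146757761, .ofNat 305779956, .ofNat 0, .ofNat 87303752, .negSucc 300966574, .ofNat 8389, .ofNat 409]

/-- A plane. -/
def p20 : Plane := ⟨[.ofNat 38014711, .ofNat 0, .ofNat 0, .negSucc 77020345, .ofNat 38897801, .ofNat 79967542, .ofNat 0, .ofNat 27537438, .negSucc 83886079], [.ofNat 148155145, .ofNat 0, .ofNat 0, .negSucc 287499857, .ofNat 141861296, .ofNat 290022854, .ofNat 0, .ofNat 98935432, .negSucc 299216638], .ofNat 532, .negSucc 9289, .ofNat 8389, .ofNat 412⟩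

/-- Its row F. -/
def f20 : List ℤ := [.negSucc 137475747, .negSucc 38014710, .ofNat 0, .ofNat 0, .ofNat 77020346, .negSucc 38897800, .negSucc 79967541, .ofNat 0, .negSucc 27537437, .ofNat 83886080, .ofNat 148155145, .ofNat 0, .ofNat 0, .negSucc 287499857, .ofNat 141861296, .ofNat 290022854, .ofNat 0, .ofNat 98935432, .negSucc 299216638, .negSucc 531]

/-- Its row D. -/
def d20 : List ℤ := [.ofNat 148155145, .ofNat 0, .ofNat 0, .negSucc 287499857, .ofNat 141861296, .ofNat 290022854, .ofNat 0, .ofNat 98935432, .negSucc 299216638, .ofNat 8389, .ofNat 412]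

/-- A plane. -/
def p21 : Plane := ⟨[.ofNat 30454708, .ofNat 0, .ofNat 0, .negSucc 61653504, .ofNat 31215787, .ofNat 48661638, .ofNat 0, .ofNat 53794763, .negSucc 83886079], [.ofNat 118537199, .ofNat 0, .ofNat 0, .negSucc 229397220, .ofNat 113376604, .ofNat 175714505, .ofNat 0, .ofNat 192243702, .negSucc 297617263], .ofNat 535, .negSucc 7874, .ofNat 8389, .ofNat 410⟩

/-- Its row F. -/
def f21 : List ℤ := [.negSucc 108524677, .negSucc 30454707, .ofNat 0, .ofNat 0, .ofNat 61653505, .negSucc 31215786, .negSucc 48661637, .ofNat 0, .negSucc 53794762, .ofNat 83886080, .ofNat 118537199, .ofNat 0, .ofNat 0, .negSucc 229397220, .ofNat 113376604, .ofNat 175714505, .ofNat 0, .ofNat 192243702, .negSucc 297617263, .negSucc 534]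

/-- Its row D. -/
def d21 : List ℤ := [.ofNat 118537199, .ofNat 0, .ofNat 0, .negSucc 229397220, .ofNat 113376604, .ofNat 175714505, .ofNat 0, .ofNat 192243702, .negSucc 297617263, .ofNat 8389, .ofNat 410]

/-- A plane. -/
def p22 : Plane := ⟨[.ofNat 28637973, .ofNat 0, .ofNat 0, .negSucc 57566842, .ofNat 29280420, .ofNat 40116380, .ofNat 0, .ofNat 60846312, .negSucc 83886079], [.ofNat 111376011, .ofNat 0, .ofNat 0, .negSucc 213568703, .ofNat 105892957, .ofNat 144259602, .ofNat 0, .ofNat 216489442, .negSucc 296180499], .ofNat 537, .negSucc 7724, .ofNat 8389, .ofNat 415⟩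

/-- Its row F. -/
def f22 : List ℤ := [.negSucc 101665841, .negSucc 28637972, .ofNat 0, .ofNat 0, .ofNat 57566843, .negSucc 29280419, .negSucc 40116379, .ofNat 0, .negSucc 60846311, .ofNat 83886080, .ofNat 111376011, .ofNat 0, .ofNat 0, .negSucc 213568703, .ofNat 105892957, .ofNat 144259602, .ofNat 0, .ofNat 216489442, .negSucc 296180499, .negSucc 536]

/-- Its row D. -/
def d22 : List ℤ := [.ofNat 111376011, .ofNat 0, .ofNat 0, .negSucc 213568703, .ofNat 105892957, .ofNat 144259602, .ofNat 0, .ofNat 216489442, .negSucc 296180499, .ofNat 8389, .ofNat 415]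

/-- A plane. -/
def p23 : Plane := ⟨[.ofNat 29163320, .ofNat 12628848, .ofNat 0, .negSucc 80061160, .ofNat 25555913, .ofNat 60140221, .ofNat 0, .ofNat 53882501, .negSucc 83886079], [.ofNat 113300770, .ofNat 47765975, .ofNat 0, .negSucc 296255141, .ofNat 92107628, .ofNat 215465496, .ofNat 0, .ofNat 190955185, .negSucc 294912960], .ofNat 539, .negSucc 6898, .ofNat 8389, .ofNat 415⟩

/-- Its row F. -/
def f23 : List ℤ := [.negSucc 101992979, .negSucc 29163319, .negSucc 12628847, .ofNat 0, .ofNat 80061161, .negSucc 25555912, .negSucc 60140220, .ofNat 0, .negSucc 53882500, .ofNat 83886080, .ofNat 113300770, .ofNat 47765975, .ofNat 0, .negSucc 296255141, .ofNat 92107628, .ofNat 215465496, .ofNat 0, .ofNat 190955185, .negSucc 294912960, .negSucc 538]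

/-- Its row D. -/
def d23 : List ℤ := [.ofNat 113300770, .ofNat 47765975, .ofNat 0, .negSucc 296255141, .ofNat 92107628, .ofNat 215465496, .ofNat 0, .ofNat 190955185, .negSucc 294912960, .ofNat 8389, .ofNat 415]

/-- A plane. -/
def p24 : Plane := ⟨[.ofNat 24720227, .ofNat 20526109, .ofNat 0, .negSucc 83886079, .ofNat 19305451, .ofNat 50155680, .ofNat 0, .ofNat 67491605, .negSucc 83886079], [.ofNat 95950597, .ofNat 77498311, .ofNat 0, .negSucc 309677987, .ofNat 69393460, .ofNat 179077809, .ofNat 0, .ofNat 238326203, .negSucc 293761571], .ofNat 541, .negSucc 4834, .ofNat 8389, .ofNat 410⟩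

/-- Its row F. -/
def f24 : List ℤ := [.negSucc 84750145, .negSucc 24720226, .negSucc 20526108, .ofNat 0, .ofNat 83886080, .negSucc 19305450, .negSucc 50155679, .ofNat 0, .negSucc 67491604, .ofNat 83886080, .ofNat 95950597, .ofNat 77498311, .ofNat 0, .negSucc 309677987, .ofNat 69393460, .ofNat 179077809, .ofNat 0, .ofNat 238326203, .negSucc 293761571, .negSucc 540]

/-- Its row D. -/
def d24 : List ℤ := [.ofNat 95950597, .ofNat 77498311, .ofNat 0, .negSucc 309677987, .ofNat 69393460, .ofNat 179077809, .ofNat 0, .ofNat 238326203, .negSucc 293761571, .ofNat 8389, .ofNat 410]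

/-- A plane. -/
def p25 : Plane := ⟨[.ofNat 23855645, .ofNat 21643124, .ofNat 0, .negSucc 83886079, .ofNat 18279794, .ofNat 47382306, .ofNat 0, .ofNat 70463609, .negSucc 83886079], [.ofNat 92514116, .ofNat 81561890, .ofNat 0, .negSucc 308990272, .ofNat 65503507, .ofNat 168673514, .ofNat 0, .ofNat 247961412, .negSucc 292679565], .ofNat 543, .negSucc 4705, .ofNat 8389, .ofNat 419⟩

/-- Its row F. -/
def f25 : List ℤ := [.negSucc 81375151, .negSucc 23855644, .negSucc 21643123, .ofNat 0, .ofNat 83886080, .negSucc 18279793, .negSucc 47382305, .ofNat 0, .negSucc 70463608, .ofNat 83886080, .ofNat 92514116, .ofNat 81561890, .ofNat 0, .negSucc 308990272, .ofNat 65503507, .ofNat 168673514, .ofNat 0, .ofNat 247961412, .negSucc 292679565, .negSucc 542]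

/-- Its row D. -/
def d25 : List ℤ := [.ofNat 92514116, .ofNat 81561890, .ofNat 0, .negSucc 308990272, .ofNat 65503507, .ofNat 168673514, .ofNat 0, .ofNat 247961412, .negSucc 292679565, .ofNat 8389, .ofNat 419]

/-- A plane. -/
def p26 : Plane := ⟨[.ofNat 22339959, .ofNat 23783913, .ofNat 0, .negSucc 83886079, .ofNat 16250323, .ofNat 41890323, .ofNat 0, .ofNat 76337938, .negSucc 83886079], [.ofNat 86565083, .ofNat 89526580, .ofNat 0, .negSucc 308329711, .ofNat 58061445, .ofNat 148668049, .ofNat 0, .ofNat 267742670, .negSucc 291642388], .ofNat 545, .negSucc 3959, .ofNat 8389, .ofNat 414⟩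

/-- Its row F. -/
def f26 : List ℤ := [.negSucc 75514939, .negSucc 22339958, .negSucc 23783912, .ofNat 0, .ofNat 83886080, .negSucc 16250322, .negSucc 41890322, .ofNat 0, .negSucc 76337937, .ofNat 83886080, .ofNat 86565083, .ofNat 89526580, .ofNat 0, .negSucc 308329711, .ofNat 58061445, .ofNat 148668049, .ofNat 0, .ofNat 267742670, .negSucc 291642388, .negSucc 544]

/-- Its row D. -/
def d26 : List ℤ := [.ofNat 86565083, .ofNat 89526580, .ofNat 0, .negSucc 308329711, .ofNat 58061445, .ofNat 148668049, .ofNat 0, .ofNat 267742670, .negSucc 291642388, .ofNat 8389, .ofNat 414]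

/-- A plane. -/
def p27 : Plane := ⟨[.ofNat 21267315, .ofNat 25380030, .ofNat 0, .negSucc 83886079, .ofNat 14773211, .ofNat 37639226, .ofNat 0, .ofNat 80816720, .negSucc 83886079], [.ofNat 82342220, .ofNat 95387230, .ofNat 0, .negSucc 307681956, .ofNat 52632570, .ofNat 133180267, .ofNat 0, .ofNat 282545447, .negSucc 290626725], .ofNat 547, .negSucc 3558, .ofNat 8389, .ofNat 418⟩

/-- Its row F. -/
def f27 : List ℤ := [.negSucc 71342299, .negSucc 21267314, .negSucc 25380029, .ofNat 0, .ofNat 83886080, .negSucc 14773210, .negSucc 37639225, .ofNat 0, .negSucc 80816719, .ofNat 83886080, .ofNat 82342220, .ofNat 95387230, .ofNat 0, .negSucc 307681956, .ofNat 52632570, .ofNat 133180267, .ofNat 0, .ofNat 282545447, .negSucc 290626725, .negSucc 546]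

/-- Its row D. -/
def d27 : List ℤ := [.ofNat 82342220, .ofNat 95387230, .ofNat 0, .negSucc 307681956, .ofNat 52632570, .ofNat 133180267, .ofNat 0, .ofNat 282545447, .negSucc 290626725, .ofNat 8389, .ofNat 418]

/-- A plane. -/
def p28 : Plane := ⟨[.ofNat 20516387, .ofNat 26474305, .ofNat 0, .negSucc 83886079, .ofNat 13804455, .ofNat 34690701, .ofNat 0, .ofNat 83886080, .negSucc 83886079], [.ofNat 79371861, .ofNat 99349123, .ofNat 0, .negSucc 307033210, .ofNat 49042772, .ofNat 122367170, .ofNat 0, .ofNat 292329886, .negSucc 289611505], .ofNat 548, .negSucc 3048, .ofNat 8389, .ofNat 410⟩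

/-- Its row F. -/
def f28 : List ℤ := [.negSucc 68426555, .negSucc 20516386, .negSucc 26474304, .ofNat 0, .ofNat 83886080, .negSucc 13804454, .negSucc 34690700, .ofNat 0, .negSucc 83886079, .ofNat 83886080, .ofNat 79371861, .ofNat 99349123, .ofNat 0, .negSucc 307033210, .ofNat 49042772, .ofNat 122367170, .ofNat 0, .ofNat 292329886, .negSucc 289611505, .negSucc 547]

/-- Its row D. -/
def d28 : List ℤ := [.ofNat 79371861, .ofNat 99349123, .ofNat 0, .negSucc 307033210, .ofNat 49042772, .ofNat 122367170, .ofNat 0, .ofNat 292329886, .negSucc 289611505, .ofNat 8389, .ofNat 410]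

/-- A plane. -/
def p29 : Plane := ⟨[.ofNat 20391807, .ofNat 26480526, .ofNat 0, .negSucc 83886079, .ofNat 13902778, .ofNat 34630594, .ofNat 0, .ofNat 83886080, .negSucc 83886079], [.ofNat 78825878, .ofNat 99218220, .ofNat 0, .negSucc 306370086, .ofNat 49249703, .ofNat 121811231, .ofNat 0, .ofNat 291328734, .negSucc 288575242], .ofNat 550, .negSucc 3204, .ofNat 8389, .ofNat 406⟩

/-- Its row F. -/
def f29 : List ℤ := [.negSucc 67931211, .negSucc 20391806, .negSucc 26480525, .ofNat 0, .ofNat 83886080, .negSucc 13902777, .negSucc 34630593, .ofNat 0, .negSucc 83886079, .ofNat 83886080, .ofNat 78825878, .ofNat 99218220, .ofNat 0, .negSucc 306370086, .ofNat 49249703, .ofNat 121811231, .ofNat 0, .ofNat 291328734, .negSucc 288575242, .negSucc 549]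

/-- Its row D. -/
def d29 : List ℤ := [.ofNat 78825878, .ofNat 99218220, .ofNat 0, .negSucc 306370086, .ofNat 49249703, .ofNat 121811231, .ofNat 0, .ofNat 291328734, .negSucc 288575242, .ofNat 8389, .ofNat 406]

/-- A plane. -/
def p30 : Plane := ⟨[.ofNat 19967984, .ofNat 26961906, .ofNat 0, .negSucc 83886079, .ofNat 13467716, .ofNat 34036959, .ofNat 0, .ofNat 83886080, .negSucc 83193838], [.ofNat 77123405, .ofNat 100861251, .ofNat 0, .negSucc 305707125, .ofNat 47567655, .ofNat 119387666, .ofNat 0, .ofNat 290325938, .negSucc 285167268], .ofNat 552, .negSucc 2916, .ofNat 8389, .ofNat 422⟩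

/-- Its row F. -/
def f30 : List ℤ := [.negSucc 66295753, .negSucc 19967983, .negSucc 26961905, .ofNat 0, .ofNat 83886080, .negSucc 13467715, .negSucc 34036958, .ofNat 0, .negSucc 83886079, .ofNat 83193839, .ofNat 77123405, .ofNat 100861251, .ofNat 0, .negSucc 305707125, .ofNat 47567655, .ofNat 119387666, .ofNat 0, .ofNat 290325938, .negSucc 285167268, .negSucc 551]

/-- Its row D. -/
def d30 : List ℤ := [.ofNat 77123405, .ofNat 100861251, .ofNat 0, .negSucc 305707125, .ofNat 47567655, .ofNat 119387666, .ofNat 0, .ofNat 290325938, .negSucc 285167268, .ofNat 8389, .ofNat 422]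

/-- A plane. -/
def p31 : Plane := ⟨[.ofNat 19939855, .ofNat 27031669, .ofNat 0, .negSucc 83886079, .ofNat 13329602, .ofNat 33969228, .ofNat 0, .ofNat 83886080, .negSucc 83060964], [.ofNat 76951951, .ofNat 100964476, .ofNat 0, .negSucc 305043871, .ofNat 46943443, .ofNat 118785666, .ofNat 0, .ofNat 289346801, .negSucc 283688447], .ofNat 554, .negSucc 2954, .ofNat 8389, .ofNat 415⟩

/-- Its row F. -/
def f31 : List ℤ := [.negSucc 66095345, .negSucc 19939854, .negSucc 27031668, .ofNat 0, .ofNat 83886080, .negSucc 13329601, .negSucc 33969227, .ofNat 0, .negSucc 83886079, .ofNat 83060965, .ofNat 76951951, .ofNat 100964476, .ofNat 0, .negSucc 305043871, .ofNat 46943443, .ofNat 118785666, .ofNat 0, .ofNat 289346801, .negSucc 283688447, .negSucc 553]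

/-- Its row D. -/
def d31 : List ℤ := [.ofNat 76951951, .ofNat 100964476, .ofNat 0, .negSucc 305043871, .ofNat 46943443, .ofNat 118785666, .ofNat 0, .ofNat 289346801, .negSucc 283688447, .ofNat 8389, .ofNat 415]

/-- A plane. -/
def p32 : Plane := ⟨[.ofNat 19651626, .ofNat 27219215, .ofNat 0, .negSucc 83886079, .ofNat 13290439, .ofNat 33670430, .ofNat 0, .ofNat 83886080, .negSucc 82805771], [.ofNat 75776326, .ofNat 101502677, .ofNat 0, .negSucc 304366637, .ofNat 46666765, .ofNat 117362904, .ofNat 0, .ofNat 288366095, .negSucc 281776638], .ofNat 556, .negSucc 3025, .ofNat 8389, .ofNat 415⟩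

/-- Its row F. -/
def f32 : List ℤ := [.negSucc 65005051, .negSucc 19651625, .negSucc 27219214, .ofNat 0, .ofNat 83886080, .negSucc 13290438, .negSucc 33670429, .ofNat 0, .negSucc 83886079, .ofNat 82805772, .ofNat 75776326, .ofNat 101502677, .ofNat 0, .negSucc 304366637, .ofNat 46666765, .ofNat 117362904, .ofNat 0, .ofNat 288366095, .negSucc 281776638, .negSucc 555]

/-- Its row D. -/
def d32 : List ℤ := [.ofNat 75776326, .ofNat 101502677, .ofNat 0, .negSucc 304366637, .ofNat 46666765, .ofNat 117362904, .ofNat 0, .ofNat 288366095, .negSucc 281776638, .ofNat 8389, .ofNat 415]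

/-- A plane. -/
def p33 : Plane := ⟨[.ofNat 19520009, .ofNat 27322609, .ofNat 0, .negSucc 83886079, .ofNat 13212683, .ofNat 33530613, .ofNat 0, .ofNat 83886080, .negSucc 82650442], [.ofNat 75204542, .ofNat 101721807, .ofNat 0, .negSucc 303675166, .ofNat 46253004, .ofNat 116510584, .ofNat 0, .ofNat 287341329, .negSucc 280189544], .ofNat 558, .negSucc 3004, .ofNat 8389, .ofNat 419⟩

/-- Its row F. -/
def f33 : List ℤ := [.negSucc 64456155, .negSucc 19520008, .negSucc 27322608, .ofNat 0, .ofNat 83886080, .negSucc 13212682, .negSucc 33530612, .ofNat 0, .negSucc 83886079, .ofNat 82650443, .ofNat 75204542, .ofNat 101721807, .ofNat 0, .negSucc 303675166, .ofNat 46253004, .ofNat 116510584, .ofNat 0, .ofNat 287341329, .negSucc 280189544, .negSucc 557]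

/-- Its row D. -/
def d33 : List ℤ := [.ofNat 75204542, .ofNat 101721807, .ofNat 0, .negSucc 303675166, .ofNat 46253004, .ofNat 116510584, .ofNat 0, .ofNat 287341329, .negSucc 280189544, .ofNat 8389, .ofNat 419]

/-- A plane. -/
def p34 : Plane := ⟨[.ofNat 19461289, .ofNat 27366374, .ofNat 0, .negSucc 83886079, .ofNat 13148229, .ofNat 33508876, .ofNat 0, .ofNat 83886080, .negSucc 82592512], [.ofNat 74912795, .ofNat 101714439, .ofNat 0, .negSucc 302969196, .ofNat 45884496, .ofNat 116053478, .ofNat 0, .ofNat 286298339, .negSucc 278914825], .ofNat 560, .negSucc 2828, .ofNat 8389, .ofNat 416⟩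

/-- Its row F. -/
def f34 : List ℤ := [.negSucc 64168879, .negSucc 19461288, .negSucc 27366373, .ofNat 0, .ofNat 83886080, .negSucc 13148228, .negSucc 33508875, .ofNat 0, .negSucc 83886079, .ofNat 82592513, .ofNat 74912795, .ofNat 101714439, .ofNat 0, .negSucc 302969196, .ofNat 45884496, .ofNat 116053478, .ofNat 0, .ofNat 286298339, .negSucc 278914825, .negSucc 559]

/-- Its row D. -/
def d34 : List ℤ := [.ofNat 74912795, .ofNat 101714439, .ofNat 0, .negSucc 302969196, .ofNat 45884496, .ofNat 116053478, .ofNat 0, .ofNat 286298339, .negSucc 278914825, .ofNat 8389, .ofNat 416]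

/-- A plane. -/
def p35 : Plane := ⟨[.ofNat 19431750, .ofNat 27434783, .ofNat 0, .negSucc 83886079, .ofNat 13005063, .ofNat 33420827, .ofNat 0, .ofNat 83886080, .negSucc 82438182], [.ofNat 74772283, .ofNat 101794289, .ofNat 0, .negSucc 302248459, .ofNat 45240718, .ofNat 115360381, .ofNat 0, .ofNat 285232125, .negSucc 277296518], .ofNat 562, .negSucc 2879, .ofNat 8389, .ofNat 444⟩

/-- Its row F. -/
def f35 : List ℤ := [.negSucc 63995393, .negSucc 19431749, .negSucc 27434782, .ofNat 0, .ofNat 83886080, .negSucc 13005062, .negSucc 33420826, .ofNat 0, .negSucc 83886079, .ofNat 82438183, .ofNat 74772283, .ofNat 101794289, .ofNat 0, .negSucc 302248459, .ofNat 45240718, .ofNat 115360381, .ofNat 0, .ofNat 285232125, .negSucc 277296518, .negSucc 561]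

/-- Its row D. -/
def d35 : List ℤ := [.ofNat 74772283, .ofNat 101794289, .ofNat 0, .negSucc 302248459, .ofNat 45240718, .ofNat 115360381, .ofNat 0, .ofNat 285232125, .negSucc 277296518, .ofNat 8389, .ofNat 444]

/-- A plane. -/
def p36 : Plane := ⟨[.ofNat 19406720, .ofNat 27494931, .ofNat 0, .negSucc 83886079, .ofNat 12874024, .ofNat 33369399, .ofNat 0, .ofNat 83886080, .negSucc 82320626], [.ofNat 74608581, .ofNat 101838908, .ofNat 0, .negSucc 301512689, .ofNat 44639308, .ofNat 114787618, .ofNat 0, .ofNat 284151586, .negSucc 275784448], .ofNat 564, .negSucc 2844, .ofNat 8389, .ofNat 468⟩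

/-- Its row F. -/
def f36 : List ℤ := [.negSucc 63803139, .negSucc 19406719, .negSucc 27494930, .ofNat 0, .ofNat 83886080, .negSucc 12874023, .negSucc 33369398, .ofNat 0, .negSucc 83886079, .ofNat 82320627, .ofNat 74608581, .ofNat 101838908, .ofNat 0, .negSucc 301512689, .ofNat 44639308, .ofNat 114787618, .ofNat 0, .ofNat 284151586, .negSucc 275784448, .negSucc 563]

/-- Its row D. -/
def d36 : List ℤ := [.ofNat 74608581, .ofNat 101838908, .ofNat 0, .negSucc 301512689, .ofNat 44639308, .ofNat 114787618, .ofNat 0, .ofNat 284151586, .negSucc 275784448, .ofNat 8389, .ofNat 468]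

/-- A plane. -/
def p37 : Plane := ⟨[.ofNat 19181681, .ofNat 27669780, .ofNat 0, .negSucc 83886079, .ofNat 12779431, .ofNat 33083757, .ofNat 0, .ofNat 83886080, .negSucc 82043028], [.ofNat 73675333, .ofNat 102302982, .ofNat 0, .negSucc 300761614, .ofNat 44186563, .ofNat 113405429, .ofNat 0, .ofNat 283044216, .negSucc 273720263], .ofNat 566, .negSucc 3020, .ofNat 8389, .ofNat 536⟩

/-- Its row F. -/
def f37 : List ℤ := [.negSucc 62916005, .negSucc 19181680, .negSucc 27669779, .ofNat 0, .ofNat 83886080, .negSucc 12779430, .negSucc 33083756, .ofNat 0, .negSucc 83886079, .ofNat 82043029, .ofNat 73675333, .ofNat 102302982, .ofNat 0, .negSucc 300761614, .ofNat 44186563, .ofNat 113405429, .ofNat 0, .ofNat 283044216, .negSucc 273720263, .negSucc 565]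

/-- Its row D. -/
def d37 : List ℤ := [.ofNat 73675333, .ofNat 102302982, .ofNat 0, .negSucc 300761614, .ofNat 44186563, .ofNat 113405429, .ofNat 0, .ofNat 283044216, .negSucc 273720263, .ofNat 8389, .ofNat 536]

/-- A plane. -/
def p38 : Plane := ⟨[.ofNat 19002798, .ofNat 27808388, .ofNat 0, .negSucc 83886079, .ofNat 12686621, .ofNat 32904204, .ofNat 0, .ofNat 83886080, .negSucc 81848931], [.ofNat 72919293, .ofNat 102627029, .ofNat 0, .negSucc 299994959, .ofNat 43717121, .ofNat 112384694, .ofNat 0, .ofNat 281922613, .negSucc 271919632], .ofNat 735, .negSucc 2832, .ofNat 11352, .ofNat 488⟩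

/-- Its row F. -/
def f38 : List ℤ := [.negSucc 62200489, .negSucc 19002797, .negSucc 27808387, .ofNat 0, .ofNat 83886080, .negSucc 12686620, .negSucc 32904203, .ofNat 0, .negSucc 83886079, .ofNat 81848932, .ofNat 72919293, .ofNat 102627029, .ofNat 0, .negSucc 299994959, .ofNat 43717121, .ofNat 112384694, .ofNat 0, .ofNat 281922613, .negSucc 271919632, .negSucc 734]

/-- Its row D. -/
def d38 : List ℤ := [.ofNat 72919293, .ofNat 102627029, .ofNat 0, .negSucc 299994959, .ofNat 43717121, .ofNat 112384694, .ofNat 0, .ofNat 281922613, .negSucc 271919632, .ofNat 11352, .ofNat 488]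

/-- A plane. -/
def p39 : Plane := ⟨[.ofNat 18712649, .ofNat 28035641, .ofNat 0, .negSucc 83886079, .ofNat 12578617, .ofNat 32545507, .ofNat 0, .ofNat 83886080, .negSucc 81509663], [.ofNat 71736480, .ofNat 103271677, .ofNat 0, .negSucc 299212448, .ofNat 43197958, .ofNat 110750867, .ofNat 0, .ofNat 280787209, .negSucc 269622461], .ofNat 928, .negSucc 2850, .ofNat 14757, .ofNat 456⟩

/-- Its row F. -/
def f39 : List ℤ := [.negSucc 61087357, .negSucc 18712648, .negSucc 28035640, .ofNat 0, .ofNat 83886080, .negSucc 12578616, .negSucc 32545506, .ofNat 0, .negSucc 83886079, .ofNat 81509664, .ofNat 71736480, .ofNat 103271677, .ofNat 0, .negSucc 299212448, .ofNat 43197958, .ofNat 110750867, .ofNat 0, .ofNat 280787209, .negSucc 269622461, .negSucc 927]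

/-- Its row D. -/
def d39 : List ℤ := [.ofNat 71736480, .ofNat 103271677, .ofNat 0, .negSucc 299212448, .ofNat 43197958, .ofNat 110750867, .ofNat 0, .ofNat 280787209, .negSucc 269622461, .ofNat 14757, .ofNat 456]

/-- A plane. -/
def p40 : Plane := ⟨[.ofNat 18583225, .ofNat 28113148, .ofNat 0, .negSucc 83886079, .ofNat 12535983, .ofNat 32445441, .ofNat 0, .ofNat 83886080, .negSucc 81402329], [.ofNat 71169844, .ofNat 103358458, .ofNat 0, .negSucc 298413800, .ofNat 42906357, .ofNat 109994964, .ofNat 0, .ofNat 279615969, .negSucc 268076882], .ofNat 906, .negSucc 2672, .ofNat 14326, .ofNat 521⟩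

/-- Its row F. -/
def f40 : List ℤ := [.negSucc 60553535, .negSucc 18583224, .negSucc 28113147, .ofNat 0, .ofNat 83886080, .negSucc 12535982, .negSucc 32445440, .ofNat 0, .negSucc 83886079, .ofNat 81402330, .ofNat 71169844, .ofNat 103358458, .ofNat 0, .negSucc 298413800, .ofNat 42906357, .ofNat 109994964, .ofNat 0, .ofNat 279615969, .negSucc 268076882, .negSucc 905]

/-- Its row D. -/
def d40 : List ℤ := [.ofNat 71169844, .ofNat 103358458, .ofNat 0, .negSucc 298413800, .ofNat 42906357, .ofNat 109994964, .ofNat 0, .ofNat 279615969, .negSucc 268076882, .ofNat 14326, .ofNat 521]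

/-- A plane. -/
def p41 : Plane := ⟨[.ofNat 18344631, .ofNat 28329725, .ofNat 0, .negSucc 83886079, .ofNat 12385381, .ofNat 32095237, .ofNat 0, .ofNat 83886080, .negSucc 81044759], [.ofNat 70184959, .ofNat 103950189, .ofNat 0, .negSucc 297582701, .ofNat 42242273, .ofNat 108388841, .ofNat 0, .ofNat 278401156, .negSucc 265668689], .ofNat 1147, .negSucc 2726, .ofNat 18555, .ofNat 455⟩

/-- Its row F. -/
def f41 : List ℤ := [.negSucc 59606169, .negSucc 18344630, .negSucc 28329724, .ofNat 0, .ofNat 83886080, .negSucc 12385380, .negSucc 32095236, .ofNat 0, .negSucc 83886079, .ofNat 81044760, .ofNat 70184959, .ofNat 103950189, .ofNat 0, .negSucc 297582701, .ofNat 42242273, .ofNat 108388841, .ofNat 0, .ofNat 278401156, .negSucc 265668689, .negSucc 1146]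

/-- Its row D. -/
def d41 : List ℤ := [.ofNat 70184959, .ofNat 103950189, .ofNat 0, .negSucc 297582701, .ofNat 42242273, .ofNat 108388841, .ofNat 0, .ofNat 278401156, .negSucc 265668689, .ofNat 18555, .ofNat 455]

/-- A plane. -/
def p42 : Plane := ⟨[.ofNat 18072484, .ofNat 28497858, .ofNat 0, .negSucc 83886079, .ofNat 12360162, .ofNat 31851863, .ofNat 0, .ofNat 83886080, .negSucc 80840245], [.ofNat 69069410, .ofNat 104349047, .ofNat 0, .negSucc 296719070, .ofNat 41957340, .ofNat 107127154, .ofNat 0, .ofNat 277176423, .negSucc 263724460], .ofNat 1306, .negSucc 2284, .ofNat 21343, .ofNat 429⟩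

/-- Its row F. -/
def f42 : List ℤ := [.negSucc 58582871, .negSucc 18072483, .negSucc 28497857, .ofNat 0, .ofNat 83886080, .negSucc 12360161, .negSucc 31851862, .ofNat 0, .negSucc 83886079, .ofNat 80840246, .ofNat 69069410, .ofNat 104349047, .ofNat 0, .negSucc 296719070, .ofNat 41957340, .ofNat 107127154, .ofNat 0, .ofNat 277176423, .negSucc 263724460, .negSucc 1305]

/-- Its row D. -/
def d42 : List ℤ := [.ofNat 69069410, .ofNat 104349047, .ofNat 0, .negSucc 296719070, .ofNat 41957340, .ofNat 107127154, .ofNat 0, .ofNat 277176423, .negSucc 263724460, .ofNat 21343, .ofNat 429]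

/-- A plane. -/
def p43 : Plane := ⟨[.ofNat 17901121, .ofNat 28642615, .ofNat 0, .negSucc 83886079, .ofNat 12243699, .ofNat 31611074, .ofNat 0, .ofNat 83886080, .negSucc 80581552], [.ofNat 68339169, .ofNat 104655091, .ofNat 0, .negSucc 295819773, .ofNat 41438011, .ofNat 105872141, .ofNat 0, .ofNat 275833647, .negSucc 261561593], .ofNat 1439, .negSucc 2306, .ofNat 23662, .ofNat 415⟩

/-- Its row F. -/
def f43 : List ℤ := [.negSucc 57874855, .negSucc 17901120, .negSucc 28642614, .ofNat 0, .ofNat 83886080, .negSucc 12243698, .negSucc 31611073, .ofNat 0, .negSucc 83886079, .ofNat 80581553, .ofNat 68339169, .ofNat 104655091, .ofNat 0, .negSucc 295819773, .ofNat 41438011, .ofNat 105872141, .ofNat 0, .ofNat 275833647, .negSucc 261561593, .negSucc 1438]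

/-- Its row D. -/
def d43 : List ℤ := [.ofNat 68339169, .ofNat 104655091, .ofNat 0, .negSucc 295819773, .ofNat 41438011, .ofNat 105872141, .ofNat 0, .ofNat 275833647, .negSucc 261561593, .ofNat 23662, .ofNat 415]

/-- A plane. -/
def p44 : Plane := ⟨[.ofNat 17879202, .ofNat 28699086, .ofNat 0, .negSucc 83886079, .ofNat 12116065, .ofNat 31552960, .ofNat 0, .ofNat 83886080, .negSucc 80460116], [.ofNat 68175602, .ofNat 104623350, .ofNat 0, .negSucc 294884687, .ofNat 40802101, .ofNat 105194479, .ofNat 0, .ofNat 274516591, .negSucc 259800172], .ofNat 1435, .negSucc 2200, .ofNat 23541, .ofNat 452⟩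

/-- Its row F. -/
def f44 : List ℤ := [.negSucc 57675729, .negSucc 17879201, .negSucc 28699085, .ofNat 0, .ofNat 83886080, .negSucc 12116064, .negSucc 31552959, .ofNat 0, .negSucc 83886079, .ofNat 80460117, .ofNat 68175602, .ofNat 104623350, .ofNat 0, .negSucc 294884687, .ofNat 40802101, .ofNat 105194479, .ofNat 0, .ofNat 274516591, .negSucc 259800172, .negSucc 1434]

/-- Its row D. -/
def d44 : List ℤ := [.ofNat 68175602, .ofNat 104623350, .ofNat 0, .negSucc 294884687, .ofNat 40802101, .ofNat 105194479, .ofNat 0, .ofNat 274516591, .negSucc 259800172, .ofNat 23541, .ofNat 452]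

/-- A plane. -/
def p45 : Plane := ⟨[.ofNat 17852710, .ofNat 28748722, .ofNat 0, .negSucc 83886079, .ofNat 11980874, .ofNat 31515668, .ofNat 0, .ofNat 83886080, .negSucc 80346395], [.ofNat 67992914, .ofNat 104560390, .ofNat 0, .negSucc 293910354, .ofNat 40200158, .ofNat 104532238, .ofNat 0, .ofNat 273123168, .negSucc 258014095], .ofNat 1513, .negSucc 2050, .ofNat 24880, .ofNat 433⟩

/-- Its row F. -/
def f45 : List ℤ := [.negSucc 57461575, .negSucc 17852709, .negSucc 28748721, .ofNat 0, .ofNat 83886080, .negSucc 11980873, .negSucc 31515667, .ofNat 0, .negSucc 83886079, .ofNat 80346396, .ofNat 67992914, .ofNat 104560390, .ofNat 0, .negSucc 293910354, .ofNat 40200158, .ofNat 104532238, .ofNat 0, .ofNat 273123168, .negSucc 258014095, .negSucc 1512]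

/-- Its row D. -/
def d45 : List ℤ := [.ofNat 67992914, .ofNat 104560390, .ofNat 0, .negSucc 293910354, .ofNat 40200158, .ofNat 104532238, .ofNat 0, .ofNat 273123168, .negSucc 258014095, .ofNat 24880, .ofNat 433]

/-- A plane. -/
def p46 : Plane := ⟨[.ofNat 17888058, .ofNat 28804582, .ofNat 0, .negSucc 83886079, .ofNat 11772793, .ofNat 31437874, .ofNat 0, .ofNat 83886080, .negSucc 80161020], [.ofNat 68040577, .ofNat 104504151, .ofNat 0, .negSucc 292876621, .ofNat 39321410, .ofNat 103766235, .ofNat 0, .ofNat 271620916, .negSucc 255920286], .ofNat 1598, .negSucc 2130, .ofNat 26344, .ofNat 409⟩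

/-- Its row F. -/
def f46 : List ℤ := [.negSucc 57423925, .negSucc 17888057, .negSucc 28804581, .ofNat 0, .ofNat 83886080, .negSucc 11772792, .negSucc 31437873, .ofNat 0, .negSucc 83886079, .ofNat 80161021, .ofNat 68040577, .ofNat 104504151, .ofNat 0, .negSucc 292876621, .ofNat 39321410, .ofNat 103766235, .ofNat 0, .ofNat 271620916, .negSucc 255920286, .negSucc 1597]

/-- Its row D. -/
def d46 : List ℤ := [.ofNat 68040577, .ofNat 104504151, .ofNat 0, .negSucc 292876621, .ofNat 39321410, .ofNat 103766235, .ofNat 0, .ofNat 271620916, .negSucc 255920286, .ofNat 26344, .ofNat 409]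

/-- A plane. -/
def p47 : Plane := ⟨[.ofNat 17866062, .ofNat 28826559, .ofNat 0, .negSucc 83886079, .ofNat 11688836, .ofNat 31414671, .ofNat 0, .ofNat 83886080, .negSucc 80085553], [.ofNat 67864537, .ofNat 104308103, .ofNat 0, .negSucc 291800282, .ofNat 38850959, .ofNat 103151742, .ofNat 0, .ofNat 270071154, .negSucc 254123451], .ofNat 1442, .negSucc 1994, .ofNat 23518, .ofNat 574⟩

/-- Its row F. -/
def f47 : List ℤ := [.negSucc 57220381, .negSucc 17866061, .negSucc 28826558, .ofNat 0, .ofNat 83886080, .negSucc 11688835, .negSucc 31414670, .ofNat 0, .negSucc 83886079, .ofNat 80085554, .ofNat 67864537, .ofNat 104308103, .ofNat 0, .negSucc 291800282, .ofNat 38850959, .ofNat 103151742, .ofNat 0, .ofNat 270071154, .negSucc 254123451, .negSucc 1441]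

/-- Its row D. -/
def d47 : List ℤ := [.ofNat 67864537, .ofNat 104308103, .ofNat 0, .negSucc 291800282, .ofNat 38850959, .ofNat 103151742, .ofNat 0, .ofNat 270071154, .negSucc 254123451, .ofNat 23518, .ofNat 574]

/-- A plane. -/
def p48 : Plane := ⟨[.ofNat 17947528, .ofNat 28855253, .ofNat 0, .negSucc 83886079, .ofNat 11468257, .ofNat 31390601, .ofNat 0, .ofNat 83886080, .negSucc 79933698], [.ofNat 68078816, .ofNat 104129172, .ofNat 0, .negSucc 290698924, .ofNat 37927262, .ofNat 102531021, .ofNat 0, .ofNat 268482569, .negSucc 252056434], .ofNat 1516, .negSucc 2107, .ofNat 24774, .ofNat 546⟩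

/-- Its row F. -/
def f48 : List ℤ := [.negSucc 57326863, .negSucc 17947527, .negSucc 28855252, .ofNat 0, .ofNat 83886080, .negSucc 11468256, .negSucc 31390600, .ofNat 0, .negSucc 83886079, .ofNat 79933699, .ofNat 68078816, .ofNat 104129172, .ofNat 0, .negSucc 290698924, .ofNat 37927262, .ofNat 102531021, .ofNat 0, .ofNat 268482569, .negSucc 252056434, .negSucc 1515]

/-- Its row D. -/
def d48 : List ℤ := [.ofNat 68078816, .ofNat 104129172, .ofNat 0, .negSucc 290698924, .ofNat 37927262, .ofNat 102531021, .ofNat 0, .ofNat 268482569, .negSucc 252056434, .ofNat 24774, .ofNat 546]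

/-- A plane. -/
def p49 : Plane := ⟨[.ofNat 17940730, .ofNat 28912634, .ofNat 0, .negSucc 83886079, .ofNat 11300451, .ofNat 31328797, .ofNat 0, .ofNat 83886080, .negSucc 79782897], [.ofNat 67955466, .ofNat 104026408, .ofNat 0, .negSucc 289549854, .ofNat 37180445, .ofNat 101776387, .ofNat 0, .ofNat 266821651, .negSucc 249935233], .ofNat 1624, .negSucc 1929, .ofNat 26630, .ofNat 507⟩

/-- Its row F. -/
def f49 : List ℤ := [.negSucc 57147247, .negSucc 17940729, .negSucc 28912633, .ofNat 0, .ofNat 83886080, .negSucc 11300450, .negSucc 31328796, .ofNat 0, .negSucc 83886079, .ofNat 79782898, .ofNat 67955466, .ofNat 104026408, .ofNat 0, .negSucc 289549854, .ofNat 37180445, .ofNat 101776387, .ofNat 0, .ofNat 266821651, .negSucc 249935233, .negSucc 1623]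

/-- Its row D. -/
def d49 : List ℤ := [.ofNat 67955466, .ofNat 104026408, .ofNat 0, .negSucc 289549854, .ofNat 37180445, .ofNat 101776387, .ofNat 0, .ofNat 266821651, .negSucc 249935233, .ofNat 26630, .ofNat 507]

/-- A plane. -/
def p50 : Plane := ⟨[.ofNat 17945314, .ofNat 28938421, .ofNat 0, .negSucc 83886079, .ofNat 11168431, .ofNat 31301669, .ofNat 0, .ofNat 83886080, .negSucc 79675969], [.ofNat 67868954, .ofNat 103809951, .ofNat 0, .negSucc 288352780, .ofNat 36544997, .ofNat 101094456, .ofNat 0, .ofNat 265109246, .negSucc 247891835], .ofNat 1578, .negSucc 1769, .ofNat 25755, .ofNat 595⟩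

/-- Its row F. -/
def f50 : List ℤ := [.negSucc 57006703, .negSucc 17945313, .negSucc 28938420, .ofNat 0, .ofNat 83886080, .negSucc 11168430, .negSucc 31301668, .ofNat 0, .negSucc 83886079, .ofNat 79675970, .ofNat 67868954, .ofNat 103809951, .ofNat 0, .negSucc 288352780, .ofNat 36544997, .ofNat 101094456, .ofNat 0, .ofNat 265109246, .negSucc 247891835, .negSucc 1577]

/-- Its row D. -/
def d50 : List ℤ := [.ofNat 67868954, .ofNat 103809951, .ofNat 0, .negSucc 288352780, .ofNat 36544997, .ofNat 101094456, .ofNat 0, .ofNat 265109246, .negSucc 247891835, .ofNat 25755, .ofNat 595]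

/-- A plane. -/
def p51 : Plane := ⟨[.ofNat 18046493, .ofNat 28904625, .ofNat 0, .negSucc 83886079, .ofNat 11027603, .ofNat 31351084, .ofNat 0, .ofNat 83886080, .negSucc 79620932], [.ofNat 68144388, .ofNat 103372131, .ofNat 0, .negSucc 287127229, .ofNat 35881202, .ofNat 100649702, .ofNat 0, .ofNat 263358544, .negSucc 245977563], .ofNat 1579, .negSucc 1913, .ofNat 25708, .ofNat 635⟩

/-- Its row F. -/
def f51 : List ℤ := [.negSucc 57180773, .negSucc 18046492, .negSucc 28904624, .ofNat 0, .ofNat 83886080, .negSucc 11027602, .negSucc 31351083, .ofNat 0, .negSucc 83886079, .ofNat 79620933, .ofNat 68144388, .ofNat 103372131, .ofNat 0, .negSucc 287127229, .ofNat 35881202, .ofNat 100649702, .ofNat 0, .ofNat 263358544, .negSucc 245977563, .negSucc 1578]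

/-- Its row D. -/
def d51 : List ℤ := [.ofNat 68144388, .ofNat 103372131, .ofNat 0, .negSucc 287127229, .ofNat 35881202, .ofNat 100649702, .ofNat 0, .ofNat 263358544, .negSucc 245977563, .ofNat 25708, .ofNat 635]

/-- A plane. -/
def p52 : Plane := ⟨[.ofNat 17982519, .ofNat 28749391, .ofNat 0, .negSucc 83886079, .ofNat 11299633, .ofNat 31545435, .ofNat 0, .ofNat 83886080, .negSucc 79902363], [.ofNat 67793158, .ofNat 102494245, .ofNat 0, .negSucc 285872670, .ofNat 36553711, .ofNat 100650353, .ofNat 0, .ofNat 261571540, .negSucc 245061479], .ofNat 1540, .negSucc 1693, .ofNat 24936, .ofNat 786⟩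

/-- Its row F. -/
def f52 : List ℤ := [.negSucc 56905095, .negSucc 17982518, .negSucc 28749390, .ofNat 0, .ofNat 83886080, .negSucc 11299632, .negSucc 31545434, .ofNat 0, .negSucc 83886079, .ofNat 79902364, .ofNat 67793158, .ofNat 102494245, .ofNat 0, .negSucc 285872670, .ofNat 36553711, .ofNat 100650353, .ofNat 0, .ofNat 261571540, .negSucc 245061479, .negSucc 1539]

/-- Its row D. -/
def d52 : List ℤ := [.ofNat 67793158, .ofNat 102494245, .ofNat 0, .negSucc 285872670, .ofNat 36553711, .ofNat 100650353, .ofNat 0, .ofNat 261571540, .negSucc 245061479, .ofNat 24936, .ofNat 786]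

/-- A plane. -/
def p53 : Plane := ⟨[.ofNat 18040251, .ofNat 28582304, .ofNat 0, .negSucc 83886079, .ofNat 11454781, .ofNat 31737489, .ofNat 0, .ofNat 83886080, .negSucc 80116413], [.ofNat 67897900, .ofNat 101569771, .ofNat 0, .negSucc 284588574, .ofNat 36835328, .ofNat 100621878, .ofNat 0, .ofNat 259751816, .negSucc 243890857], .ofNat 1677, .negSucc 1982, .ofNat 27309, .ofNat 772⟩

/-- Its row F. -/
def f53 : List ℤ := [.negSucc 56993731, .negSucc 18040250, .negSucc 28582303, .ofNat 0, .ofNat 83886080, .negSucc 11454780, .negSucc 31737488, .ofNat 0, .negSucc 83886079, .ofNat 80116414, .ofNat 67897900, .ofNat 101569771, .ofNat 0, .negSucc 284588574, .ofNat 36835328, .ofNat 100621878, .ofNat 0, .ofNat 259751816, .negSucc 243890857, .negSucc 1676]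

/-- Its row D. -/
def d53 : List ℤ := [.ofNat 67897900, .ofNat 101569771, .ofNat 0, .negSucc 284588574, .ofNat 36835328, .ofNat 100621878, .ofNat 0, .ofNat 259751816, .negSucc 243890857, .ofNat 27309, .ofNat 772]

/-- A plane. -/
def p54 : Plane := ⟨[.ofNat 18032281, .ofNat 28406512, .ofNat 0, .negSucc 83886079, .ofNat 11694037, .ofNat 31962321, .ofNat 0, .ofNat 83886080, .negSucc 80402088], [.ofNat 67758880, .ofNat 100610239, .ofNat 0, .negSucc 283274408, .ofNat 37374908, .ofNat 100664147, .ofNat 0, .ofNat 257898228, .negSucc 242889564], .ofNat 1822, .negSucc 1904, .ofNat 29809, .ofNat 760⟩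

/-- Its row F. -/
def f54 : List ℤ := [.negSucc 56894921, .negSucc 18032280, .negSucc 28406511, .ofNat 0, .ofNat 83886080, .negSucc 11694036, .negSucc 31962320, .ofNat 0, .negSucc 83886079, .ofNat 80402089, .ofNat 67758880, .ofNat 100610239, .ofNat 0, .negSucc 283274408, .ofNat 37374908, .ofNat 100664147, .ofNat 0, .ofNat 257898228, .negSucc 242889564, .negSucc 1821]

/-- Its row D. -/
def d54 : List ℤ := [.ofNat 67758880, .ofNat 100610239, .ofNat 0, .negSucc 283274408, .ofNat 37374908, .ofNat 100664147, .ofNat 0, .ofNat 257898228, .negSucc 242889564, .ofNat 29809, .ofNat 760]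

/-- A plane. -/
def p55 : Plane := ⟨[.ofNat 18092557, .ofNat 28232984, .ofNat 0, .negSucc 83886079, .ofNat 11852553, .ofNat 32174564, .ofNat 0, .ofNat 83886080, .negSucc 80633345], [.ofNat 67859302, .ofNat 99654659, .ofNat 0, .negSucc 281929641, .ofNat 37643565, .ofNat 100668134, .ofNat 0, .ofNat 255989727, .negSucc 241674069], .ofNat 1915, .negSucc 2102, .ofNat 31395, .ofNat 787⟩

/-- Its row F. -/
def f55 : List ℤ := [.negSucc 56980519, .negSucc 18092556, .negSucc 28232983, .ofNat 0, .ofNat 83886080, .negSucc 11852552, .negSucc 32174563, .ofNat 0, .negSucc 83886079, .ofNat 80633346, .ofNat 67859302, .ofNat 99654659, .ofNat 0, .negSucc 281929641, .ofNat 37643565, .ofNat 100668134, .ofNat 0, .ofNat 255989727, .negSucc 241674069, .negSucc 1914]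

/-- Its row D. -/
def d55 : List ℤ := [.ofNat 67859302, .ofNat 99654659, .ofNat 0, .negSucc 281929641, .ofNat 37643565, .ofNat 100668134, .ofNat 0, .ofNat 255989727, .negSucc 241674069, .ofNat 31395, .ofNat 787]

/-- A plane. -/
def p56 : Plane := ⟨[.ofNat 18088973, .ofNat 28033140, .ofNat 0, .negSucc 83886079, .ofNat 12128563, .ofNat 32419635, .ofNat 0, .ofNat 83886080, .negSucc 80953352], [.ofNat 67707986, .ofNat 98602408, .ofNat 0, .negSucc 280526606, .ofNat 38271419, .ofNat 100738940, .ofNat 0, .ofNat 253996774, .negSucc 240635642], .ofNat 1787, .negSucc 1916, .ofNat 29052, .ofNat 1053⟩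

/-- Its row F. -/
def f56 : List ℤ := [.negSucc 56872803, .negSucc 18088972, .negSucc 28033139, .ofNat 0, .ofNat 83886080, .negSucc 12128562, .negSucc 32419634, .ofNat 0, .negSucc 83886079, .ofNat 80953353, .ofNat 67707986, .ofNat 98602408, .ofNat 0, .negSucc 280526606, .ofNat 38271419, .ofNat 100738940, .ofNat 0, .ofNat 253996774, .negSucc 240635642, .negSucc 1786]

/-- Its row D. -/
def d56 : List ℤ := [.ofNat 67707986, .ofNat 98602408, .ofNat 0, .negSucc 280526606, .ofNat 38271419, .ofNat 100738940, .ofNat 0, .ofNat 253996774, .negSucc 240635642, .ofNat 29052, .ofNat 1053]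

/-- A plane. -/
def p57 : Plane := ⟨[.ofNat 18129232, .ofNat 27815208, .ofNat 0, .negSucc 83886079, .ofNat 12389503, .ofNat 32675475, .ofNat 0, .ofNat 83886080, .negSucc 81272550], [.ofNat 67727649, .ofNat 97469918, .ofNat 0, .negSucc 279064995, .ofNat 38825445, .ofNat 100788388, .ofNat 0, .ofNat 251946576, .negSucc 239501285], .ofNat 1919, .negSucc 2106, .ofNat 31318, .ofNat 1082⟩

/-- Its row F. -/
def f57 : List ℤ := [.negSucc 56905439, .negSucc 18129231, .negSucc 27815207, .ofNat 0, .ofNat 83886080, .negSucc 12389502, .negSucc 32675474, .ofNat 0, .negSucc 83886079, .ofNat 81272551, .ofNat 67727649, .ofNat 97469918, .ofNat 0, .negSucc 279064995, .ofNat 38825445, .ofNat 100788388, .ofNat 0, .ofNat 251946576, .negSucc 239501285, .negSucc 1918]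

/-- Its row D. -/
def d57 : List ℤ := [.ofNat 67727649, .ofNat 97469918, .ofNat 0, .negSucc 279064995, .ofNat 38825445, .ofNat 100788388, .ofNat 0, .ofNat 251946576, .negSucc 239501285, .ofNat 31318, .ofNat 1082]

/-- A plane. -/
def p58 : Plane := ⟨[.ofNat 18124847, .ofNat 27612586, .ofNat 0, .negSucc 83886079, .ofNat 12669922, .ofNat 32928293, .ofNat 0, .ofNat 83886080, .negSucc 81600840], [.ofNat 67576728, .ofNat 96387456, .ofNat 0, .negSucc 277568704, .ofNat 39422702, .ofNat 100799414, .ofNat 0, .ofNat 249852006, .negSucc 238334946], .ofNat 2146, .negSucc 1987, .ofNat 35274, .ofNat 1024⟩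

/-- Its row F. -/
def f58 : List ℤ := [.negSucc 56795717, .negSucc 18124846, .negSucc 27612585, .ofNat 0, .ofNat 83886080, .negSucc 12669921, .negSucc 32928292, .ofNat 0, .negSucc 83886079, .ofNat 81600841, .ofNat 67576728, .ofNat 96387456, .ofNat 0, .negSucc 277568704, .ofNat 39422702, .ofNat 100799414, .ofNat 0, .ofNat 249852006, .negSucc 238334946, .negSucc 2145]

/-- Its row D. -/
def d58 : List ℤ := [.ofNat 67576728, .ofNat 96387456, .ofNat 0, .negSucc 277568704, .ofNat 39422702, .ofNat 100799414, .ofNat 0, .ofNat 249852006, .negSucc 238334946, .ofNat 35274, .ofNat 1024]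

/-- A plane. -/
def p59 : Plane := ⟨[.ofNat 18165690, .ofNat 27380218, .ofNat 0, .negSucc 83886079, .ofNat 12956957, .ofNat 33196252, .ofNat 0, .ofNat 83886080, .negSucc 81943070], [.ofNat 67590531, .ofNat 95197761, .ofNat 0, .negSucc 276037146, .ofNat 40021680, .ofNat 100830563, .ofNat 0, .ofNat 247716121, .negSucc 237149133], .ofNat 2345, .negSucc 2175, .ofNat 38730, .ofNat 1008⟩

/-- Its row F. -/
def f59 : List ℤ := [.negSucc 56824305, .negSucc 18165689, .negSucc 27380217, .ofNat 0, .ofNat 83886080, .negSucc 12956956, .negSucc 33196251, .ofNat 0, .negSucc 83886079, .ofNat 81943071, .ofNat 67590531, .ofNat 95197761, .ofNat 0, .negSucc 276037146, .ofNat 40021680, .ofNat 100830563, .ofNat 0, .ofNat 247716121, .negSucc 237149133, .negSucc 2344]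

/-- Its row D. -/
def d59 : List ℤ := [.ofNat 67590531, .ofNat 95197761, .ofNat 0, .negSucc 276037146, .ofNat 40021680, .ofNat 100830563, .ofNat 0, .ofNat 247716121, .negSucc 237149133, .ofNat 38730, .ofNat 1008]

/-- A plane. -/
def p60 : Plane := ⟨[.ofNat 18174373, .ofNat 27133570, .ofNat 0, .negSucc 83886079, .ofNat 13316734, .ofNat 33457926, .ofNat 0, .ofNat 83886080, .negSucc 82319994], [.ofNat 67480564, .ofNat 93955668, .ofNat 0, .negSucc 274469739, .ofNat 40824155, .ofNat 100813082, .ofNat 0, .ofNat 245539926, .negSucc 236001437], .ofNat 2366, .negSucc 2312, .ofNat 39010, .ofNat 1222⟩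

/-- Its row F. -/
def f60 : List ℤ := [.negSucc 56754591, .negSucc 18174372, .negSucc 27133569, .ofNat 0, .ofNat 83886080, .negSucc 13316733, .negSucc 33457925, .ofNat 0, .negSucc 83886079, .ofNat 82319995, .ofNat 67480564, .ofNat 93955668, .ofNat 0, .negSucc 274469739, .ofNat 40824155, .ofNat 100813082, .ofNat 0, .ofNat 245539926, .negSucc 236001437, .negSucc 2365]

/-- Its row D. -/
def d60 : List ℤ := [.ofNat 67480564, .ofNat 93955668, .ofNat 0, .negSucc 274469739, .ofNat 40824155, .ofNat 100813082, .ofNat 0, .ofNat 245539926, .negSucc 236001437, .ofNat 39010, .ofNat 1222]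

/-- A plane. -/
def p61 : Plane := ⟨[.ofNat 18210710, .ofNat 26958433, .ofNat 0, .negSucc 83886079, .ofNat 13490321, .ofNat 33684159, .ofNat 0, .ofNat 83886080, .negSucc 82568361], [.ofNat 67469096, .ofNat 92957677, .ofNat 0, .negSucc 272865908, .ofNat 41036813, .ofNat 100667348, .ofNat 0, .ofNat 243306848, .negSucc 234424710], .ofNat 2450, .negSucc 2161, .ofNat 40425, .ofNat 1296⟩

/-- Its row F. -/
def f61 : List ℤ := [.negSucc 56739477, .negSucc 18210709, .negSucc 26958432, .ofNat 0, .ofNat 83886080, .negSucc 13490320, .negSucc 33684158, .ofNat 0, .negSucc 83886079, .ofNat 82568362, .ofNat 67469096, .ofNat 92957677, .ofNat 0, .negSucc 272865908, .ofNat 41036813, .ofNat 100667348, .ofNat 0, .ofNat 243306848, .negSucc 234424710, .negSucc 2449]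

/-- Its row D. -/
def d61 : List ℤ := [.ofNat 67469096, .ofNat 92957677, .ofNat 0, .negSucc 272865908, .ofNat 41036813, .ofNat 100667348, .ofNat 0, .ofNat 243306848, .negSucc 234424710, .ofNat 40425, .ofNat 1296]

/-- A plane. -/
def p62 : Plane := ⟨[.ofNat 18243850, .ofNat 26636948, .ofNat 0, .negSucc 83886079, .ofNat 13956061, .ofNat 34024783, .ofNat 0, .ofNat 83886080, .negSucc 83061602], [.ofNat 67470742, .ofNat 91452699, .ofNat 0, .negSucc 271225082, .ofNat 42116080, .ofNat 100817979, .ofNat 0, .ofNat 241043554, .negSucc 233478742], .ofNat 2471, .negSucc 2351, .ofNat 40700, .ofNat 1552⟩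

/-- Its row F. -/
def f62 : List ℤ := [.negSucc 56789673, .negSucc 18243849, .negSucc 26636947, .ofNat 0, .ofNat 83886080, .negSucc 13956060, .negSucc 34024782, .ofNat 0, .negSucc 83886079, .ofNat 83061603, .ofNat 67470742, .ofNat 91452699, .ofNat 0, .negSucc 271225082, .ofNat 42116080, .ofNat 100817979, .ofNat 0, .ofNat 241043554, .negSucc 233478742, .negSucc 2470]

/-- Its row D. -/
def d62 : List ℤ := [.ofNat 67470742, .ofNat 91452699, .ofNat 0, .negSucc 271225082, .ofNat 42116080, .ofNat 100817979, .ofNat 0, .ofNat 241043554, .negSucc 233478742, .ofNat 40700, .ofNat 1552]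

/-- A plane. -/
def p63 : Plane := ⟨[.ofNat 18294867, .ofNat 26447307, .ofNat 0, .negSucc 83886079, .ofNat 14135207, .ofNat 34274968, .ofNat 0, .ofNat 83886080, .negSucc 83331045], [.ofNat 67503709, .ofNat 90398306, .ofNat 0, .negSucc 269546699, .ofNat 42307759, .ofNat 100677518, .ofNat 0, .ofNat 238726799, .negSucc 231837941], .ofNat 2655, .negSucc 2208, .ofNat 43877, .ofNat 1529⟩

/-- Its row F. -/
def f63 : List ℤ := [.negSucc 56811873, .negSucc 18294866, .negSucc 26447306, .ofNat 0, .ofNat 83886080, .negSucc 14135206, .negSucc 34274967, .ofNat 0, .negSucc 83886079, .ofNat 83331046, .ofNat 67503709, .ofNat 90398306, .ofNat 0, .negSucc 269546699, .ofNat 42307759, .ofNat 100677518, .ofNat 0, .ofNat 238726799, .negSucc 231837941, .negSucc 2654]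

/-- Its row D. -/
def d63 : List ℤ := [.ofNat 67503709, .ofNat 90398306, .ofNat 0, .negSucc 269546699, .ofNat 42307759, .ofNat 100677518, .ofNat 0, .ofNat 238726799, .negSucc 231837941, .ofNat 43877, .ofNat 1529]

/-- A plane. -/
def p64 : Plane := ⟨[.ofNat 18320890, .ofNat 26117487, .ofNat 0, .negSucc 83886079, .ofNat 14631209, .ofNat 34622293, .ofNat 0, .ofNat 83886080, .negSucc 83846778], [.ofNat 67450384, .ofNat 88862949, .ofNat 0, .negSucc 267830207, .ofNat 43428001, .ofNat 100786946, .ofNat 0, .ofNat 236370237, .negSucc 230815159], .ofNat 2951, .negSucc 2391, .ofNat 49036, .ofNat 1517⟩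

/-- Its row F. -/
def f64 : List ℤ := [.negSucc 56811313, .negSucc 18320889, .negSucc 26117486, .ofNat 0, .ofNat 83886080, .negSucc 14631208, .negSucc 34622292, .ofNat 0, .negSucc 83886079, .ofNat 83846779, .ofNat 67450384, .ofNat 88862949, .ofNat 0, .negSucc 267830207, .ofNat 43428001, .ofNat 100786946, .ofNat 0, .ofNat 236370237, .negSucc 230815159, .negSucc 2950]

/-- Its row D. -/
def d64 : List ℤ := [.ofNat 67450384, .ofNat 88862949, .ofNat 0, .negSucc 267830207, .ofNat 43428001, .ofNat 100786946, .ofNat 0, .ofNat 236370237, .negSucc 230815159, .ofNat 49036, .ofNat 1517]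

/-- A plane. -/
def p65 : Plane := ⟨[.ofNat 12728062, .ofNat 17395400, .ofNat 0, .negSucc 56295293, .ofNat 11926656, .ofNat 8299871, .ofNat 0, .ofNat 83886080, .negSucc 71009648], [.ofNat 46746823, .ofNat 58908285, .ofNat 0, .negSucc 178537680, .ofNat 35131956, .ofNat 23933401, .ofNat 0, .ofNat 233948909, .negSucc 193317063], .ofNat 2597, .negSucc 1970, .ofNat 42644, .ofNat 1118⟩

/-- Its row F. -/
def f65 : List ℤ := [.negSucc 39763063, .negSucc 12728061, .negSucc 17395399, .ofNat 0, .ofNat 56295294, .negSucc 11926655, .negSucc 8299870, .ofNat 0, .negSucc 83886079, .ofNat 71009649, .ofNat 46746823, .ofNat 58908285, .ofNat 0, .negSucc 178537680, .ofNat 35131956, .ofNat 23933401, .ofNat 0, .ofNat 233948909, .negSucc 193317063, .negSucc 2596]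

/-- Its row D. -/
def d65 : List ℤ := [.ofNat 46746823, .ofNat 58908285, .ofNat 0, .negSucc 178537680, .ofNat 35131956, .ofNat 23933401, .ofNat 0, .ofNat 233948909, .negSucc 193317063, .ofNat 42644, .ofNat 1118]

/-- A plane. -/
def p66 : Plane := ⟨[.ofNat 13361356, .ofNat 18117662, .ofNat 0, .negSucc 59264440, .ofNat 12481546, .ofNat 11392294, .ofNat 0, .ofNat 83886080, .negSucc 72714472], [.ofNat 48946412, .ofNat 61045964, .ofNat 0, .negSucc 186637868, .ofNat 36427682, .ofNat 32532237, .ofNat 0, .ofNat 231398258, .negSucc 195665152], .ofNat 2576, .negSucc 1813, .ofNat 42164, .ofNat 1480⟩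

/-- Its row F. -/
def f66 : List ℤ := [.negSucc 41571385, .negSucc 13361355, .negSucc 18117661, .ofNat 0, .ofNat 59264441, .negSucc 12481545, .negSucc 11392293, .ofNat 0, .negSucc 83886079, .ofNat 72714473, .ofNat 48946412, .ofNat 61045964, .ofNat 0, .negSucc 186637868, .ofNat 36427682, .ofNat 32532237, .ofNat 0, .ofNat 231398258, .negSucc 195665152, .negSucc 2575]

/-- Its row D. -/
def d66 : List ℤ := [.ofNat 48946412, .ofNat 61045964, .ofNat 0, .negSucc 186637868, .ofNat 36427682, .ofNat 32532237, .ofNat 0, .ofNat 231398258, .negSucc 195665152, .ofNat 42164, .ofNat 1480]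

/-- A plane. -/
def p67 : Plane := ⟨[.ofNat 13742246, .ofNat 18265131, .ofNat 0, .negSucc 60772171, .ofNat 13075117, .ofNat 13188707, .ofNat 0, .ofNat 83886080, .negSucc 73914978], [.ofNat 50208221, .ofNat 61224377, .ofNat 0, .negSucc 190005292, .ofNat 37797817, .ofNat 37272328, .ofNat 0, .ofNat 228818949, .negSucc 196522220], .ofNat 2868, .negSucc 2240, .ofNat 47251, .ofNat 1508⟩

/-- Its row F. -/
def f67 : List ℤ := [.negSucc 42643613, .negSucc 13742245, .negSucc 18265130, .ofNat 0, .ofNat 60772172, .negSucc 13075116, .negSucc 13188706, .ofNat 0, .negSucc 83886079, .ofNat 73914979, .ofNat 50208221, .ofNat 61224377, .ofNat 0, .negSucc 190005292, .ofNat 37797817, .ofNat 37272328, .ofNat 0, .ofNat 228818949, .negSucc 196522220, .negSucc 2867]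

/-- Its row D. -/
def d67 : List ℤ := [.ofNat 50208221, .ofNat 61224377, .ofNat 0, .negSucc 190005292, .ofNat 37797817, .ofNat 37272328, .ofNat 0, .ofNat 228818949, .negSucc 196522220, .ofNat 47251, .ofNat 1508]

/-- A plane. -/
def p68 : Plane := ⟨[.ofNat 14306929, .ofNat 18902214, .ofNat 0, .negSucc 63584832, .ofNat 13734672, .ofNat 16134896, .ofNat 0, .ofNat 83886080, .negSucc 75613122], [.ofNat 52128544, .ofNat 63022118, .ofNat 0, .negSucc 197321597, .ofNat 39316261, .ofNat 45132236, .ofNat 0, .ofNat 226170985, .negSucc 198566092], .ofNat 3235, .negSucc 1933, .ofNat 53666, .ofNat 1506⟩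

/-- Its row F. -/
def f68 : List ℤ := [.negSucc 44227367, .negSucc 14306928, .negSucc 18902213, .ofNat 0, .ofNat 63584833, .negSucc 13734671, .negSucc 16134895, .ofNat 0, .negSucc 83886079, .ofNat 75613123, .ofNat 52128544, .ofNat 63022118, .ofNat 0, .negSucc 197321597, .ofNat 39316261, .ofNat 45132236, .ofNat 0, .ofNat 226170985, .negSucc 198566092, .negSucc 3234]

/-- Its row D. -/
def d68 : List ℤ := [.ofNat 52128544, .ofNat 63022118, .ofNat 0, .negSucc 197321597, .ofNat 39316261, .ofNat 45132236, .ofNat 0, .ofNat 226170985, .negSucc 198566092, .ofNat 53666, .ofNat 1506]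

/-- A plane. -/
def p69 : Plane := ⟨[.ofNat 10908209, .ofNat 13683006, .ofNat 0, .negSucc 46813941, .ofNat 12070743, .ofNat 0, .ofNat 0, .ofNat 83886080, .negSucc 67719456], [.ofNat 39633180, .ofNat 45370174, .ofNat 0, .negSucc 144142586, .ofNat 34193740, .ofNat 0, .ofNat 0, .ofNat 223493582, .negSucc 175541875], .ofNat 2957, .negSucc 1902, .ofNat 48593, .ofNat 1295⟩

/-- Its row F. -/
def f69 : List ℤ := [.negSucc 33979341, .negSucc 10908208, .negSucc 13683005, .ofNat 0, .ofNat 46813942, .negSucc 12070742, .ofNat 0, .ofNat 0, .negSucc 83886079, .ofNat 67719457, .ofNat 39633180, .ofNat 45370174, .ofNat 0, .negSucc 144142586, .ofNat 34193740, .ofNat 0, .ofNat 0, .ofNat 223493582, .negSucc 175541875, .negSucc 2956]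

/-- Its row D. -/
def d69 : List ℤ := [.ofNat 39633180, .ofNat 45370174, .ofNat 0, .negSucc 144142586, .ofNat 34193740, .ofNat 0, .ofNat 0, .ofNat 223493582, .negSucc 175541875, .ofNat 48593, .ofNat 1295]

/-- A plane. -/
def p70 : Plane := ⟨[.ofNat 11327717, .ofNat 13958317, .ofNat 0, .negSucc 48663925, .ofNat 12701470, .ofNat 2082173, .ofNat 0, .ofNat 83886080, .negSucc 69049002], [.ofNat 41033572, .ofNat 46011311, .ofNat 0, .negSucc 148611426, .ofNat 35604923, .ofNat 5692684, .ofNat 0, .ofNat 220652160, .negSucc 176564216], .ofNat 3051, .negSucc 2025, .ofNat 50141, .ofNat 1645⟩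

/-- Its row F. -/
def f70 : List ℤ := [.negSucc 35148303, .negSucc 11327716, .negSucc 13958316, .ofNat 0, .ofNat 48663926, .negSucc 12701469, .negSucc 2082172, .ofNat 0, .negSucc 83886079, .ofNat 69049003, .ofNat 41033572, .ofNat 46011311, .ofNat 0, .negSucc 148611426, .ofNat 35604923, .ofNat 5692684, .ofNat 0, .ofNat 220652160, .negSucc 176564216, .negSucc 3050]

/-- Its row D. -/
def d70 : List ℤ := [.ofNat 41033572, .ofNat 46011311, .ofNat 0, .negSucc 148611426, .ofNat 35604923, .ofNat 5692684, .ofNat 0, .ofNat 220652160, .negSucc 176564216, .ofNat 50141, .ofNat 1645]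

/-- A plane. -/
def p71 : Plane := ⟨[.ofNat 10887403, .ofNat 12954124, .ofNat 0, .negSucc 46239459, .ofNat 12832450, .ofNat 0, .ofNat 0, .ofNat 83886080, .negSucc 68291634], [.ofNat 39316225, .ofNat 42442605, .ofNat 0, .negSucc 139991135, .ofNat 35585318, .ofNat 0, .ofNat 0, .ofNat 217704456, .negSucc 172141966], .ofNat 3057, .negSucc 2078, .ofNat 50117, .ofNat 1873⟩

/-- Its row F. -/
def f71 : List ℤ := [.negSucc 33768919, .negSucc 10887402, .negSucc 12954123, .ofNat 0, .ofNat 46239460, .negSucc 12832449, .ofNat 0, .ofNat 0, .negSucc 83886079, .ofNat 68291635, .ofNat 39316225, .ofNat 42442605, .ofNat 0, .negSucc 139991135, .ofNat 35585318, .ofNat 0, .ofNat 0, .ofNat 217704456, .negSucc 172141966, .negSucc 3056]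

/-- Its row D. -/
def d71 : List ℤ := [.ofNat 39316225, .ofNat 42442605, .ofNat 0, .negSucc 139991135, .ofNat 35585318, .ofNat 0, .ofNat 0, .ofNat 217704456, .negSucc 172141966, .ofNat 50117, .ofNat 1873]

/-- A plane. -/
def p72 : Plane := ⟨[.ofNat 10850648, .ofNat 12627526, .ofNat 0, .negSucc 45975797, .ofNat 13201702, .ofNat 0, .ofNat 0, .ofNat 83886080, .negSucc 68566484], [.ofNat 39053382, .ofNat 41104406, .ofNat 0, .negSucc 137933509, .ofNat 36174653, .ofNat 0, .ofNat 0, .ofNat 214660468, .negSucc 170249990], .ofNat 3406, .negSucc 1836, .ofNat 56193, .ofNat 1775⟩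

/-- Its row F. -/
def f72 : List ℤ := [.negSucc 33567795, .negSucc 10850647, .negSucc 12627525, .ofNat 0, .ofNat 45975798, .negSucc 13201701, .ofNat 0, .ofNat 0, .negSucc 83886079, .ofNat 68566485, .ofNat 39053382, .ofNat 41104406, .ofNat 0, .negSucc 137933509, .ofNat 36174653, .ofNat 0, .ofNat 0, .ofNat 214660468, .negSucc 170249990, .negSucc 3405]

/-- Its row D. -/
def d72 : List ℤ := [.ofNat 39053382, .ofNat 41104406, .ofNat 0, .negSucc 137933509, .ofNat 36174653, .ofNat 0, .ofNat 0, .ofNat 214660468, .negSucc 170249990, .ofNat 56193, .ofNat 1775]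

/-- A plane. -/
def p73 : Plane := ⟨[.ofNat 10843057, .ofNat 12138880, .ofNat 0, .negSucc 45603414, .ofNat 13757451, .ofNat 0, .ofNat 0, .ofNat 83886080, .negSucc 68977234], [.ofNat 38892272, .ofNat 39249397, .ofNat 0, .negSucc 135513016, .ofNat 37235459, .ofNat 0, .ofNat 0, .ofNat 211497834, .negSucc 168574879], .ofNat 3518, .negSucc 1876, .ofNat 58033, .ofNat 2125⟩

/-- Its row F. -/
def f73 : List ℤ := [.negSucc 33480739, .negSucc 10843056, .negSucc 12138879, .ofNat 0, .ofNat 45603415, .negSucc 13757450, .ofNat 0, .ofNat 0, .negSucc 83886079, .ofNat 68977235, .ofNat 38892272, .ofNat 39249397, .ofNat 0, .negSucc 135513016, .ofNat 37235459, .ofNat 0, .ofNat 0, .ofNat 211497834, .negSucc 168574879, .negSucc 3517]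

/-- Its row D. -/
def d73 : List ℤ := [.ofNat 38892272, .ofNat 39249397, .ofNat 0, .negSucc 135513016, .ofNat 37235459, .ofNat 0, .ofNat 0, .ofNat 211497834, .negSucc 168574879, .ofNat 58033, .ofNat 2125]

/-- A plane. -/
def p74 : Plane := ⟨[.ofNat 10792534, .ofNat 11514346, .ofNat 0, .negSucc 45129143, .ofNat 14575707, .ofNat 0, .ofNat 0, .ofNat 83886080, .negSucc 69572146], [.ofNat 38568839, .ofNat 36933977, .ofNat 0, .negSucc 132733861, .ofNat 38932059, .ofNat 0, .ofNat 0, .ofNat 208172461, .negSucc 167160532], .ofNat 3987, .negSucc 2016, .ofNat 66206, .ofNat 2143⟩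

/-- Its row F. -/
def f74 : List ℤ := [.negSucc 33287095, .negSucc 10792533, .negSucc 11514345, .ofNat 0, .ofNat 45129144, .negSucc 14575706, .ofNat 0, .ofNat 0, .negSucc 83886079, .ofNat 69572147, .ofNat 38568839, .ofNat 36933977, .ofNat 0, .negSucc 132733861, .ofNat 38932059, .ofNat 0, .ofNat 0, .ofNat 208172461, .negSucc 167160532, .negSucc 3986]

/-- Its row D. -/
def d74 : List ℤ := [.ofNat 38568839, .ofNat 36933977, .ofNat 0, .negSucc 132733861, .ofNat 38932059, .ofNat 0, .ofNat 0, .ofNat 208172461, .negSucc 167160532, .ofNat 66206, .ofNat 2143]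

/-- A plane. -/
def p75 : Plane := ⟨[.ofNat 10794999, .ofNat 10959468, .ofNat 0, .negSucc 44723103, .ofNat 15248160, .ofNat 0, .ofNat 0, .ofNat 83886080, .negSucc 70061626], [.ofNat 38425589, .ofNat 34882695, .ofNat 0, .negSucc 130124998, .ofNat 40154452, .ofNat 0, .ofNat 0, .ofNat 204724081, .negSucc 165345971], .ofNat 4121, .negSucc 2287, .ofNat 68438, .ofNat 2616⟩

/-- Its row F. -/
def f75 : List ℤ := [.negSucc 33219163, .negSucc 10794998, .negSucc 10959467, .ofNat 0, .ofNat 44723104, .negSucc 15248159, .ofNat 0, .ofNat 0, .negSucc 83886079, .ofNat 70061627, .ofNat 38425589, .ofNat 34882695, .ofNat 0, .negSucc 130124998, .ofNat 40154452, .ofNat 0, .ofNat 0, .ofNat 204724081, .negSucc 165345971, .negSucc 4120]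

/-- Its row D. -/
def d75 : List ℤ := [.ofNat 38425589, .ofNat 34882695, .ofNat 0, .negSucc 130124998, .ofNat 40154452, .ofNat 0, .ofNat 0, .ofNat 204724081, .negSucc 165345971, .ofNat 68438, .ofNat 2616]

/-- A plane. -/
def p76 : Plane := ⟨[.ofNat 10802691, .ofNat 10217839, .ofNat 0, .negSucc 44196498, .ofNat 16192455, .ofNat 0, .ofNat 0, .ofNat 83886080, .negSucc 70740838], [.ofNat 38296121, .ofNat 32262302, .ofNat 0, .negSucc 127133259, .ofNat 42019536, .ofNat 0, .ofNat 0, .ofNat 201138794, .negSucc 163820744], .ofNat 4294, .negSucc 2474, .ofNat 71333, .ofNat 3225⟩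

/-- Its row F. -/
def f76 : List ℤ := [.negSucc 33197091, .negSucc 10802690, .negSucc 10217838, .ofNat 0, .ofNat 44196499, .negSucc 16192454, .ofNat 0, .ofNat 0, .negSucc 83886079, .ofNat 70740839, .ofNat 38296121, .ofNat 32262302, .ofNat 0, .negSucc 127133259, .ofNat 42019536, .ofNat 0, .ofNat 0, .ofNat 201138794, .negSucc 163820744, .negSucc 4293]

/-- Its row D. -/
def d76 : List ℤ := [.ofNat 38296121, .ofNat 32262302, .ofNat 0, .negSucc 127133259, .ofNat 42019536, .ofNat 0, .ofNat 0, .ofNat 201138794, .negSucc 163820744, .ofNat 71333, .ofNat 3225]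

/-- A plane. -/
def p77 : Plane := ⟨[.ofNat 10810390, .ofNat 9552390, .ofNat 0, .negSucc 43729115, .ofNat 17059303, .ofNat 0, .ofNat 0, .ofNat 83886080, .negSucc 71361848], [.ofNat 38122172, .ofNat 29902280, .ofNat 0, .negSucc 124254068, .ofNat 43575893, .ofNat 0, .ofNat 0, .ofNat 197360211, .negSucc 161931218], .ofNat 4870, .negSucc 2607, .ofNat 81387, .ofNat 3241⟩

/-- Its row F. -/
def f77 : List ℤ := [.negSucc 33110923, .negSucc 10810389, .negSucc 9552389, .ofNat 0, .ofNat 43729116, .negSucc 17059302, .ofNat 0, .ofNat 0, .negSucc 83886079, .ofNat 71361849, .ofNat 38122172, .ofNat 29902280, .ofNat 0, .negSucc 124254068, .ofNat 43575893, .ofNat 0, .ofNat 0, .ofNat 197360211, .negSucc 161931218, .negSucc 4869]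

/-- Its row D. -/
def d77 : List ℤ := [.ofNat 38122172, .ofNat 29902280, .ofNat 0, .negSucc 124254068, .ofNat 43575893, .ofNat 0, .ofNat 0, .ofNat 197360211, .negSucc 161931218, .ofNat 81387, .ofNat 3241]

/-- A plane. -/
def p78 : Plane := ⟨[.ofNat 10809214, .ofNat 8735774, .ofNat 0, .negSucc 43203631, .ofNat 18233104, .ofNat 0, .ofNat 0, .ofNat 83886080, .negSucc 72172541], [.ofNat 37937105, .ofNat 27068873, .ofNat 0, .negSucc 121117464, .ofNat 45790051, .ofNat 0, .ofNat 0, .ofNat 193290717, .negSucc 160155560], .ofNat 5242, .negSucc 2286, .ofNat 87779, .ofNat 3883⟩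

/-- Its row F. -/
def f78 : List ℤ := [.negSucc 33046869, .negSucc 10809213, .negSucc 8735773, .ofNat 0, .ofNat 43203632, .negSucc 18233103, .ofNat 0, .ofNat 0, .negSucc 83886079, .ofNat 72172542, .ofNat 37937105, .ofNat 27068873, .ofNat 0, .negSucc 121117464, .ofNat 45790051, .ofNat 0, .ofNat 0, .ofNat 193290717, .negSucc 160155560, .negSucc 5241]

/-- Its row D. -/
def d78 : List ℤ := [.ofNat 37937105, .ofNat 27068873, .ofNat 0, .negSucc 121117464, .ofNat 45790051, .ofNat 0, .ofNat 0, .ofNat 193290717, .negSucc 160155560, .ofNat 87779, .ofNat 3883]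

/-- A plane. -/
def p79 : Plane := ⟨[.ofNat 10871612, .ofNat 7883749, .ofNat 0, .negSucc 42642100, .ofNat 19357651, .ofNat 0, .ofNat 0, .ofNat 83886080, .negSucc 72968167], [.ofNat 37953875, .ofNat 24176022, .ofNat 0, .negSucc 117787939, .ofNat 47700645, .ofNat 0, .ofNat 0, .ofNat 188919960, .negSucc 158000596], .ofNat 5801, .negSucc 2451, .ofNat 97495, .ofNat 4250⟩

/-- Its row F. -/
def f79 : List ℤ := [.negSucc 33141379, .negSucc 10871611, .negSucc 7883748, .ofNat 0, .ofNat 42642101, .negSucc 19357650, .ofNat 0, .ofNat 0, .negSucc 83886079, .ofNat 72968168, .ofNat 37953875, .ofNat 24176022, .ofNat 0, .negSucc 117787939, .ofNat 47700645, .ofNat 0, .ofNat 0, .ofNat 188919960, .negSucc 158000596, .negSucc 5800]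

/-- Its row D. -/
def d79 : List ℤ := [.ofNat 37953875, .ofNat 24176022, .ofNat 0, .negSucc 117787939, .ofNat 47700645, .ofNat 0, .ofNat 0, .ofNat 188919960, .negSucc 158000596, .ofNat 97495, .ofNat 4250]

/-- A plane. -/
def p80 : Plane := ⟨[.ofNat 14509525, .ofNat 10407971, .ofNat 0, .negSucc 58129243, .ofNat 24737873, .ofNat 16936065, .ofNat 0, .ofNat 83886080, .negSucc 83886079], [.ofNat 50364234, .ofNat 31513337, .ofNat 0, .negSucc 158018891, .ofNat 59663081, .ofNat 39343530, .ofNat 0, .ofNat 184312252, .negSucc 176889872], .ofNat 7669, .negSucc 2601, .ofNat 130464, .ofNat 5808⟩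

/-- Its row F. -/
def f80 : List ℤ := [.negSucc 43645753, .negSucc 14509524, .negSucc 10407970, .ofNat 0, .ofNat 58129244, .negSucc 24737872, .negSucc 16936064, .ofNat 0, .negSucc 83886079, .ofNat 83886080, .ofNat 50364234, .ofNat 31513337, .ofNat 0, .negSucc 158018891, .ofNat 59663081, .ofNat 39343530, .ofNat 0, .ofNat 184312252, .negSucc 176889872, .negSucc 7668]

/-- Its row D. -/
def d80 : List ℤ := [.ofNat 50364234, .ofNat 31513337, .ofNat 0, .negSucc 158018891, .ofNat 59663081, .ofNat 39343530, .ofNat 0, .ofNat 184312252, .negSucc 176889872, .ofNat 130464, .ofNat 5808]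

/-- A plane. -/
def p81 : Plane := ⟨[.ofNat 14128578, .ofNat 10804802, .ofNat 0, .negSucc 58048834, .ofNat 23913876, .ofNat 17209250, .ofNat 445132, .ofNat 83886080, .negSucc 83886079], [.ofNat 48738267, .ofNat 32334012, .ofNat 0, .negSucc 155036588, .ofNat 56407956, .ofNat 38993945, .ofNat 1123226, .ofNat 179314493, .negSucc 171788638], .ofNat 7767, .negSucc 2613, .ofNat 131925, .ofNat 6656⟩

/-- Its row F. -/
def f81 : List ℤ := [.negSucc 43262507, .negSucc 14128577, .negSucc 10804801, .ofNat 0, .ofNat 58048835, .negSucc 23913875, .negSucc 17209249, .negSucc 445131, .negSucc 83886079, .ofNat 83886080, .ofNat 48738267, .ofNat 32334012, .ofNat 0, .negSucc 155036588, .ofNat 56407956, .ofNat 38993945, .ofNat 1123226, .ofNat 179314493, .negSucc 171788638, .negSucc 7766]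

/-- Its row D. -/
def d81 : List ℤ := [.ofNat 48738267, .ofNat 32334012, .ofNat 0, .negSucc 155036588, .ofNat 56407956, .ofNat 38993945, .ofNat 1123226, .ofNat 179314493, .negSucc 171788638, .ofNat 131925, .ofNat 6656]

/-- A plane. -/
def p82 : Plane := ⟨[.ofNat 12594421, .ofNat 11937975, .ofNat 0, .negSucc 57628079, .ofNat 22558695, .ofNat 17214517, .ofNat 1542848, .ofNat 83886080, .negSucc 83886079], [.ofNat 43097405, .ofNat 35200351, .ofNat 0, .negSucc 150880646, .ofNat 51856753, .ofNat 37948302, .ofNat 3814850, .ofNat 173917770, .negSucc 166220199], .ofNat 8643, .negSucc 740, .ofNat 147193, .ofNat 7250⟩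

/-- Its row F. -/
def f82 : List ℤ := [.negSucc 41026933, .negSucc 12594420, .negSucc 11937974, .ofNat 0, .ofNat 57628080, .negSucc 22558694, .negSucc 17214516, .negSucc 1542847, .negSucc 83886079, .ofNat 83886080, .ofNat 43097405, .ofNat 35200351, .ofNat 0, .negSucc 150880646, .ofNat 51856753, .ofNat 37948302, .ofNat 3814850, .ofNat 173917770, .negSucc 166220199, .negSucc 8642]

/-- Its row D. -/
def d82 : List ℤ := [.ofNat 43097405, .ofNat 35200351, .ofNat 0, .negSucc 150880646, .ofNat 51856753, .ofNat 37948302, .ofNat 3814850, .ofNat 173917770, .negSucc 166220199, .ofNat 147193, .ofNat 7250]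

/-- A plane. -/
def p83 : Plane := ⟨[.ofNat 11063201, .ofNat 13085663, .ofNat 0, .negSucc 57556858, .ofNat 21348242, .ofNat 18420573, .ofNat 2856285, .ofNat 82784090, .negSucc 83886079], [.ofNat 37558884, .ofNat 37946915, .ofNat 0, .negSucc 147343690, .ofNat 47695510, .ofNat 39363042, .ofNat 6907646, .ofNat 165782373, .negSucc 160144827], .ofNat 9634, .negSucc 408, .ofNat 164449, .ofNat 8444⟩

/-- Its row F. -/
def f83 : List ℤ := [.negSucc 39300653, .negSucc 11063200, .negSucc 13085662, .ofNat 0, .ofNat 57556859, .negSucc 21348241, .negSucc 18420572, .negSucc 2856284, .negSucc 82784089, .ofNat 83886080, .ofNat 37558884, .ofNat 37946915, .ofNat 0, .negSucc 147343690, .ofNat 47695510, .ofNat 39363042, .ofNat 6907646, .ofNat 165782373, .negSucc 160144827, .negSucc 9633]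

/-- Its row D. -/
def d83 : List ℤ := [.ofNat 37558884, .ofNat 37946915, .ofNat 0, .negSucc 147343690, .ofNat 47695510, .ofNat 39363042, .ofNat 6907646, .ofNat 165782373, .negSucc 160144827, .ofNat 164449, .ofNat 8444]

/-- A plane. -/
def p84 : Plane := ⟨[.ofNat 15668100, .ofNat 16549226, .ofNat 0, .negSucc 82079360, .ofNat 29837519, .ofNat 66469330, .ofNat 4042681, .ofNat 44971108, .negSucc 83886079], [.ofNat 52654543, .ofNat 47109629, .ofNat 0, .negSucc 204829445, .ofNat 64485730, .ofNat 136976671, .ofNat 9513928, .ofNat 86625876, .negSucc 153522317], .ofNat 13874, .negSucc 1121, .ofNat 239424, .ofNat 13623⟩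

/-- Its row F. -/
def f84 : List ℤ := [.negSucc 54881935, .negSucc 15668099, .negSucc 16549225, .ofNat 0, .ofNat 82079361, .negSucc 29837518, .negSucc 66469329, .negSucc 4042680, .negSucc 44971107, .ofNat 83886080, .ofNat 52654543, .ofNat 47109629, .ofNat 0, .negSucc 204829445, .ofNat 64485730, .ofNat 136976671, .ofNat 9513928, .ofNat 86625876, .negSucc 153522317, .negSucc 13873]

/-- Its row D. -/
def d84 : List ℤ := [.ofNat 52654543, .ofNat 47109629, .ofNat 0, .negSucc 204829445, .ofNat 64485730, .ofNat 136976671, .ofNat 9513928, .ofNat 86625876, .negSucc 153522317, .ofNat 239424, .ofNat 13623]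

/-- A plane. -/
def p85 : Plane := ⟨[.ofNat 14812191, .ofNat 17839989, .ofNat 0, .negSucc 83886079, .ofNat 29018737, .ofNat 71452872, .ofNat 5613485, .ofNat 40978862, .negSucc 83886079], [.ofNat 49270435, .ofNat 49695088, .ofNat 0, .negSucc 203230241, .ofNat 60390996, .ofNat 141369331, .ofNat 12817372, .ofNat 75390137, .negSucc 146179646], .ofNat 15497, .negSucc 1614, .ofNat 267807, .ofNat 15943⟩

/-- Its row F. -/
def f85 : List ℤ := [.negSucc 55155757, .negSucc 14812190, .negSucc 17839988, .ofNat 0, .ofNat 83886080, .negSucc 29018736, .negSucc 71452871, .negSucc 5613484, .negSucc 40978861, .ofNat 83886080, .ofNat 49270435, .ofNat 49695088, .ofNat 0, .negSucc 203230241, .ofNat 60390996, .ofNat 141369331, .ofNat 12817372, .ofNat 75390137, .negSucc 146179646, .negSucc 15496]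

/-- Its row D. -/
def d85 : List ℤ := [.ofNat 49270435, .ofNat 49695088, .ofNat 0, .negSucc 203230241, .ofNat 60390996, .ofNat 141369331, .ofNat 12817372, .ofNat 75390137, .negSucc 146179646, .ofNat 267807, .ofNat 15943]

/-- A plane. -/
def p86 : Plane := ⟨[.ofNat 12031599, .ofNat 18577083, .ofNat 0, .negSucc 83886079, .ofNat 29748088, .ofNat 83886080, .ofNat 9295646, .ofNat 20489118, .negSucc 77383763], [.ofNat 39459320, .ofNat 50231763, .ofNat 0, .negSucc 196081076, .ofNat 59231155, .ofNat 158073929, .ofNat 20475087, .ofNat 35738260, .negSucc 127092452], .ofNat 19859, .negSucc 1899, .ofNat 344766, .ofNat 21440⟩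

/-- Its row F. -/
def f86 : List ℤ := [.negSucc 54552627, .negSucc 12031598, .negSucc 18577082, .ofNat 0, .ofNat 83886080, .negSucc 29748087, .negSucc 83886079, .negSucc 9295645, .negSucc 20489117, .ofNat 77383764, .ofNat 39459320, .ofNat 50231763, .ofNat 0, .negSucc 196081076, .ofNat 59231155, .ofNat 158073929, .ofNat 20475087, .ofNat 35738260, .negSucc 127092452, .negSucc 19858]

/-- Its row D. -/
def d86 : List ℤ := [.ofNat 39459320, .ofNat 50231763, .ofNat 0, .negSucc 196081076, .ofNat 59231155, .ofNat 158073929, .ofNat 20475087, .ofNat 35738260, .negSucc 127092452, .ofNat 344766, .ofNat 21440]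

/-- A plane. -/
def p87 : Plane := ⟨[.ofNat 9589201, .ofNat 14935159, .ofNat 0, .negSucc 73191586, .ofNat 30243534, .ofNat 83886080, .ofNat 11892290, .ofNat 0, .negSucc 64154207], [.ofNat 30911259, .ofNat 39044649, .ofNat 0, .negSucc 163381439, .ofNat 56897464, .ofNat 148553299, .ofNat 25107235, .ofNat 0, .negSucc 97642651], .ofNat 982, .negSucc 1552, .ofNat 8389, .ofNat 76252⟩

/-- Its row F. -/
def f87 : List ℤ := [.negSucc 52575583, .negSucc 9589200, .negSucc 14935158, .ofNat 0, .ofNat 73191587, .negSucc 30243533, .negSucc 83886079, .negSucc 11892289, .ofNat 0, .ofNat 64154208, .ofNat 30911259, .ofNat 39044649, .ofNat 0, .negSucc 163381439, .ofNat 56897464, .ofNat 148553299, .ofNat 25107235, .ofNat 0, .negSucc 97642651, .negSucc 981]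

/-- Its row D. -/
def d87 : List ℤ := [.ofNat 30911259, .ofNat 39044649, .ofNat 0, .negSucc 163381439, .ofNat 56897464, .ofNat 148553299, .ofNat 25107235, .ofNat 0, .negSucc 97642651, .ofNat 8389, .ofNat 76252]

/-- A plane. -/
def p88 : Plane := ⟨[.ofNat 13099872, .ofNat 5189358, .ofNat 0, .negSucc 72152566, .ofNat 57603316, .ofNat 81404851, .ofNat 21342443, .ofNat 0, .negSucc 83886079], [.ofNat 41217876, .ofNat 12981909, .ofNat 0, .negSucc 151047285, .ofNat 100394048, .ofNat 132648272, .ofNat 42440666, .ofNat 0, .negSucc 114839914], .ofNat 1045, .negSucc 5071, .ofNat 8389, .ofNat 146874⟩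

/-- Its row F. -/
def f88 : List ℤ := [.negSucc 82378609, .negSucc 13099871, .negSucc 5189357, .ofNat 0, .ofNat 72152567, .negSucc 57603315, .negSucc 81404850, .negSucc 21342442, .ofNat 0, .ofNat 83886080, .ofNat 41217876, .ofNat 12981909, .ofNat 0, .negSucc 151047285, .ofNat 100394048, .ofNat 132648272, .ofNat 42440666, .ofNat 0, .negSucc 114839914, .negSucc 1044]

/-- Its row D. -/
def d88 : List ℤ := [.ofNat 41217876, .ofNat 12981909, .ofNat 0, .negSucc 151047285, .ofNat 100394048, .ofNat 132648272, .ofNat 42440666, .ofNat 0, .negSucc 114839914, .ofNat 8389, .ofNat 146874]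

/-- A plane. -/
def p89 : Plane := ⟨[.ofNat 0, .ofNat 0, .ofNat 0, .negSucc 37001142, .ofNat 47383313, .ofNat 53044814, .ofNat 53575106, .ofNat 0, .negSucc 83886079], [.ofNat 0, .ofNat 0, .ofNat 0, .negSucc 69358957, .ofNat 73223413, .ofNat 76046891, .ofNat 97903707, .ofNat 0, .negSucc 95790295], .ofNat 1166, .negSucc 476, .ofNat 8389, .ofNat 273692⟩

/-- Its row F. -/
def f89 : List ℤ := [.negSucc 97816539, .ofNat 0, .ofNat 0, .ofNat 0, .ofNat 37001143, .negSucc 47383312, .negSucc 53044813, .negSucc 53575105, .ofNat 0, .ofNat 83886080, .ofNat 0, .ofNat 0, .ofNat 0, .negSucc 69358957, .ofNat 73223413, .ofNat 76046891, .ofNat 97903707, .ofNat 0, .negSucc 95790295, .negSucc 1165]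

/-- Its row D. -/
def d89 : List ℤ := [.ofNat 0, .ofNat 0, .ofNat 0, .negSucc 69358957, .ofNat 73223413, .ofNat 76046891, .ofNat 97903707, .ofNat 0, .negSucc 95790295, .ofNat 8389, .ofNat 273692]

/-- A plane. -/
def p90 : Plane := ⟨[.ofNat 0, .ofNat 0, .ofNat 0, .negSucc 10943973, .ofNat 28341367, .ofNat 0, .ofNat 83886080, .ofNat 0, .negSucc 53063546], [.ofNat 0, .ofNat 0, .ofNat 0, .negSucc 14824640, .ofNat 34311550, .ofNat 0, .ofNat 129248664, .ofNat 0, .negSucc 35934856], .ofNat 1599, .negSucc 2816, .ofNat 8389, .ofNat 430912⟩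

/-- Its row F. -/
def f90 : List ℤ := [.negSucc 129155945, .ofNat 0, .ofNat 0, .ofNat 0, .ofNat 10943974, .negSucc 28341366, .ofNat 0, .negSucc 83886079, .ofNat 0, .ofNat 53063547, .ofNat 0, .ofNat 0, .ofNat 0, .negSucc 14824640, .ofNat 34311550, .ofNat 0, .ofNat 129248664, .ofNat 0, .negSucc 35934856, .negSucc 1598]

/-- Its row D. -/
def d90 : List ℤ := [.ofNat 0, .ofNat 0, .ofNat 0, .negSucc 14824640, .ofNat 34311550, .ofNat 0, .ofNat 129248664, .ofNat 0, .negSucc 35934856, .ofNat 8389, .ofNat 430912]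

/-- A plane. -/
def p91 : Plane := ⟨[.ofNat 388980, .ofNat 0, .ofNat 0, .negSucc 1097771, .ofNat 4100853, .ofNat 0, .ofNat 83886080, .ofNat 13317844, .negSucc 54155285], [.ofNat 715453, .ofNat 0, .ofNat 0, .negSucc 664188, .ofNat 2465318, .ofNat 0, .ofNat 96003640, .ofNat 6362943, .negSucc 10127448], .ofNat 2587, .negSucc 2077296, .ofNat 8389, .ofNat 2521911⟩

/-- Its row F. -/
def f91 : List ℤ := [.negSucc 92475439, .negSucc 388979, .ofNat 0, .ofNat 0, .ofNat 1097772, .negSucc 4100852, .ofNat 0, .negSucc 83886079, .negSucc 13317843, .ofNat 54155286, .ofNat 715453, .ofNat 0, .ofNat 0, .negSucc 664188, .ofNat 2465318, .ofNat 0, .ofNat 96003640, .ofNat 6362943, .negSucc 10127448, .negSucc 2586]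

/-- Its row D. -/
def d91 : List ℤ := [.ofNat 715453, .ofNat 0, .ofNat 0, .negSucc 664188, .ofNat 2465318, .ofNat 0, .ofNat 96003640, .ofNat 6362943, .negSucc 10127448, .ofNat 8389, .ofNat 2521911]

/-- A plane. -/
def p92 : Plane := ⟨[.ofNat 32698603, .ofNat 0, .ofNat 0, .negSucc 64406101, .ofNat 31746248, .ofNat 83886080, .ofNat 10614052, .ofNat 16929527, .negSucc 83886079], [.ofNat 128301841, .ofNat 0, .ofNat 0, .negSucc 244334193, .ofNat 118548936, .ofNat 312116983, .ofNat 39884327, .ofNat 62552403, .negSucc 308507052], .ofNat 518, .negSucc 8624, .ofNat 8389, .ofNat 413⟩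

/-- Its row F. -/
def f92 : List ℤ := [.negSucc 161944579, .negSucc 32698602, .ofNat 0, .ofNat 0, .ofNat 64406102, .negSucc 31746247, .negSucc 83886079, .negSucc 10614051, .negSucc 16929526, .ofNat 83886080, .ofNat 128301841, .ofNat 0, .ofNat 0, .negSucc 244334193, .ofNat 118548936, .ofNat 312116983, .ofNat 39884327, .ofNat 62552403, .negSucc 308507052, .negSucc 517]

/-- Its row D. -/
def d92 : List ℤ := [.ofNat 128301841, .ofNat 0, .ofNat 0, .negSucc 244334193, .ofNat 118548936, .ofNat 312116983, .ofNat 39884327, .ofNat 62552403, .negSucc 308507052, .ofNat 8389, .ofNat 413]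

/-- A plane. -/
def p93 : Plane := ⟨[.ofNat 37117065, .ofNat 0, .ofNat 0, .negSucc 75754715, .ofNat 38562691, .ofNat 83886080, .ofNat 2485846, .ofNat 22279213, .negSucc 83886079], [.ofNat 145358222, .ofNat 0, .ofNat 0, .negSucc 285934437, .ofNat 143092798, .ofNat 309917426, .ofNat 9277586, .ofNat 81686803, .negSucc 306035913], .ofNat 522, .negSucc 7771, .ofNat 8389, .ofNat 435⟩

/-- Its row F. -/
def f93 : List ℤ := [.negSucc 145329223, .negSucc 37117064, .ofNat 0, .ofNat 0, .ofNat 75754716, .negSucc 38562690, .negSucc 83886079, .negSucc 2485845, .negSucc 22279212, .ofNat 83886080, .ofNat 145358222, .ofNat 0, .ofNat 0, .negSucc 285934437, .ofNat 143092798, .ofNat 309917426, .ofNat 9277586, .ofNat 81686803, .negSucc 306035913, .negSucc 521]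

/-- Its row D. -/
def d93 : List ℤ := [.ofNat 145358222, .ofNat 0, .ofNat 0, .negSucc 285934437, .ofNat 143092798, .ofNat 309917426, .ofNat 9277586, .ofNat 81686803, .negSucc 306035913, .ofNat 8389, .ofNat 435]

/-- A plane. -/
def p94 : Plane := ⟨[.ofNat 38907128, .ofNat 0, .ofNat 0, .negSucc 79356461, .ofNat 40275627, .ofNat 83886080, .ofNat 0, .ofNat 24193554, .negSucc 83886079], [.ofNat 152073560, .ofNat 0, .ofNat 0, .negSucc 298014362, .ofNat 148457385, .ofNat 307787329, .ofNat 0, .ofNat 88004150, .negSucc 303582809], .ofNat 526, .negSucc 8113, .ofNat 8389, .ofNat 465⟩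

/-- Its row F. -/
def f94 : List ℤ := [.negSucc 141394579, .negSucc 38907127, .ofNat 0, .ofNat 0, .ofNat 79356462, .negSucc 40275626, .negSucc 83886079, .ofNat 0, .negSucc 24193553, .ofNat 83886080, .ofNat 152073560, .ofNat 0, .ofNat 0, .negSucc 298014362, .ofNat 148457385, .ofNat 307787329, .ofNat 0, .ofNat 88004150, .negSucc 303582809, .negSucc 525]

/-- Its row D. -/
def d94 : List ℤ := [.ofNat 152073560, .ofNat 0, .ofNat 0, .negSucc 298014362, .ofNat 148457385, .ofNat 307787329, .ofNat 0, .ofNat 88004150, .negSucc 303582809, .ofNat 8389, .ofNat 465]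

/-- A plane. -/
def p95 : Plane := ⟨[.ofNat 39207208, .ofNat 0, .ofNat 0, .negSucc 79300873, .ofNat 39828681, .ofNat 83886080, .ofNat 0, .ofNat 24444703, .negSucc 83886079], [.ofNat 152975701, .ofNat 0, .ofNat 0, .negSucc 296309467, .ofNat 145850349, .ofNat 305659943, .ofNat 0, .ofNat 88236411, .negSucc 301165248], .ofNat 530, .negSucc 9121, .ofNat 8389, .ofNat 465⟩

/-- Its row F. -/
def f95 : List ℤ := [.negSucc 142117693, .negSucc 39207207, .ofNat 0, .ofNat 0, .ofNat 79300874, .negSucc 39828680, .negSucc 83886079, .ofNat 0, .negSucc 24444702, .ofNat 83886080, .ofNat 152975701, .ofNat 0, .ofNat 0, .negSucc 296309467, .ofNat 145850349, .ofNat 305659943, .ofNat 0, .ofNat 88236411, .negSucc 301165248, .negSucc 529]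

/-- Its row D. -/
def d95 : List ℤ := [.ofNat 152975701, .ofNat 0, .ofNat 0, .negSucc 296309467, .ofNat 145850349, .ofNat 305659943, .ofNat 0, .ofNat 88236411, .negSucc 301165248, .ofNat 8389, .ofNat 465]

/-- A plane. -/
def p96 : Plane := ⟨[.ofNat 37737138, .ofNat 4725931, .ofNat 0, .negSucc 83886079, .ofNat 36133326, .ofNat 83886080, .ofNat 0, .ofNat 28361497, .negSucc 83886079], [.ofNat 147012059, .ofNat 17961654, .ofNat 0, .negSucc 311888270, .ofNat 131469487, .ofNat 303554013, .ofNat 0, .ofNat 101595932, .negSucc 298798412], .ofNat 534, .negSucc 9253, .ofNat 8389, .ofNat 434⟩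

/-- Its row F. -/
def f96 : List ℤ := [.negSucc 135650789, .negSucc 37737137, .negSucc 4725930, .ofNat 0, .ofNat 83886080, .negSucc 36133325, .negSucc 83886079, .ofNat 0, .negSucc 28361496, .ofNat 83886080, .ofNat 147012059, .ofNat 17961654, .ofNat 0, .negSucc 311888270, .ofNat 131469487, .ofNat 303554013, .ofNat 0, .ofNat 101595932, .negSucc 298798412, .negSucc 533]

/-- Its row D. -/
def d96 : List ℤ := [.ofNat 147012059, .ofNat 17961654, .ofNat 0, .negSucc 311888270, .ofNat 131469487, .ofNat 303554013, .ofNat 0, .ofNat 101595932, .negSucc 298798412, .ofNat 8389, .ofNat 434]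

/-- A plane. -/
def p97 : Plane := ⟨[.ofNat 32617967, .ofNat 10933639, .ofNat 0, .negSucc 83886079, .ofNat 28543146, .ofNat 71288840, .ofNat 0, .ofNat 43923573, .negSucc 83886079], [.ofNat 126835331, .ofNat 41422580, .ofNat 0, .negSucc 310371752, .ofNat 103207844, .ofNat 256251804, .ofNat 0, .ofNat 156188299, .negSucc 296495111], .ofNat 538, .negSucc 7525, .ofNat 8389, .ofNat 411⟩

/-- Its row F. -/
def f97 : List ℤ := [.negSucc 114992923, .negSucc 32617966, .negSucc 10933638, .ofNat 0, .ofNat 83886080, .negSucc 28543145, .negSucc 71288839, .ofNat 0, .negSucc 43923572, .ofNat 83886080, .ofNat 126835331, .ofNat 41422580, .ofNat 0, .negSucc 310371752, .ofNat 103207844, .ofNat 256251804, .ofNat 0, .ofNat 156188299, .negSucc 296495111, .negSucc 537]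

/-- Its row D. -/
def d97 : List ℤ := [.ofNat 126835331, .ofNat 41422580, .ofNat 0, .negSucc 310371752, .ofNat 103207844, .ofNat 256251804, .ofNat 0, .ofNat 156188299, .negSucc 296495111, .ofNat 8389, .ofNat 411]

/-- A plane. -/
def p98 : Plane := ⟨[.ofNat 25402215, .ofNat 19974554, .ofNat 0, .negSucc 83886079, .ofNat 19408525, .ofNat 50570045, .ofNat 0, .ofNat 67143006, .negSucc 83886079], [.ofNat 98598904, .ofNat 75412738, .ofNat 0, .negSucc 308899873, .ofNat 69780718, .ofNat 180595191, .ofNat 0, .ofNat 237090352, .negSucc 294265829], .ofNat 541, .negSucc 4963, .ofNat 8389, .ofNat 422⟩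

/-- Its row F. -/
def f98 : List ℤ := [.negSucc 87162099, .negSucc 25402214, .negSucc 19974553, .ofNat 0, .ofNat 83886080, .negSucc 19408524, .negSucc 50570044, .ofNat 0, .negSucc 67143005, .ofNat 83886080, .ofNat 98598904, .ofNat 75412738, .ofNat 0, .negSucc 308899873, .ofNat 69780718, .ofNat 180595191, .ofNat 0, .ofNat 237090352, .negSucc 294265829, .negSucc 540]

/-- Its row D. -/
def d98 : List ℤ := [.ofNat 98598904, .ofNat 75412738, .ofNat 0, .negSucc 308899873, .ofNat 69780718, .ofNat 180595191, .ofNat 0, .ofNat 237090352, .negSucc 294265829, .ofNat 8389, .ofNat 422]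

/-- A plane. -/
def p99 : Plane := ⟨[.ofNat 22858368, .ofNat 23499415, .ofNat 0, .negSucc 83886079, .ofNat 16060026, .ofNat 41568546, .ofNat 0, .ofNat 76794093, .negSucc 83886079], [.ofNat 88569536, .ofNat 88440852, .ofNat 0, .negSucc 307445422, .ofNat 57350054, .ofNat 147497346, .ofNat 0, .ofNat 269297793, .negSucc 292069773], .ofNat 545, .negSucc 3982, .ofNat 8389, .ofNat 430⟩

/-- Its row F. -/
def f99 : List ℤ := [.negSucc 77256225, .negSucc 22858367, .negSucc 23499414, .ofNat 0, .ofNat 83886080, .negSucc 16060025, .negSucc 41568545, .ofNat 0, .negSucc 76794092, .ofNat 83886080, .ofNat 88569536, .ofNat 88440852, .ofNat 0, .negSucc 307445422, .ofNat 57350054, .ofNat 147497346, .ofNat 0, .ofNat 269297793, .negSucc 292069773, .negSucc 544]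

/-- Its row D. -/
def d99 : List ℤ := [.ofNat 88569536, .ofNat 88440852, .ofNat 0, .negSucc 307445422, .ofNat 57350054, .ofNat 147497346, .ofNat 0, .ofNat 269297793, .negSucc 292069773, .ofNat 8389, .ofNat 430]

/-- A plane. -/
def p100 : Plane := ⟨[.ofNat 21177026, .ofNat 26036319, .ofNat 0, .negSucc 83886079, .ofNat 13676776, .ofNat 34756341, .ofNat 0, .ofNat 83886080, .negSucc 83794545], [.ofNat 81909241, .ofNat 97655794, .ofNat 0, .negSucc 305947428, .ofNat 48531096, .ofNat 122528539, .ofNat 0, .ofNat 291998019, .negSucc 289498837], .ofNat 549, .negSucc 3163, .ofNat 8389, .ofNat 408⟩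

/-- Its row F. -/
def f100 : List ℤ := [.negSucc 70642683, .negSucc 21177025, .negSucc 26036318, .ofNat 0, .ofNat 83886080, .negSucc 13676775, .negSucc 34756340, .ofNat 0, .negSucc 83886079, .ofNat 83794546, .ofNat 81909241, .ofNat 97655794, .ofNat 0, .negSucc 305947428, .ofNat 48531096, .ofNat 122528539, .ofNat 0, .ofNat 291998019, .negSucc 289498837, .negSucc 548]

/-- Its row D. -/
def d100 : List ℤ := [.ofNat 81909241, .ofNat 97655794, .ofNat 0, .negSucc 305947428, .ofNat 48531096, .ofNat 122528539, .ofNat 0, .ofNat 291998019, .negSucc 289498837, .ofNat 8389, .ofNat 408]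

/-- A plane. -/
def p101 : Plane := ⟨[.ofNat 20847977, .ofNat 26349267, .ofNat 0, .negSucc 83886079, .ofNat 13376054, .ofNat 34328575, .ofNat 0, .ofNat 83886080, .negSucc 83286488], [.ofNat 80485498, .ofNat 98475243, .ofNat 0, .negSucc 304408657, .ofNat 47192049, .ofNat 120175621, .ofNat 0, .ofNat 289774329, .negSucc 285449944], .ofNat 553, .negSucc 3327, .ofNat 8389, .ofNat 484⟩

/-- Its row F. -/
def f101 : List ℤ := [.negSucc 69250849, .negSucc 20847976, .negSucc 26349266, .ofNat 0, .ofNat 83886080, .negSucc 13376053, .negSucc 34328574, .ofNat 0, .negSucc 83886079, .ofNat 83286489, .ofNat 80485498, .ofNat 98475243, .ofNat 0, .negSucc 304408657, .ofNat 47192049, .ofNat 120175621, .ofNat 0, .ofNat 289774329, .negSucc 285449944, .negSucc 552]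

/-- Its row D. -/
def d101 : List ℤ := [.ofNat 80485498, .ofNat 98475243, .ofNat 0, .negSucc 304408657, .ofNat 47192049, .ofNat 120175621, .ofNat 0, .ofNat 289774329, .negSucc 285449944, .ofNat 8389, .ofNat 484]

/-- A plane. -/
def p102 : Plane := ⟨[.ofNat 20437906, .ofNat 26579884, .ofNat 0, .negSucc 83886079, .ofNat 13318805, .ofNat 33952840, .ofNat 0, .ofNat 83886080, .negSucc 82948396], [.ofNat 78753034, .ofNat 98977183, .ofNat 0, .negSucc 302796398, .ofNat 46675849, .ofNat 118015798, .ofNat 0, .ofNat 287442553, .negSucc 281906534], .ofNat 558, .negSucc 3156, .ofNat 8389, .ofNat 414⟩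

/-- Its row F. -/
def f102 : List ℤ := [.negSucc 67634575, .negSucc 20437905, .negSucc 26579883, .ofNat 0, .ofNat 83886080, .negSucc 13318804, .negSucc 33952839, .ofNat 0, .negSucc 83886079, .ofNat 82948397, .ofNat 78753034, .ofNat 98977183, .ofNat 0, .negSucc 302796398, .ofNat 46675849, .ofNat 118015798, .ofNat 0, .ofNat 287442553, .negSucc 281906534, .negSucc 557]

/-- Its row D. -/
def d102 : List ℤ := [.ofNat 78753034, .ofNat 98977183, .ofNat 0, .negSucc 302796398, .ofNat 46675849, .ofNat 118015798, .ofNat 0, .ofNat 287442553, .negSucc 281906534, .ofNat 8389, .ofNat 414]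

/-- A plane. -/
def p103 : Plane := ⟨[.ofNat 20095682, .ofNat 26824925, .ofNat 0, .negSucc 83886079, .ofNat 13158928, .ofNat 33573197, .ofNat 0, .ofNat 83886080, .negSucc 82551594], [.ofNat 77274019, .ofNat 99493756, .ofNat 0, .negSucc 301074923, .ofNat 45778299, .ofNat 115783751, .ofNat 0, .ofNat 284990606, .negSucc 278031407], .ofNat 562, .negSucc 3116, .ofNat 8389, .ofNat 430⟩

/-- Its row F. -/
def f103 : List ℤ := [.negSucc 66219689, .negSucc 20095681, .negSucc 26824924, .ofNat 0, .ofNat 83886080, .negSucc 13158927, .negSucc 33573196, .ofNat 0, .negSucc 83886079, .ofNat 82551595, .ofNat 77274019, .ofNat 99493756, .ofNat 0, .negSucc 301074923, .ofNat 45778299, .ofNat 115783751, .ofNat 0, .ofNat 284990606, .negSucc 278031407, .negSucc 561]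

/-- Its row D. -/
def d103 : List ℤ := [.ofNat 77274019, .ofNat 99493756, .ofNat 0, .negSucc 301074923, .ofNat 45778299, .ofNat 115783751, .ofNat 0, .ofNat 284990606, .negSucc 278031407, .ofNat 8389, .ofNat 430]

/-- A plane. -/
def p104 : Plane := ⟨[.ofNat 19669613, .ofNat 27096839, .ofNat 0, .negSucc 83886079, .ofNat 13049768, .ofNat 33125111, .ofNat 0, .ofNat 83886080, .negSucc 82128971], [.ofNat 75470384, .ofNat 100081904, .ofNat 0, .negSucc 299268492, .ofNat 45048179, .ofNat 113299950, .ofNat 0, .ofNat 282423515, .negSucc 273979392], .ofNat 567, .negSucc 2995, .ofNat 8389, .ofNat 463⟩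

/-- Its row F. -/
def f104 : List ℤ := [.negSucc 64521381, .negSucc 19669612, .negSucc 27096838, .ofNat 0, .ofNat 83886080, .negSucc 13049767, .negSucc 33125110, .ofNat 0, .negSucc 83886079, .ofNat 82128972, .ofNat 75470384, .ofNat 100081904, .ofNat 0, .negSucc 299268492, .ofNat 45048179, .ofNat 113299950, .ofNat 0, .ofNat 282423515, .negSucc 273979392, .negSucc 566]

/-- Its row D. -/
def d104 : List ℤ := [.ofNat 75470384, .ofNat 100081904, .ofNat 0, .negSucc 299268492, .ofNat 45048179, .ofNat 113299950, .ofNat 0, .ofNat 282423515, .negSucc 273979392, .ofNat 8389, .ofNat 463]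

/-- A plane. -/
def p105 : Plane := ⟨[.ofNat 19682630, .ofNat 27193138, .ofNat 0, .negSucc 83886079, .ofNat 12719731, .ofNat 32988882, .ofNat 0, .ofNat 83886080, .negSucc 81819099], [.ofNat 75390190, .ofNat 99994226, .ofNat 0, .negSucc 297373530, .ofNat 43551286, .ofNat 111860805, .ofNat 0, .ofNat 279717534, .negSucc 270208558], .ofNat 572, .negSucc 3114, .ofNat 8389, .ofNat 510⟩

/-- Its row F. -/
def f105 : List ℤ := [.negSucc 64327109, .negSucc 19682629, .negSucc 27193137, .ofNat 0, .ofNat 83886080, .negSucc 12719730, .negSucc 32988881, .ofNat 0, .negSucc 83886079, .ofNat 81819100, .ofNat 75390190, .ofNat 99994226, .ofNat 0, .negSucc 297373530, .ofNat 43551286, .ofNat 111860805, .ofNat 0, .ofNat 279717534, .negSucc 270208558, .negSucc 571]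

/-- Its row D. -/
def d105 : List ℤ := [.ofNat 75390190, .ofNat 99994226, .ofNat 0, .negSucc 297373530, .ofNat 43551286, .ofNat 111860805, .ofNat 0, .ofNat 279717534, .negSucc 270208558, .ofNat 8389, .ofNat 510]

/-- A plane. -/
def p106 : Plane := ⟨[.ofNat 19226863, .ofNat 27517078, .ofNat 0, .negSucc 83886079, .ofNat 12552200, .ofNat 32459728, .ofNat 0, .ofNat 83886080, .negSucc 81301997], [.ofNat 73422372, .ofNat 100711213, .ofNat 0, .negSucc 295346632, .ofNat 42595196, .ofNat 109038956, .ofNat 0, .ofNat 276868604, .negSucc 265603735], .ofNat 729, .negSucc 2736, .ofNat 11076, .ofNat 570⟩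

/-- Its row F. -/
def f106 : List ℤ := [.negSucc 62458727, .negSucc 19226862, .negSucc 27517077, .ofNat 0, .ofNat 83886080, .negSucc 12552199, .negSucc 32459727, .ofNat 0, .negSucc 83886079, .ofNat 81301998, .ofNat 73422372, .ofNat 100711213, .ofNat 0, .negSucc 295346632, .ofNat 42595196, .ofNat 109038956, .ofNat 0, .ofNat 276868604, .negSucc 265603735, .negSucc 728]

/-- Its row D. -/
def d106 : List ℤ := [.ofNat 73422372, .ofNat 100711213, .ofNat 0, .negSucc 295346632, .ofNat 42595196, .ofNat 109038956, .ofNat 0, .ofNat 276868604, .negSucc 265603735, .ofNat 11076, .ofNat 570]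

/-- A plane. -/
def p107 : Plane := ⟨[.ofNat 18807666, .ofNat 27844251, .ofNat 0, .negSucc 83886079, .ofNat 12327192, .ofNat 31902194, .ofNat 0, .ofNat 83886080, .negSucc 80727477], [.ofNat 71630018, .ofNat 101391214, .ofNat 0, .negSucc 293181555, .ofNat 41436995, .ofNat 106092782, .ofNat 0, .ofNat 273819608, .negSucc 260666019], .ofNat 1061, .negSucc 2455, .ofNat 16858, .ofNat 519⟩

/-- Its row F. -/
def f107 : List ℤ := [.negSucc 60733519, .negSucc 18807665, .negSucc 27844250, .ofNat 0, .ofNat 83886080, .negSucc 12327191, .negSucc 31902193, .ofNat 0, .negSucc 83886079, .ofNat 80727478, .ofNat 71630018, .ofNat 101391214, .ofNat 0, .negSucc 293181555, .ofNat 41436995, .ofNat 106092782, .ofNat 0, .ofNat 273819608, .negSucc 260666019, .negSucc 1060]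

/-- Its row D. -/
def d107 : List ℤ := [.ofNat 71630018, .ofNat 101391214, .ofNat 0, .negSucc 293181555, .ofNat 41436995, .ofNat 106092782, .ofNat 0, .ofNat 273819608, .negSucc 260666019, .ofNat 16858, .ofNat 519]

/-- A plane. -/
def p108 : Plane := ⟨[.ofNat 18897451, .ofNat 27869563, .ofNat 0, .negSucc 83886079, .ofNat 12006293, .ofNat 31851440, .ofNat 0, .ofNat 83886080, .negSucc 80480816], [.ofNat 71768991, .ofNat 100935517, .ofNat 0, .negSucc 290863399, .ofNat 39955737, .ofNat 104760342, .ofNat 0, .ofNat 270566315, .negSucc 256617924], .ofNat 997, .negSucc 2344, .ofNat 15606, .ofNat 628⟩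

/-- Its row F. -/
def f108 : List ℤ := [.negSucc 60718603, .negSucc 18897450, .negSucc 27869562, .ofNat 0, .ofNat 83886080, .negSucc 12006292, .negSucc 31851439, .ofNat 0, .negSucc 83886079, .ofNat 80480817, .ofNat 71768991, .ofNat 100935517, .ofNat 0, .negSucc 290863399, .ofNat 39955737, .ofNat 104760342, .ofNat 0, .ofNat 270566315, .negSucc 256617924, .negSucc 996]

/-- Its row D. -/
def d108 : List ℤ := [.ofNat 71768991, .ofNat 100935517, .ofNat 0, .negSucc 290863399, .ofNat 39955737, .ofNat 104760342, .ofNat 0, .ofNat 270566315, .negSucc 256617924, .ofNat 15606, .ofNat 628]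

/-- A plane. -/
def p109 : Plane := ⟨[.ofNat 19050227, .ofNat 27854840, .ofNat 0, .negSucc 83886079, .ofNat 11666083, .ofNat 31833768, .ofNat 0, .ofNat 83886080, .negSucc 80243220], [.ofNat 72177887, .ofNat 100284133, .ofNat 0, .negSucc 288384930, .ofNat 38398366, .ofNat 103482361, .ofNat 0, .ofNat 267083778, .negSucc 252409830], .ofNat 910, .negSucc 2420, .ofNat 13944, .ofNat 755⟩

/-- Its row F. -/
def f109 : List ℤ := [.negSucc 60935289, .negSucc 19050226, .negSucc 27854839, .ofNat 0, .ofNat 83886080, .negSucc 11666082, .negSucc 31833767, .ofNat 0, .negSucc 83886079, .ofNat 80243221, .ofNat 72177887, .ofNat 100284133, .ofNat 0, .negSucc 288384930, .ofNat 38398366, .ofNat 103482361, .ofNat 0, .ofNat 267083778, .negSucc 252409830, .negSucc 909]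

/-- Its row D. -/
def d109 : List ℤ := [.ofNat 72177887, .ofNat 100284133, .ofNat 0, .negSucc 288384930, .ofNat 38398366, .ofNat 103482361, .ofNat 0, .ofNat 267083778, .negSucc 252409830, .ofNat 13944, .ofNat 755]

/-- A plane. -/
def p110 : Plane := ⟨[.ofNat 18880968, .ofNat 27765970, .ofNat 0, .negSucc 83886079, .ofNat 11006831, .ofNat 37518578, .ofNat 0, .ofNat 73635140, .negSucc 74910416], [.ofNat 71249727, .ofNat 99278419, .ofNat 0, .negSucc 285728891, .ofNat 35809886, .ofNat 120433088, .ofNat 0, .ofNat 231149639, .negSucc 232202207], .ofNat 1140, .negSucc 2153, .ofNat 17885, .ofNat 671⟩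

/-- Its row F. -/
def f110 : List ℤ := [.negSucc 59953029, .negSucc 18880967, .negSucc 27765969, .ofNat 0, .ofNat 83886080, .negSucc 11006830, .negSucc 37518577, .ofNat 0, .negSucc 73635139, .ofNat 74910417, .ofNat 71249727, .ofNat 99278419, .ofNat 0, .negSucc 285728891, .ofNat 35809886, .ofNat 120433088, .ofNat 0, .ofNat 231149639, .negSucc 232202207, .negSucc 1139]

/-- Its row D. -/
def d110 : List ℤ := [.ofNat 71249727, .ofNat 99278419, .ofNat 0, .negSucc 285728891, .ofNat 35809886, .ofNat 120433088, .ofNat 0, .ofNat 231149639, .negSucc 232202207, .ofNat 17885, .ofNat 671]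

/-- A plane. -/
def p111 : Plane := ⟨[.ofNat 18842798, .ofNat 27595118, .ofNat 0, .negSucc 83886079, .ofNat 10459884, .ofNat 42395720, .ofNat 0, .ofNat 65013677, .negSucc 70491107], [.ofNat 70848902, .ofNat 97961725, .ofNat 0, .negSucc 282886980, .ofNat 33593923, .ofNat 134209150, .ofNat 0, .ofNat 201002342, .negSucc 215065486], .ofNat 970, .negSucc 2118, .ofNat 14725, .ofNat 902⟩

/-- Its row F. -/
def f111 : List ℤ := [.negSucc 59462891, .negSucc 18842797, .negSucc 27595117, .ofNat 0, .ofNat 83886080, .negSucc 10459883, .negSucc 42395719, .ofNat 0, .negSucc 65013676, .ofNat 70491108, .ofNat 70848902, .ofNat 97961725, .ofNat 0, .negSucc 282886980, .ofNat 33593923, .ofNat 134209150, .ofNat 0, .ofNat 201002342, .negSucc 215065486, .negSucc 969]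

/-- Its row D. -/
def d111 : List ℤ := [.ofNat 70848902, .ofNat 97961725, .ofNat 0, .negSucc 282886980, .ofNat 33593923, .ofNat 134209150, .ofNat 0, .ofNat 201002342, .negSucc 215065486, .ofNat 14725, .ofNat 902]

/-- A plane. -/
def p112 : Plane := ⟨[.ofNat 18900261, .ofNat 27395821, .ofNat 0, .negSucc 83886079, .ofNat 9898765, .ofNat 46790485, .ofNat 0, .ofNat 57279085, .negSucc 66489849], [.ofNat 70854393, .ofNat 96535380, .ofNat 0, .negSucc 279899269, .ofNat 31361313, .ofNat 145970562, .ofNat 0, .ofNat 174202785, .negSucc 199469083], .ofNat 981, .negSucc 2068, .ofNat 14760, .ofNat 956⟩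

/-- Its row F. -/
def f112 : List ℤ := [.negSucc 59331045, .negSucc 18900260, .negSucc 27395820, .ofNat 0, .ofNat 83886080, .negSucc 9898764, .negSucc 46790484, .ofNat 0, .negSucc 57279084, .ofNat 66489850, .ofNat 70854393, .ofNat 96535380, .ofNat 0, .negSucc 279899269, .ofNat 31361313, .ofNat 145970562, .ofNat 0, .ofNat 174202785, .negSucc 199469083, .negSucc 980]

/-- Its row D. -/
def d112 : List ℤ := [.ofNat 70854393, .ofNat 96535380, .ofNat 0, .negSucc 279899269, .ofNat 31361313, .ofNat 145970562, .ofNat 0, .ofNat 174202785, .negSucc 199469083, .ofNat 14760, .ofNat 956]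

/-- A plane. -/
def p113 : Plane := ⟨[.ofNat 19034617, .ofNat 27217464, .ofNat 0, .negSucc 83886079, .ofNat 9558623, .ofNat 48816811, .ofNat 0, .ofNat 53863250, .negSucc 64710133], [.ofNat 71071383, .ofNat 95154155, .ofNat 0, .negSucc 276760292, .ofNat 29847915, .ofNat 149935168, .ofNat 0, .ofNat 161026681, .negSucc 190687117], .ofNat 814, .negSucc 1992, .ofNat 11633, .ofNat 1223⟩

/-- Its row F. -/
def f113 : List ℤ := [.negSucc 59382693, .negSucc 19034616, .negSucc 27217463, .ofNat 0, .ofNat 83886080, .negSucc 9558622, .negSucc 48816810, .ofNat 0, .negSucc 53863249, .ofNat 64710134, .ofNat 71071383, .ofNat 95154155, .ofNat 0, .negSucc 276760292, .ofNat 29847915, .ofNat 149935168, .ofNat 0, .ofNat 161026681, .negSucc 190687117, .negSucc 813]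

/-- Its row D. -/
def d113 : List ℤ := [.ofNat 71071383, .ofNat 95154155, .ofNat 0, .negSucc 276760292, .ofNat 29847915, .ofNat 149935168, .ofNat 0, .ofNat 161026681, .negSucc 190687117, .ofNat 11633, .ofNat 1223]

/-- A plane. -/
def p114 : Plane := ⟨[.ofNat 19200038, .ofNat 26785152, .ofNat 0, .negSucc 83886079, .ofNat 9992599, .ofNat 48827153, .ofNat 0, .ofNat 54713000, .negSucc 65673718], [.ofNat 71383206, .ofNat 92862335, .ofNat 0, .negSucc 273464636, .ofNat 30726388, .ofNat 147523086, .ofNat 0, .ofNat 160645514, .negSucc 189883023], .ofNat 943, .negSucc 2081, .ofNat 13747, .ofNat 1359⟩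

/-- Its row F. -/
def f114 : List ℤ := [.negSucc 59665285, .negSucc 19200037, .negSucc 26785151, .ofNat 0, .ofNat 83886080, .negSucc 9992598, .negSucc 48827152, .ofNat 0, .negSucc 54712999, .ofNat 65673719, .ofNat 71383206, .ofNat 92862335, .ofNat 0, .negSucc 273464636, .ofNat 30726388, .ofNat 147523086, .ofNat 0, .ofNat 160645514, .negSucc 189883023, .negSucc 942]

/-- Its row D. -/
def d114 : List ℤ := [.ofNat 71383206, .ofNat 92862335, .ofNat 0, .negSucc 273464636, .ofNat 30726388, .ofNat 147523086, .ofNat 0, .ofNat 160645514, .negSucc 189883023, .ofNat 13747, .ofNat 1359]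

/-- A plane. -/
def p115 : Plane := ⟨[.ofNat 19054431, .ofNat 26231096, .ofNat 0, .negSucc 83886079, .ofNat 9923664, .ofNat 56938536, .ofNat 0, .ofNat 40865493, .negSucc 59261283], [.ofNat 70465515, .ofNat 90112998, .ofNat 0, .negSucc 269937702, .ofNat 29988059, .ofNat 168955586, .ofNat 0, .ofNat 117594538, .negSucc 167850851], .ofNat 848, .negSucc 1992, .ofNat 11860, .ofNat 1759⟩

/-- Its row F. -/
def f115 : List ℤ := [.negSucc 58920583, .negSucc 19054430, .negSucc 26231095, .ofNat 0, .ofNat 83886080, .negSucc 9923663, .negSucc 56938535, .ofNat 0, .negSucc 40865492, .ofNat 59261284, .ofNat 70465515, .ofNat 90112998, .ofNat 0, .negSucc 269937702, .ofNat 29988059, .ofNat 168955586, .ofNat 0, .ofNat 117594538, .negSucc 167850851, .negSucc 847]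

/-- Its row D. -/
def d115 : List ℤ := [.ofNat 70465515, .ofNat 90112998, .ofNat 0, .negSucc 269937702, .ofNat 29988059, .ofNat 168955586, .ofNat 0, .ofNat 117594538, .negSucc 167850851, .ofNat 11860, .ofNat 1759]

/-- A plane. -/
def p116 : Plane := ⟨[.ofNat 19346474, .ofNat 25702480, .ofNat 0, .negSucc 83886079, .ofNat 10595686, .ofNat 55239077, .ofNat 0, .ofNat 45048231, .negSucc 62052422], [.ofNat 71224286, .ofNat 87433930, .ofNat 0, .negSucc 266170197, .ofNat 31479449, .ofNat 160775992, .ofNat 0, .ofNat 126927967, .negSucc 171880449], .ofNat 1160, .negSucc 2075, .ofNat 17208, .ofNat 1781⟩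

/-- Its row F. -/
def f116 : List ℤ := [.negSucc 59590909, .negSucc 19346473, .negSucc 25702479, .ofNat 0, .ofNat 83886080, .negSucc 10595685, .negSucc 55239076, .ofNat 0, .negSucc 45048230, .ofNat 62052423, .ofNat 71224286, .ofNat 87433930, .ofNat 0, .negSucc 266170197, .ofNat 31479449, .ofNat 160775992, .ofNat 0, .ofNat 126927967, .negSucc 171880449, .negSucc 1159]

/-- Its row D. -/
def d116 : List ℤ := [.ofNat 71224286, .ofNat 87433930, .ofNat 0, .negSucc 266170197, .ofNat 31479449, .ofNat 160775992, .ofNat 0, .ofNat 126927967, .negSucc 171880449, .ofNat 17208, .ofNat 1781]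

/-- A plane. -/
def p117 : Plane := ⟨[.ofNat 19499195, .ofNat 25178333, .ofNat 0, .negSucc 83886079, .ofNat 10947347, .ofNat 57064329, .ofNat 0, .ofNat 42671942, .negSucc 61430920], [.ofNat 71403665, .ofNat 84759970, .ofNat 0, .negSucc 262217093, .ofNat 31905641, .ofNat 162714296, .ofNat 0, .ofNat 117520366, .negSucc 166166842], .ofNat 1150, .negSucc 1985, .ofNat 16815, .ofNat 2194⟩

/-- Its row F. -/
def f117 : List ℤ := [.negSucc 59747739, .negSucc 19499194, .negSucc 25178332, .ofNat 0, .ofNat 83886080, .negSucc 10947346, .negSucc 57064328, .ofNat 0, .negSucc 42671941, .ofNat 61430921, .ofNat 71403665, .ofNat 84759970, .ofNat 0, .negSucc 262217093, .ofNat 31905641, .ofNat 162714296, .ofNat 0, .ofNat 117520366, .negSucc 166166842, .negSucc 1149]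

/-- Its row D. -/
def d117 : List ℤ := [.ofNat 71403665, .ofNat 84759970, .ofNat 0, .negSucc 262217093, .ofNat 31905641, .ofNat 162714296, .ofNat 0, .ofNat 117520366, .negSucc 166166842, .ofNat 16815, .ofNat 2194]

/-- A plane. -/
def p118 : Plane := ⟨[.ofNat 19765577, .ofNat 24410680, .ofNat 0, .negSucc 83886079, .ofNat 12145023, .ofNat 55560734, .ofNat 0, .ofNat 46845022, .negSucc 64651651], [.ofNat 71968352, .ofNat 81266165, .ofNat 0, .negSucc 258073133, .ofNat 34680025, .ofNat 155085124, .ofNat 0, .ofNat 125942717, .negSucc 170514188], .ofNat 1426, .negSucc 2048, .ofNat 21483, .ofNat 2577⟩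

/-- Its row F. -/
def f118 : List ℤ := [.negSucc 60327413, .negSucc 19765576, .negSucc 24410679, .ofNat 0, .ofNat 83886080, .negSucc 12145022, .negSucc 55560733, .ofNat 0, .negSucc 46845021, .ofNat 64651652, .ofNat 71968352, .ofNat 81266165, .ofNat 0, .negSucc 258073133, .ofNat 34680025, .ofNat 155085124, .ofNat 0, .ofNat 125942717, .negSucc 170514188, .negSucc 1425]

/-- Its row D. -/
def d118 : List ℤ := [.ofNat 71968352, .ofNat 81266165, .ofNat 0, .negSucc 258073133, .ofNat 34680025, .ofNat 155085124, .ofNat 0, .ofNat 125942717, .negSucc 170514188, .ofNat 21483, .ofNat 2577]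

/-- A plane. -/
def p119 : Plane := ⟨[.ofNat 20142472, .ofNat 23530967, .ofNat 0, .negSucc 83886079, .ofNat 13520840, .ofNat 53477873, .ofNat 0, .ofNat 52312893, .negSucc 68697479], [.ofNat 72922347, .ofNat 77414813, .ofNat 0, .negSucc 253733437, .ofNat 37783080, .ofNat 145838765, .ofNat 0, .ofNat 137180237, .negSucc 176374655], .ofNat 1579, .negSucc 2492, .ofNat 23955, .ofNat 3253⟩

/-- Its row F. -/
def f119 : List ℤ := [.negSucc 61254339, .negSucc 20142471, .negSucc 23530966, .ofNat 0, .ofNat 83886080, .negSucc 13520839, .negSucc 53477872, .ofNat 0, .negSucc 52312892, .ofNat 68697480, .ofNat 72922347, .ofNat 77414813, .ofNat 0, .negSucc 253733437, .ofNat 37783080, .ofNat 145838765, .ofNat 0, .ofNat 137180237, .negSucc 176374655, .negSucc 1578]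

/-- Its row D. -/
def d119 : List ℤ := [.ofNat 72922347, .ofNat 77414813, .ofNat 0, .negSucc 253733437, .ofNat 37783080, .ofNat 145838765, .ofNat 0, .ofNat 137180237, .negSucc 176374655, .ofNat 23955, .ofNat 3253]

/-- A plane. -/
def p120 : Plane := ⟨[.ofNat 20157383, .ofNat 22705255, .ofNat 0, .negSucc 83886079, .ofNat 14022834, .ofNat 60101089, .ofNat 0, .ofNat 41530664, .negSucc 64222158], [.ofNat 72482973, .ofNat 73762121, .ofNat 0, .negSucc 249102783, .ofNat 38296820, .ofNat 159761637, .ofNat 0, .ofNat 105831809, .negSucc 160137345], .ofNat 2171, .negSucc 1661, .ofNat 34195, .ofNat 3229⟩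

/-- Its row F. -/
def f120 : List ℤ := [.negSucc 60969163, .negSucc 20157382, .negSucc 22705254, .ofNat 0, .ofNat 83886080, .negSucc 14022833, .negSucc 60101088, .ofNat 0, .negSucc 41530663, .ofNat 64222159, .ofNat 72482973, .ofNat 73762121, .ofNat 0, .negSucc 249102783, .ofNat 38296820, .ofNat 159761637, .ofNat 0, .ofNat 105831809, .negSucc 160137345, .negSucc 2170]

/-- Its row D. -/
def d120 : List ℤ := [.ofNat 72482973, .ofNat 73762121, .ofNat 0, .negSucc 249102783, .ofNat 38296820, .ofNat 159761637, .ofNat 0, .ofNat 105831809, .negSucc 160137345, .ofNat 34195, .ofNat 3229]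

/-- A plane. -/
def p121 : Plane := ⟨[.ofNat 20649426, .ofNat 21465930, .ofNat 0, .negSucc 83886079, .ofNat 16073164, .ofNat 57705754, .ofNat 0, .ofNat 48134922, .negSucc 69425072], [.ofNat 73725052, .ofNat 68770253, .ofNat 0, .negSucc 244172865, .ofNat 42836577, .ofNat 149297537, .ofNat 0, .ofNat 119071734, .negSucc 167706764], .ofNat 2257, .negSucc 2343, .ofNat 35432, .ofNat 4581⟩

/-- Its row F. -/
def f121 : List ℤ := [.negSucc 62202269, .negSucc 20649425, .negSucc 21465929, .ofNat 0, .ofNat 83886080, .negSucc 16073163, .negSucc 57705753, .ofNat 0, .negSucc 48134921, .ofNat 69425073, .ofNat 73725052, .ofNat 68770253, .ofNat 0, .negSucc 244172865, .ofNat 42836577, .ofNat 149297537, .ofNat 0, .ofNat 119071734, .negSucc 167706764, .negSucc 2256]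

/-- Its row D. -/
def d121 : List ℤ := [.ofNat 73725052, .ofNat 68770253, .ofNat 0, .negSucc 244172865, .ofNat 42836577, .ofNat 149297537, .ofNat 0, .ofNat 119071734, .negSucc 167706764, .ofNat 35432, .ofNat 4581]

/-- A plane. -/
def p122 : Plane := ⟨[.ofNat 20703350, .ofNat 20302563, .ofNat 0, .negSucc 83886079, .ofNat 17304322, .ofNat 65214709, .ofNat 0, .ofNat 36075350, .negSucc 64899059], [.ofNat 73297837, .ofNat 64029996, .ofNat 0, .negSucc 238916677, .ofNat 44824051, .ofNat 163728259, .ofNat 0, .ofNat 86324204, .negSucc 151454587], .ofNat 2682, .negSucc 1927, .ofNat 42670, .ofNat 5505⟩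

/-- Its row F. -/
def f122 : List ℤ := [.negSucc 62031997, .negSucc 20703349, .negSucc 20302562, .ofNat 0, .ofNat 83886080, .negSucc 17304321, .negSucc 65214708, .ofNat 0, .negSucc 36075349, .ofNat 64899060, .ofNat 73297837, .ofNat 64029996, .ofNat 0, .negSucc 238916677, .ofNat 44824051, .ofNat 163728259, .ofNat 0, .ofNat 86324204, .negSucc 151454587, .negSucc 2681]

/-- Its row D. -/
def d122 : List ℤ := [.ofNat 73297837, .ofNat 64029996, .ofNat 0, .negSucc 238916677, .ofNat 44824051, .ofNat 163728259, .ofNat 0, .ofNat 86324204, .negSucc 151454587, .ofNat 42670, .ofNat 5505]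

/-- A plane. -/
def p123 : Plane := ⟨[.ofNat 21325905, .ofNat 18606078, .ofNat 0, .negSucc 83886079, .ofNat 20297804, .ofNat 62387605, .ofNat 0, .ofNat 44009468, .negSucc 71495330], [.ofNat 74930021, .ofNat 57691270, .ofNat 0, .negSucc 233327002, .ofNat 51077994, .ofNat 151760774, .ofNat 0, .ofNat 101640293, .negSucc 160697601], .ofNat 3563, .negSucc 2106, .ofNat 57978, .ofNat 6637⟩

/-- Its row F. -/
def f123 : List ℤ := [.negSucc 63656381, .negSucc 21325904, .negSucc 18606077, .ofNat 0, .ofNat 83886080, .negSucc 20297803, .negSucc 62387604, .ofNat 0, .negSucc 44009467, .ofNat 71495331, .ofNat 74930021, .ofNat 57691270, .ofNat 0, .negSucc 233327002, .ofNat 51077994, .ofNat 151760774, .ofNat 0, .ofNat 101640293, .negSucc 160697601, .negSucc 3562]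

/-- Its row D. -/
def d123 : List ℤ := [.ofNat 74930021, .ofNat 57691270, .ofNat 0, .negSucc 233327002, .ofNat 51077994, .ofNat 151760774, .ofNat 0, .ofNat 101640293, .negSucc 160697601, .ofNat 57978, .ofNat 6637]

/-- A plane. -/
def p124 : Plane := ⟨[.ofNat 21725060, .ofNat 16623826, .ofNat 0, .negSucc 83886079, .ofNat 23286584, .ofNat 68157137, .ofNat 0, .ofNat 36043551, .negSucc 70323661], [.ofNat 75577335, .ofNat 50639209, .ofNat 0, .negSucc 227375834, .ofNat 56711422, .ofNat 159994431, .ofNat 0, .ofNat 80077507, .negSucc 151717673], .ofNat 4772, .negSucc 1926, .ofNat 79090, .ofNat 7859⟩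

/-- Its row F. -/
def f124 : List ℤ := [.negSucc 64556103, .negSucc 21725059, .negSucc 16623825, .ofNat 0, .ofNat 83886080, .negSucc 23286583, .negSucc 68157136, .ofNat 0, .negSucc 36043550, .ofNat 70323662, .ofNat 75577335, .ofNat 50639209, .ofNat 0, .negSucc 227375834, .ofNat 56711422, .ofNat 159994431, .ofNat 0, .ofNat 80077507, .negSucc 151717673, .negSucc 4771]

/-- Its row D. -/
def d124 : List ℤ := [.ofNat 75577335, .ofNat 50639209, .ofNat 0, .negSucc 227375834, .ofNat 56711422, .ofNat 159994431, .ofNat 0, .ofNat 80077507, .negSucc 151717673, .ofNat 79090, .ofNat 7859]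

/-- A plane. -/
def p125 : Plane := ⟨[.ofNat 22608933, .ofNat 13406957, .ofNat 0, .negSucc 83886079, .ofNat 28870127, .ofNat 72484836, .ofNat 0, .ofNat 31903931, .negSucc 72966033], [.ofNat 77864147, .ofNat 40043498, .ofNat 0, .negSucc 220932093, .ofNat 67864617, .ofNat 163649108, .ofNat 0, .ofNat 67889873, .negSucc 150401688], .ofNat 6384, .negSucc 3314, .ofNat 107323, .ofNat 10717⟩

/-- Its row F. -/
def f125 : List ℤ := [.negSucc 67102949, .negSucc 22608932, .negSucc 13406956, .ofNat 0, .ofNat 83886080, .negSucc 28870126, .negSucc 72484835, .ofNat 0, .negSucc 31903930, .ofNat 72966034, .ofNat 77864147, .ofNat 40043498, .ofNat 0, .negSucc 220932093, .ofNat 67864617, .ofNat 163649108, .ofNat 0, .ofNat 67889873, .negSucc 150401688, .negSucc 6383]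

/-- Its row D. -/
def d125 : List ℤ := [.ofNat 77864147, .ofNat 40043498, .ofNat 0, .negSucc 220932093, .ofNat 67864617, .ofNat 163649108, .ofNat 0, .ofNat 67889873, .negSucc 150401688, .ofNat 107323, .ofNat 10717]

/-- A plane. -/
def p126 : Plane := ⟨[.ofNat 23185724, .ofNat 10928554, .ofNat 0, .negSucc 83886079, .ofNat 32720363, .ofNat 82976282, .ofNat 0, .ofNat 14691288, .negSucc 67598195], [.ofNat 78874881, .ofNat 31861536, .ofNat 0, .negSucc 213821470, .ofNat 73783669, .ofNat 179061541, .ofNat 0, .ofNat 29775359, .negSucc 132294133], .ofNat 8124, .negSucc 1663, .ofNat 137759, .ofNat 12888⟩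

/-- Its row F. -/
def f126 : List ℤ := [.negSucc 68443563, .negSucc 23185723, .negSucc 10928553, .ofNat 0, .ofNat 83886080, .negSucc 32720362, .negSucc 82976281, .ofNat 0, .negSucc 14691287, .ofNat 67598196, .ofNat 78874881, .ofNat 31861536, .ofNat 0, .negSucc 213821470, .ofNat 73783669, .ofNat 179061541, .ofNat 0, .ofNat 29775359, .negSucc 132294133, .negSucc 8123]

/-- Its row D. -/
def d126 : List ℤ := [.ofNat 78874881, .ofNat 31861536, .ofNat 0, .negSucc 213821470, .ofNat 73783669, .ofNat 179061541, .ofNat 0, .ofNat 29775359, .negSucc 132294133, .ofNat 137759, .ofNat 12888]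

/-- A plane. -/
def p127 : Plane := ⟨[.ofNat 21172788, .ofNat 10799154, .ofNat 0, .negSucc 80136803, .ofNat 31120756, .ofNat 83886080, .ofNat 1364034, .ofNat 6822807, .negSucc 62294672], [.ofNat 71008244, .ofNat 30617931, .ofNat 0, .negSucc 196642399, .ofNat 66914877, .ofNat 171876658, .ofNat 3207228, .ofNat 13056348, .negSucc 114781190], .ofNat 9139, .negSucc 1876, .ofNat 155209, .ofNat 15068⟩

/-- Its row F. -/
def f127 : List ℤ := [.negSucc 65043351, .negSucc 21172787, .negSucc 10799153, .ofNat 0, .ofNat 80136804, .negSucc 31120755, .negSucc 83886079, .negSucc 1364033, .negSucc 6822806, .ofNat 62294673, .ofNat 71008244, .ofNat 30617931, .ofNat 0, .negSucc 196642399, .ofNat 66914877, .ofNat 171876658, .ofNat 3207228, .ofNat 13056348, .negSucc 114781190, .negSucc 9138]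

/-- Its row D. -/
def d127 : List ℤ := [.ofNat 71008244, .ofNat 30617931, .ofNat 0, .negSucc 196642399, .ofNat 66914877, .ofNat 171876658, .ofNat 3207228, .ofNat 13056348, .negSucc 114781190, .ofNat 155209, .ofNat 15068]

/-- A plane. -/
def p128 : Plane := ⟨[.ofNat 18045232, .ofNat 11181776, .ofNat 0, .negSucc 75755985, .ofNat 29230515, .ofNat 83886080, .ofNat 3866900, .ofNat 0, .negSucc 57928230], [.ofNat 59522370, .ofNat 30622007, .ofNat 0, .negSucc 177650516, .ofNat 59400716, .ofNat 161706150, .ofNat 8679611, .ofNat 0, .negSucc 99333474], .ofNat 11307, .negSucc 1714, .ofNat 193046, .ofNat 18377⟩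

/-- Its row F. -/
def f128 : List ℤ := [.negSucc 60837721, .negSucc 18045231, .negSucc 11181775, .ofNat 0, .ofNat 75755986, .negSucc 29230514, .negSucc 83886079, .negSucc 3866899, .ofNat 0, .ofNat 57928231, .ofNat 59522370, .ofNat 30622007, .ofNat 0, .negSucc 177650516, .ofNat 59400716, .ofNat 161706150, .ofNat 8679611, .ofNat 0, .negSucc 99333474, .negSucc 11306]

/-- Its row D. -/
def d128 : List ℤ := [.ofNat 59522370, .ofNat 30622007, .ofNat 0, .negSucc 177650516, .ofNat 59400716, .ofNat 161706150, .ofNat 8679611, .ofNat 0, .negSucc 99333474, .ofNat 193046, .ofNat 18377]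

/-- A plane. -/
def p129 : Plane := ⟨[.ofNat 15097436, .ofNat 11594310, .ofNat 0, .negSucc 74114309, .ofNat 31094502, .ofNat 83886080, .ofNat 9076214, .ofNat 0, .negSucc 62469011], [.ofNat 48737207, .ofNat 30496066, .ofNat 0, .negSucc 164251964, .ofNat 59044875, .ofNat 150161487, .ofNat 19332538, .ofNat 0, .negSucc 97947668], .ofNat 970, .negSucc 1537, .ofNat 8389, .ofNat 63383⟩

/-- Its row F. -/
def f129 : List ℤ := [.negSucc 62811561, .negSucc 15097435, .negSucc 11594309, .ofNat 0, .ofNat 74114310, .negSucc 31094501, .negSucc 83886079, .negSucc 9076213, .ofNat 0, .ofNat 62469012, .ofNat 48737207, .ofNat 30496066, .ofNat 0, .negSucc 164251964, .ofNat 59044875, .ofNat 150161487, .ofNat 19332538, .ofNat 0, .negSucc 97947668, .negSucc 969]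

/-- Its row D. -/
def d129 : List ℤ := [.ofNat 48737207, .ofNat 30496066, .ofNat 0, .negSucc 164251964, .ofNat 59044875, .ofNat 150161487, .ofNat 19332538, .ofNat 0, .negSucc 97947668, .ofNat 8389, .ofNat 63383]

/-- A plane. -/
def p130 : Plane := ⟨[.ofNat 16866854, .ofNat 4171300, .ofNat 0, .negSucc 74087789, .ofNat 54410348, .ofNat 83886080, .ofNat 19495369, .ofNat 0, .negSucc 81874438], [.ofNat 53067836, .ofNat 10397895, .ofNat 0, .negSucc 152072378, .ofNat 94652871, .ofNat 136442281, .ofNat 38754505, .ofNat 0, .negSucc 113706586], .ofNat 1042, .negSucc 1059, .ofNat 8389, .ofNat 132574⟩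

/-- Its row F. -/
def f130 : List ℤ := [.negSucc 89335279, .negSucc 16866853, .negSucc 4171299, .ofNat 0, .ofNat 74087790, .negSucc 54410347, .negSucc 83886079, .negSucc 19495368, .ofNat 0, .ofNat 81874439, .ofNat 53067836, .ofNat 10397895, .ofNat 0, .negSucc 152072378, .ofNat 94652871, .ofNat 136442281, .ofNat 38754505, .ofNat 0, .negSucc 113706586, .negSucc 1041]

/-- Its row D. -/
def d130 : List ℤ := [.ofNat 53067836, .ofNat 10397895, .ofNat 0, .negSucc 152072378, .ofNat 94652871, .ofNat 136442281, .ofNat 38754505, .ofNat 0, .negSucc 113706586, .ofNat 8389, .ofNat 132574]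

/-- A plane. -/
def p131 : Plane := ⟨[.ofNat 4977816, .ofNat 0, .ofNat 0, .negSucc 44561774, .ofNat 49177887, .ofNat 58492819, .ofNat 48532549, .ofNat 0, .negSucc 83886079], [.ofNat 14980240, .ofNat 0, .ofNat 0, .negSucc 80750723, .ofNat 75080534, .ofNat 82666206, .ofNat 87833158, .ofNat 0, .negSucc 95712869], .ofNat 1170, .negSucc 9257, .ofNat 8389, .ofNat 254857⟩

/-- Its row F. -/
def f131 : List ℤ := [.negSucc 102708139, .negSucc 4977815, .ofNat 0, .ofNat 0, .ofNat 44561775, .negSucc 49177886, .negSucc 58492818, .negSucc 48532548, .ofNat 0, .ofNat 83886080, .ofNat 14980240, .ofNat 0, .ofNat 0, .negSucc 80750723, .ofNat 75080534, .ofNat 82666206, .ofNat 87833158, .ofNat 0, .negSucc 95712869, .negSucc 1169]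

/-- Its row D. -/
def d131 : List ℤ := [.ofNat 14980240, .ofNat 0, .ofNat 0, .negSucc 80750723, .ofNat 75080534, .ofNat 82666206, .ofNat 87833158, .ofNat 0, .negSucc 95712869, .ofNat 8389, .ofNat 254857]

/-- A plane. -/
def p132 : Plane := ⟨[.ofNat 0, .ofNat 0, .ofNat 0, .negSucc 10312027, .ofNat 25867313, .ofNat 0, .ofNat 83886080, .ofNat 0, .negSucc 51494164], [.ofNat 0, .ofNat 0, .ofNat 0, .negSucc 13039692, .ofNat 30732760, .ofNat 0, .ofNat 127801598, .ofNat 0, .negSucc 33690243], .ofNat 1635, .negSucc 16728, .ofNat 8389, .ofNat 430687⟩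

/-- Its row F. -/
def f132 : List ℤ := [.negSucc 127680983, .ofNat 0, .ofNat 0, .ofNat 0, .ofNat 10312028, .negSucc 25867312, .ofNat 0, .negSucc 83886079, .ofNat 0, .ofNat 51494165, .ofNat 0, .ofNat 0, .ofNat 0, .negSucc 13039692, .ofNat 30732760, .ofNat 0, .ofNat 127801598, .ofNat 0, .negSucc 33690243, .negSucc 1634]

/-- Its row D. -/
def d132 : List ℤ := [.ofNat 0, .ofNat 0, .ofNat 0, .negSucc 13039692, .ofNat 30732760, .ofNat 0, .ofNat 127801598, .ofNat 0, .negSucc 33690243, .ofNat 8389, .ofNat 430687]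

/-- A plane. -/
def p133 : Plane := ⟨[.ofNat 818174, .ofNat 0, .ofNat 0, .negSucc 4820680, .ofNat 6484072, .ofNat 0, .ofNat 83886080, .ofNat 11225920, .negSucc 51062255], [.ofNat 1468643, .ofNat 0, .ofNat 0, .negSucc 2624180, .ofNat 3672120, .ofNat 0, .ofNat 97563545, .ofNat 5041739, .negSucc 9118991], .ofNat 2587, .negSucc 2261071, .ofNat 8389, .ofNat 2744388⟩

/-- Its row F. -/
def f133 : List ℤ := [.negSucc 94420985, .negSucc 818173, .ofNat 0, .ofNat 0, .ofNat 4820681, .negSucc 6484071, .ofNat 0, .negSucc 83886079, .negSucc 11225919, .ofNat 51062256, .ofNat 1468643, .ofNat 0, .ofNat 0, .negSucc 2624180, .ofNat 3672120, .ofNat 0, .ofNat 97563545, .ofNat 5041739, .negSucc 9118991, .negSucc 2586]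

/-- Its row D. -/
def d133 : List ℤ := [.ofNat 1468643, .ofNat 0, .ofNat 0, .negSucc 2624180, .ofNat 3672120, .ofNat 0, .ofNat 97563545, .ofNat 5041739, .negSucc 9118991, .ofNat 8389, .ofNat 2744388]

/-- A plane. -/
def p134 : Plane := ⟨[.ofNat 35301966, .ofNat 0, .ofNat 0, .negSucc 71341241, .ofNat 35907492, .ofNat 83886080, .ofNat 5757314, .ofNat 20161997, .negSucc 83886079], [.ofNat 138447520, .ofNat 0, .ofNat 0, .negSucc 269951925, .ofNat 134020988, .ofNat 311829596, .ofNat 21612592, .ofNat 74410897, .negSucc 308507052], .ofNat 518, .negSucc 7860, .ofNat 8389, .ofNat 634⟩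

/-- Its row F. -/
def f134 : List ℤ := [.negSucc 152134451, .negSucc 35301965, .ofNat 0, .ofNat 0, .ofNat 71341242, .negSucc 35907491, .negSucc 83886079, .negSucc 5757313, .negSucc 20161996, .ofNat 83886080, .ofNat 138447520, .ofNat 0, .ofNat 0, .negSucc 269951925, .ofNat 134020988, .ofNat 311829596, .ofNat 21612592, .ofNat 74410897, .negSucc 308507052, .negSucc 517]

/-- Its row D. -/
def d134 : List ℤ := [.ofNat 138447520, .ofNat 0, .ofNat 0, .negSucc 269951925, .ofNat 134020988, .ofNat 311829596, .ofNat 21612592, .ofNat 74410897, .negSucc 308507052, .ofNat 8389, .ofNat 634]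

/-- A plane. -/
def p135 : Plane := ⟨[.ofNat 38623913, .ofNat 0, .ofNat 0, .negSucc 78896946, .ofNat 40002425, .ofNat 83886080, .ofNat 515172, .ofNat 23892534, .negSucc 83886079], [.ofNat 151176056, .ofNat 0, .ofNat 0, .negSucc 296849394, .ofNat 148189922, .ofNat 309483023, .ofNat 1922707, .ofNat 87437993, .negSucc 305865411], .ofNat 522, .negSucc 7382, .ofNat 8389, .ofNat 464⟩

/-- Its row F. -/
def f135 : List ℤ := [.negSucc 142700827, .negSucc 38623912, .ofNat 0, .ofNat 0, .ofNat 78896947, .negSucc 40002424, .negSucc 83886079, .negSucc 515171, .negSucc 23892533, .ofNat 83886080, .ofNat 151176056, .ofNat 0, .ofNat 0, .negSucc 296849394, .ofNat 148189922, .ofNat 309483023, .ofNat 1922707, .ofNat 87437993, .negSucc 305865411, .negSucc 521]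

/-- Its row D. -/
def d135 : List ℤ := [.ofNat 151176056, .ofNat 0, .ofNat 0, .negSucc 296849394, .ofNat 148189922, .ofNat 309483023, .ofNat 1922707, .ofNat 87437993, .negSucc 305865411, .ofNat 8389, .ofNat 464]

/-- A plane. -/
def p136 : Plane := ⟨[.ofNat 39243309, .ofNat 0, .ofNat 0, .negSucc 79602251, .ofNat 39963491, .ofNat 83886080, .ofNat 0, .ofNat 24518124, .negSucc 83886079], [.ofNat 153253160, .ofNat 0, .ofNat 0, .negSucc 297642766, .ofNat 146906189, .ofNat 306903166, .ofNat 0, .ofNat 88906820, .negSucc 302993658], .ofNat 527, .negSucc 8067, .ofNat 8389, .ofNat 426⟩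

/-- Its row F. -/
def f136 : List ℤ := [.negSucc 142404337, .negSucc 39243308, .ofNat 0, .ofNat 0, .ofNat 79602252, .negSucc 39963490, .negSucc 83886079, .ofNat 0, .negSucc 24518123, .ofNat 83886080, .ofNat 153253160, .ofNat 0, .ofNat 0, .negSucc 297642766, .ofNat 146906189, .ofNat 306903166, .ofNat 0, .ofNat 88906820, .negSucc 302993658, .negSucc 526]

/-- Its row D. -/
def d136 : List ℤ := [.ofNat 153253160, .ofNat 0, .ofNat 0, .negSucc 297642766, .ofNat 146906189, .ofNat 306903166, .ofNat 0, .ofNat 88906820, .negSucc 302993658, .ofNat 8389, .ofNat 426]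

/-- A plane. -/
def p137 : Plane := ⟨[.ofNat 38081151, .ofNat 4379683, .ofNat 0, .negSucc 83886079, .ofNat 36312200, .ofNat 83886080, .ofNat 0, .ofNat 28304280, .negSucc 83886079], [.ofNat 148434191, .ofNat 16662743, .ofNat 0, .negSucc 311656791, .ofNat 132413696, .ofNat 304233356, .ofNat 0, .ofNat 101683566, .negSucc 300065780], .ofNat 532, .negSucc 8758, .ofNat 8389, .ofNat 471⟩

/-- Its row F. -/
def f137 : List ℤ := [.negSucc 137009971, .negSucc 38081150, .negSucc 4379682, .ofNat 0, .ofNat 83886080, .negSucc 36312199, .negSucc 83886079, .ofNat 0, .negSucc 28304279, .ofNat 83886080, .ofNat 148434191, .ofNat 16662743, .ofNat 0, .negSucc 311656791, .ofNat 132413696, .ofNat 304233356, .ofNat 0, .ofNat 101683566, .negSucc 300065780, .negSucc 531]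

/-- Its row D. -/
def d137 : List ℤ := [.ofNat 148434191, .ofNat 16662743, .ofNat 0, .negSucc 311656791, .ofNat 132413696, .ofNat 304233356, .ofNat 0, .ofNat 101683566, .negSucc 300065780, .ofNat 8389, .ofNat 471]

/-- A plane. -/
def p138 : Plane := ⟨[.ofNat 33088039, .ofNat 10662184, .ofNat 0, .negSucc 83886079, .ofNat 28394842, .ofNat 71030396, .ofNat 0, .ofNat 44294693, .negSucc 83886079], [.ofNat 128692161, .ofNat 40395116, .ofNat 0, .negSucc 309665641, .ofNat 102699831, .ofNat 255440810, .ofNat 0, .ofNat 157637008, .negSucc 297165558], .ofNat 537, .negSucc 7640, .ofNat 8389, .ofNat 521⟩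

/-- Its row F. -/
def f138 : List ℤ := [.negSucc 116656179, .negSucc 33088038, .negSucc 10662183, .ofNat 0, .ofNat 83886080, .negSucc 28394841, .negSucc 71030395, .ofNat 0, .negSucc 44294692, .ofNat 83886080, .ofNat 128692161, .ofNat 40395116, .ofNat 0, .negSucc 309665641, .ofNat 102699831, .ofNat 255440810, .ofNat 0, .ofNat 157637008, .negSucc 297165558, .negSucc 536]

/-- Its row D. -/
def d138 : List ℤ := [.ofNat 128692161, .ofNat 40395116, .ofNat 0, .negSucc 309665641, .ofNat 102699831, .ofNat 255440810, .ofNat 0, .ofNat 157637008, .negSucc 297165558, .ofNat 8389, .ofNat 521]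

/-- A plane. -/
def p139 : Plane := ⟨[.ofNat 26287974, .ofNat 19275607, .ofNat 0, .negSucc 83886079, .ofNat 19519897, .ofNat 51263780, .ofNat 0, .ofNat 66560165, .negSucc 83886079], [.ofNat 102006177, .ofNat 72699466, .ofNat 0, .negSucc 307653948, .ofNat 70048867, .ofNat 182806617, .ofNat 0, .ofNat 234611350, .negSucc 294246857], .ofNat 542, .negSucc 5197, .ofNat 8389, .ofNat 511⟩

/-- Its row F. -/
def f139 : List ℤ := [.negSucc 90262417, .negSucc 26287973, .negSucc 19275606, .ofNat 0, .ofNat 83886080, .negSucc 19519896, .negSucc 51263779, .ofNat 0, .negSucc 66560164, .ofNat 83886080, .ofNat 102006177, .ofNat 72699466, .ofNat 0, .negSucc 307653948, .ofNat 70048867, .ofNat 182806617, .ofNat 0, .ofNat 234611350, .negSucc 294246857, .negSucc 541]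

/-- Its row D. -/
def d139 : List ℤ := [.ofNat 102006177, .ofNat 72699466, .ofNat 0, .negSucc 307653948, .ofNat 70048867, .ofNat 182806617, .ofNat 0, .ofNat 234611350, .negSucc 294246857, .ofNat 8389, .ofNat 511]

/-- A plane. -/
def p140 : Plane := ⟨[.ofNat 22295338, .ofNat 25059285, .ofNat 0, .negSucc 83886079, .ofNat 13964967, .ofNat 36104816, .ofNat 0, .ofNat 82753426, .negSucc 83886079], [.ofNat 86286417, .ofNat 94092318, .ofNat 0, .negSucc 305538044, .ofNat 49683847, .ofNat 127545445, .ofNat 0, .ofNat 288848864, .negSucc 291189387], .ofNat 547, .negSucc 3507, .ofNat 8389, .ofNat 463⟩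

/-- Its row F. -/
def f140 : List ℤ := [.negSucc 74640555, .negSucc 22295337, .negSucc 25059284, .ofNat 0, .ofNat 83886080, .negSucc 13964966, .negSucc 36104815, .ofNat 0, .negSucc 82753425, .ofNat 83886080, .ofNat 86286417, .ofNat 94092318, .ofNat 0, .negSucc 305538044, .ofNat 49683847, .ofNat 127545445, .ofNat 0, .ofNat 288848864, .negSucc 291189387, .negSucc 546]

/-- Its row D. -/
def d140 : List ℤ := [.ofNat 86286417, .ofNat 94092318, .ofNat 0, .negSucc 305538044, .ofNat 49683847, .ofNat 127545445, .ofNat 0, .ofNat 288848864, .negSucc 291189387, .ofNat 8389, .ofNat 463]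

/-- A plane. -/
def p141 : Plane := ⟨[.ofNat 21830814, .ofNat 25599819, .ofNat 0, .negSucc 83886079, .ofNat 13423519, .ofNat 34754352, .ofNat 0, .ofNat 83886080, .negSucc 83555121], [.ofNat 84267366, .ofNat 95639639, .ofNat 0, .negSucc 303270210, .ofNat 47314626, .ofNat 121567564, .ofNat 0, .ofNat 289639020, .negSucc 286788456], .ofNat 553, .negSucc 3438, .ofNat 8389, .ofNat 463⟩

/-- Its row F. -/
def f141 : List ℤ := [.negSucc 72625451, .negSucc 21830813, .negSucc 25599818, .ofNat 0, .ofNat 83886080, .negSucc 13423518, .negSucc 34754351, .ofNat 0, .negSucc 83886079, .ofNat 83555122, .ofNat 84267366, .ofNat 95639639, .ofNat 0, .negSucc 303270210, .ofNat 47314626, .ofNat 121567564, .ofNat 0, .ofNat 289639020, .negSucc 286788456, .negSucc 552]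

/-- Its row D. -/
def d141 : List ℤ := [.ofNat 84267366, .ofNat 95639639, .ofNat 0, .negSucc 303270210, .ofNat 47314626, .ofNat 121567564, .ofNat 0, .ofNat 289639020, .negSucc 286788456, .ofNat 8389, .ofNat 463]

/-- A plane. -/
def p142 : Plane := ⟨[.ofNat 21268084, .ofNat 25981769, .ofNat 0, .negSucc 83886079, .ofNat 13214505, .ofNat 34080348, .ofNat 0, .ofNat 83886080, .negSucc 82891716], [.ofNat 81863168, .ofNat 96540971, .ofNat 0, .negSucc 300840928, .ofNat 46111784, .ofNat 117958462, .ofNat 0, .ofNat 286257169, .negSucc 281069178], .ofNat 560, .negSucc 3579, .ofNat 8389, .ofNat 483⟩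

/-- Its row F. -/
def f142 : List ℤ := [.negSucc 70329753, .negSucc 21268083, .negSucc 25981768, .ofNat 0, .ofNat 83886080, .negSucc 13214504, .negSucc 34080347, .ofNat 0, .negSucc 83886079, .ofNat 82891717, .ofNat 81863168, .ofNat 96540971, .ofNat 0, .negSucc 300840928, .ofNat 46111784, .ofNat 117958462, .ofNat 0, .ofNat 286257169, .negSucc 281069178, .negSucc 559]

/-- Its row D. -/
def d142 : List ℤ := [.ofNat 81863168, .ofNat 96540971, .ofNat 0, .negSucc 300840928, .ofNat 46111784, .ofNat 117958462, .ofNat 0, .ofNat 286257169, .negSucc 281069178, .ofNat 8389, .ofNat 483]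

/-- A plane. -/
def p143 : Plane := ⟨[.ofNat 20821455, .ofNat 26264976, .ofNat 0, .negSucc 83886079, .ofNat 13033990, .ofNat 33567760, .ofNat 0, .ofNat 83886080, .negSucc 82364282], [.ofNat 79899552, .ofNat 97022946, .ofNat 0, .negSucc 298240307, .ofNat 44990743, .ofNat 114877330, .ofNat 0, .ofNat 282634426, .negSucc 275634823], .ofNat 567, .negSucc 3405, .ofNat 8389, .ofNat 536⟩

/-- Its row F. -/
def f143 : List ℤ := [.negSucc 68445121, .negSucc 20821454, .negSucc 26264975, .ofNat 0, .ofNat 83886080, .negSucc 13033989, .negSucc 33567759, .ofNat 0, .negSucc 83886079, .ofNat 82364283, .ofNat 79899552, .ofNat 97022946, .ofNat 0, .negSucc 298240307, .ofNat 44990743, .ofNat 114877330, .ofNat 0, .ofNat 282634426, .negSucc 275634823, .negSucc 566]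

/-- Its row D. -/
def d143 : List ℤ := [.ofNat 79899552, .ofNat 97022946, .ofNat 0, .negSucc 298240307, .ofNat 44990743, .ofNat 114877330, .ofNat 0, .ofNat 282634426, .negSucc 275634823, .ofNat 8389, .ofNat 536]

/-- A plane. -/
def p144 : Plane := ⟨[.ofNat 20358793, .ofNat 26609699, .ofNat 0, .negSucc 83886079, .ofNat 12772295, .ofNat 32900581, .ofNat 0, .ofNat 83886080, .negSucc 81670950], [.ofNat 77866935, .ofNat 97676392, .ofNat 0, .negSucc 295458117, .ofNat 43573719, .ofNat 111204049, .ofNat 0, .ofNat 278805712, .negSucc 269464775], .ofNat 574, .negSucc 3532, .ofNat 8389, .ofNat 635⟩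

/-- Its row F. -/
def f144 : List ℤ := [.negSucc 66459925, .negSucc 20358792, .negSucc 26609698, .ofNat 0, .ofNat 83886080, .negSucc 12772294, .negSucc 32900580, .ofNat 0, .negSucc 83886079, .ofNat 81670951, .ofNat 77866935, .ofNat 97676392, .ofNat 0, .negSucc 295458117, .ofNat 43573719, .ofNat 111204049, .ofNat 0, .ofNat 278805712, .negSucc 269464775, .negSucc 573]

/-- Its row D. -/
def d144 : List ℤ := [.ofNat 77866935, .ofNat 97676392, .ofNat 0, .negSucc 295458117, .ofNat 43573719, .ofNat 111204049, .ofNat 0, .ofNat 278805712, .negSucc 269464775, .ofNat 8389, .ofNat 635]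

/-- A plane. -/
def p145 : Plane := ⟨[.ofNat 20233885, .ofNat 26697790, .ofNat 0, .negSucc 83886079, .ofNat 12528345, .ofNat 32661281, .ofNat 0, .ofNat 83886080, .negSucc 81306194], [.ofNat 77114215, .ofNat 97332704, .ofNat 0, .negSucc 292422337, .ofNat 42204102, .ofNat 108902232, .ofNat 0, .ofNat 274611156, .negSucc 264102784], .ofNat 582, .negSucc 3096, .ofNat 8389, .ofNat 520⟩

/-- Its row F. -/
def f145 : List ℤ := [.negSucc 65642165, .negSucc 20233884, .negSucc 26697789, .ofNat 0, .ofNat 83886080, .negSucc 12528344, .negSucc 32661280, .ofNat 0, .negSucc 83886079, .ofNat 81306195, .ofNat 77114215, .ofNat 97332704, .ofNat 0, .negSucc 292422337, .ofNat 42204102, .ofNat 108902232, .ofNat 0, .ofNat 274611156, .negSucc 264102784, .negSucc 581]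

/-- Its row D. -/
def d145 : List ℤ := [.ofNat 77114215, .ofNat 97332704, .ofNat 0, .negSucc 292422337, .ofNat 42204102, .ofNat 108902232, .ofNat 0, .ofNat 274611156, .negSucc 264102784, .ofNat 8389, .ofNat 520]

/-- A plane. -/
def p146 : Plane := ⟨[.ofNat 20032573, .ofNat 26899501, .ofNat 0, .negSucc 83886079, .ofNat 12179887, .ofNat 32187018, .ofNat 0, .ofNat 83886080, .negSucc 80701595], [.ofNat 76042830, .ofNat 97319739, .ofNat 0, .negSucc 289117585, .ofNat 40452123, .ofNat 105722128, .ofNat 0, .ofNat 270092026, .negSucc 257668132], .ofNat 591, .negSucc 3084, .ofNat 8389, .ofNat 721⟩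

/-- Its row F. -/
def f146 : List ℤ := [.negSucc 64485317, .negSucc 20032572, .negSucc 26899500, .ofNat 0, .ofNat 83886080, .negSucc 12179886, .negSucc 32187017, .ofNat 0, .negSucc 83886079, .ofNat 80701596, .ofNat 76042830, .ofNat 97319739, .ofNat 0, .negSucc 289117585, .ofNat 40452123, .ofNat 105722128, .ofNat 0, .ofNat 270092026, .negSucc 257668132, .negSucc 590]

/-- Its row D. -/
def d146 : List ℤ := [.ofNat 76042830, .ofNat 97319739, .ofNat 0, .negSucc 289117585, .ofNat 40452123, .ofNat 105722128, .ofNat 0, .ofNat 270092026, .negSucc 257668132, .ofNat 8389, .ofNat 721]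

/-- A plane. -/
def p147 : Plane := ⟨[.ofNat 20149406, .ofNat 26777124, .ofNat 0, .negSucc 83886079, .ofNat 11570796, .ofNat 35121448, .ofNat 0, .ofNat 78695268, .negSucc 77855809], [.ofNat 76156551, .ofNat 96006260, .ofNat 0, .negSucc 285508732, .ofNat 37837007, .ofNat 113439614, .ofNat 0, .ofNat 248740241, .negSucc 243903396], .ofNat 601, .negSucc 2799, .ofNat 8389, .ofNat 734⟩

/-- Its row F. -/
def f147 : List ℤ := [.negSucc 64385181, .negSucc 20149405, .negSucc 26777123, .ofNat 0, .ofNat 83886080, .negSucc 11570795, .negSucc 35121447, .ofNat 0, .negSucc 78695267, .ofNat 77855810, .ofNat 76156551, .ofNat 96006260, .ofNat 0, .negSucc 285508732, .ofNat 37837007, .ofNat 113439614, .ofNat 0, .ofNat 248740241, .negSucc 243903396, .negSucc 600]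

/-- Its row D. -/
def d147 : List ℤ := [.ofNat 76156551, .ofNat 96006260, .ofNat 0, .negSucc 285508732, .ofNat 37837007, .ofNat 113439614, .ofNat 0, .ofNat 248740241, .negSucc 243903396, .ofNat 8389, .ofNat 734]

/-- A plane. -/
def p148 : Plane := ⟨[.ofNat 20299696, .ofNat 26635149, .ofNat 0, .negSucc 83886079, .ofNat 10986371, .ofNat 37539487, .ofNat 0, .ofNat 74346929, .negSucc 75377164], [.ofNat 76352642, .ofNat 94604578, .ofNat 0, .negSucc 281577902, .ofNat 35316313, .ofNat 119041023, .ofNat 0, .ofNat 230212792, .negSucc 231235349], .ofNat 612, .negSucc 2711, .ofNat 8389, .ofNat 812⟩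

/-- Its row F. -/
def f148 : List ℤ := [.negSucc 64333991, .negSucc 20299695, .negSucc 26635148, .ofNat 0, .ofNat 83886080, .negSucc 10986370, .negSucc 37539486, .ofNat 0, .negSucc 74346928, .ofNat 75377165, .ofNat 76352642, .ofNat 94604578, .ofNat 0, .negSucc 281577902, .ofNat 35316313, .ofNat 119041023, .ofNat 0, .ofNat 230212792, .negSucc 231235349, .negSucc 611]

/-- Its row D. -/
def d148 : List ℤ := [.ofNat 76352642, .ofNat 94604578, .ofNat 0, .negSucc 281577902, .ofNat 35316313, .ofNat 119041023, .ofNat 0, .ofNat 230212792, .negSucc 231235349, .ofNat 8389, .ofNat 812]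

/-- A plane. -/
def p149 : Plane := ⟨[.ofNat 20610524, .ofNat 26350876, .ofNat 0, .negSucc 83886079, .ofNat 10672816, .ofNat 38664368, .ofNat 0, .ofNat 72652491, .negSucc 74454274], [.ofNat 77113854, .ofNat 92645349, .ofNat 0, .negSucc 277370920, .ofNat 33670620, .ofNat 120115970, .ofNat 0, .ofNat 220101754, .negSucc 223259197], .ofNat 624, .negSucc 2971, .ofNat 8389, .ofNat 951⟩

/-- Its row F. -/
def f149 : List ℤ := [.negSucc 64807471, .negSucc 20610523, .negSucc 26350875, .ofNat 0, .ofNat 83886080, .negSucc 10672815, .negSucc 38664367, .ofNat 0, .negSucc 72652490, .ofNat 74454275, .ofNat 77113854, .ofNat 92645349, .ofNat 0, .negSucc 277370920, .ofNat 33670620, .ofNat 120115970, .ofNat 0, .ofNat 220101754, .negSucc 223259197, .negSucc 623]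

/-- Its row D. -/
def d149 : List ℤ := [.ofNat 77113854, .ofNat 92645349, .ofNat 0, .negSucc 277370920, .ofNat 33670620, .ofNat 120115970, .ofNat 0, .ofNat 220101754, .negSucc 223259197, .ofNat 8389, .ofNat 951]

/-- A plane. -/
def p150 : Plane := ⟨[.ofNat 20682310, .ofNat 25874756, .ofNat 0, .negSucc 83886079, .ofNat 10006319, .ofNat 46610051, .ofNat 0, .ofNat 58982105, .negSucc 67709647], [.ofNat 76958642, .ofNat 89892487, .ofNat 0, .negSucc 272780943, .ofNat 30916715, .ofNat 141562422, .ofNat 0, .ofNat 174251783, .negSucc 197974017], .ofNat 638, .negSucc 2354, .ofNat 8389, .ofNat 1012⟩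

/-- Its row F. -/
def f150 : List ℤ := [.negSucc 64529837, .negSucc 20682309, .negSucc 25874755, .ofNat 0, .ofNat 83886080, .negSucc 10006318, .negSucc 46610050, .ofNat 0, .negSucc 58982104, .ofNat 67709648, .ofNat 76958642, .ofNat 89892487, .ofNat 0, .negSucc 272780943, .ofNat 30916715, .ofNat 141562422, .ofNat 0, .ofNat 174251783, .negSucc 197974017, .negSucc 637]

/-- Its row D. -/
def d150 : List ℤ := [.ofNat 76958642, .ofNat 89892487, .ofNat 0, .negSucc 272780943, .ofNat 30916715, .ofNat 141562422, .ofNat 0, .ofNat 174251783, .negSucc 197974017, .ofNat 8389, .ofNat 1012]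

/-- A plane. -/
def p151 : Plane := ⟨[.ofNat 21051938, .ofNat 25032392, .ofNat 0, .negSucc 83886079, .ofNat 11231424, .ofNat 45982473, .ofNat 0, .ofNat 61391736, .negSucc 70034246], [.ofNat 77831234, .ofNat 85893968, .ofNat 0, .negSucc 267788044, .ofNat 33911903, .ofNat 136318994, .ofNat 0, .ofNat 176547702, .negSucc 199124982], .ofNat 653, .negSucc 2893, .ofNat 8389, .ofNat 1405⟩

/-- Its row F. -/
def f151 : List ℤ := [.negSucc 65636485, .negSucc 21051937, .negSucc 25032391, .ofNat 0, .ofNat 83886080, .negSucc 11231423, .negSucc 45982472, .ofNat 0, .negSucc 61391735, .ofNat 70034247, .ofNat 77831234, .ofNat 85893968, .ofNat 0, .negSucc 267788044, .ofNat 33911903, .ofNat 136318994, .ofNat 0, .ofNat 176547702, .negSucc 199124982, .negSucc 652]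

/-- Its row D. -/
def d151 : List ℤ := [.ofNat 77831234, .ofNat 85893968, .ofNat 0, .negSucc 267788044, .ofNat 33911903, .ofNat 136318994, .ofNat 0, .ofNat 176547702, .negSucc 199124982, .ofNat 8389, .ofNat 1405]

/-- A plane. -/
def p152 : Plane := ⟨[.ofNat 21345307, .ofNat 24126076, .ofNat 0, .negSucc 83886079, .ofNat 12464244, .ofNat 46945138, .ofNat 0, .ofNat 60890134, .negSucc 70942774], [.ofNat 78364472, .ofNat 81659861, .ofNat 0, .negSucc 262453766, .ofNat 36743160, .ofNat 135503488, .ofNat 0, .ofNat 170012203, .negSucc 195658155], .ofNat 669, .negSucc 3330, .ofNat 8389, .ofNat 1950⟩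

/-- Its row F. -/
def f152 : List ℤ := [.negSucc 66451771, .negSucc 21345306, .negSucc 24126075, .ofNat 0, .ofNat 83886080, .negSucc 12464243, .negSucc 46945137, .ofNat 0, .negSucc 60890133, .ofNat 70942775, .ofNat 78364472, .ofNat 81659861, .ofNat 0, .negSucc 262453766, .ofNat 36743160, .ofNat 135503488, .ofNat 0, .ofNat 170012203, .negSucc 195658155, .negSucc 668]

/-- Its row D. -/
def d152 : List ℤ := [.ofNat 78364472, .ofNat 81659861, .ofNat 0, .negSucc 262453766, .ofNat 36743160, .ofNat 135503488, .ofNat 0, .ofNat 170012203, .negSucc 195658155, .ofNat 8389, .ofNat 1950]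

/-- A plane. -/
def p153 : Plane := ⟨[.ofNat 21686164, .ofNat 23063853, .ofNat 0, .negSucc 83886079, .ofNat 13806570, .ofNat 48782042, .ofNat 0, .ofNat 59025969, .negSucc 71337332], [.ofNat 79010351, .ofNat 76910622, .ofNat 0, .negSucc 256764581, .ofNat 39607344, .ofNat 136736514, .ofNat 0, .ofNat 159632194, .negSucc 190327431], .ofNat 686, .negSucc 3748, .ofNat 8389, .ofNat 2701⟩

/-- Its row F. -/
def f153 : List ℤ := [.negSucc 67320153, .negSucc 21686163, .negSucc 23063852, .ofNat 0, .ofNat 83886080, .negSucc 13806569, .negSucc 48782041, .ofNat 0, .negSucc 59025968, .ofNat 71337333, .ofNat 79010351, .ofNat 76910622, .ofNat 0, .negSucc 256764581, .ofNat 39607344, .ofNat 136736514, .ofNat 0, .ofNat 159632194, .negSucc 190327431, .negSucc 685]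

/-- Its row D. -/
def d153 : List ℤ := [.ofNat 79010351, .ofNat 76910622, .ofNat 0, .negSucc 256764581, .ofNat 39607344, .ofNat 136736514, .ofNat 0, .ofNat 159632194, .negSucc 190327431, .ofNat 8389, .ofNat 2701]

/-- A plane. -/
def p154 : Plane := ⟨[.ofNat 22266606, .ofNat 21543078, .ofNat 0, .negSucc 83886079, .ofNat 15814125, .ofNat 49263032, .ofNat 0, .ofNat 60682313, .negSucc 74209330], [.ofNat 80426867, .ofNat 70660034, .ofNat 0, .negSucc 250708256, .ofNat 44041381, .ofNat 133903112, .ofNat 0, .ofNat 158485835, .negSucc 190964572], .ofNat 705, .negSucc 4533, .ofNat 8389, .ofNat 3874⟩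

/-- Its row F. -/
def f154 : List ℤ := [.negSucc 68732243, .negSucc 22266605, .negSucc 21543077, .ofNat 0, .ofNat 83886080, .negSucc 15814124, .negSucc 49263031, .ofNat 0, .negSucc 60682312, .ofNat 74209331, .ofNat 80426867, .ofNat 70660034, .ofNat 0, .negSucc 250708256, .ofNat 44041381, .ofNat 133903112, .ofNat 0, .ofNat 158485835, .negSucc 190964572, .negSucc 704]

/-- Its row D. -/
def d154 : List ℤ := [.ofNat 80426867, .ofNat 70660034, .ofNat 0, .negSucc 250708256, .ofNat 44041381, .ofNat 133903112, .ofNat 0, .ofNat 158485835, .negSucc 190964572, .ofNat 8389, .ofNat 3874]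

/-- A plane. -/
def p155 : Plane := ⟨[.ofNat 23080707, .ofNat 19299060, .ofNat 0, .negSucc 83886079, .ofNat 18758640, .ofNat 49705959, .ofNat 0, .ofNat 63995474, .negSucc 79010412], [.ofNat 82613848, .ofNat 62189647, .ofNat 0, .negSucc 244274265, .ofNat 50655342, .ofNat 130530581, .ofNat 0, .ofNat 161044296, .negSucc 195473930], .ofNat 822, .negSucc 5864, .ofNat 10101, .ofNat 5679⟩

/-- Its row F. -/
def f155 : List ℤ := [.negSucc 70672609, .negSucc 23080706, .negSucc 19299059, .ofNat 0, .ofNat 83886080, .negSucc 18758639, .negSucc 49705958, .ofNat 0, .negSucc 63995473, .ofNat 79010413, .ofNat 82613848, .ofNat 62189647, .ofNat 0, .negSucc 244274265, .ofNat 50655342, .ofNat 130530581, .ofNat 0, .ofNat 161044296, .negSucc 195473930, .negSucc 821]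

/-- Its row D. -/
def d155 : List ℤ := [.ofNat 82613848, .ofNat 62189647, .ofNat 0, .negSucc 244274265, .ofNat 50655342, .ofNat 130530581, .ofNat 0, .ofNat 161044296, .negSucc 195473930, .ofNat 10101, .ofNat 5679]

/-- A plane. -/
def p156 : Plane := ⟨[.ofNat 23471796, .ofNat 17102915, .ofNat 0, .negSucc 83886079, .ofNat 20661135, .ofNat 61493636, .ofNat 0, .ofNat 45968829, .negSucc 72624502], [.ofNat 83154469, .ofNat 53996726, .ofNat 0, .negSucc 237314066, .ofNat 53808271, .ofNat 155298004, .ofNat 0, .ofNat 110794942, .negSucc 171987158], .ofNat 1041, .negSucc 5833, .ofNat 13576, .ofNat 7740⟩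

/-- Its row F. -/
def f156 : List ℤ := [.negSucc 71115247, .negSucc 23471795, .negSucc 17102914, .ofNat 0, .ofNat 83886080, .negSucc 20661134, .negSucc 61493635, .ofNat 0, .negSucc 45968828, .ofNat 72624503, .ofNat 83154469, .ofNat 53996726, .ofNat 0, .negSucc 237314066, .ofNat 53808271, .ofNat 155298004, .ofNat 0, .ofNat 110794942, .negSucc 171987158, .negSucc 1040]

/-- Its row D. -/
def d156 : List ℤ := [.ofNat 83154469, .ofNat 53996726, .ofNat 0, .negSucc 237314066, .ofNat 53808271, .ofNat 155298004, .ofNat 0, .ofNat 110794942, .negSucc 171987158, .ofNat 13576, .ofNat 7740]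

/-- A plane. -/
def p157 : Plane := ⟨[.ofNat 24402928, .ofNat 14958601, .ofNat 0, .negSucc 83886079, .ofNat 23577667, .ofNat 62700762, .ofNat 0, .ofNat 46827949, .negSucc 75828967], [.ofNat 85488573, .ofNat 46182839, .ofNat 0, .negSucc 229816251, .ofNat 59086918, .ofNat 151787534, .ofNat 0, .ofNat 107745613, .negSucc 171058382], .ofNat 1921, .negSucc 6852, .ofNat 28769, .ofNat 9281⟩

/-- Its row F. -/
def f157 : List ℤ := [.negSucc 73314259, .negSucc 24402927, .negSucc 14958600, .ofNat 0, .ofNat 83886080, .negSucc 23577666, .negSucc 62700761, .ofNat 0, .negSucc 46827948, .ofNat 75828968, .ofNat 85488573, .ofNat 46182839, .ofNat 0, .negSucc 229816251, .ofNat 59086918, .ofNat 151787534, .ofNat 0, .ofNat 107745613, .negSucc 171058382, .negSucc 1920]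

/-- Its row D. -/
def d157 : List ℤ := [.ofNat 85488573, .ofNat 46182839, .ofNat 0, .negSucc 229816251, .ofNat 59086918, .ofNat 151787534, .ofNat 0, .ofNat 107745613, .negSucc 171058382, .ofNat 28769, .ofNat 9281]

/-- A plane. -/
def p158 : Plane := ⟨[.ofNat 25068948, .ofNat 12730498, .ofNat 0, .negSucc 83886079, .ofNat 26173925, .ofNat 73275558, .ofNat 0, .ofNat 29732317, .negSucc 69847189], [.ofNat 86752144, .ofNat 38306361, .ofNat 0, .negSucc 221731806, .ofNat 62723533, .ofNat 169004768, .ofNat 0, .ofNat 64847530, .negSucc 149255450], .ofNat 2793, .negSucc 6461, .ofNat 43765, .ofNat 11458⟩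

/-- Its row F. -/
def f158 : List ℤ := [.negSucc 74785279, .negSucc 25068947, .negSucc 12730497, .ofNat 0, .ofNat 83886080, .negSucc 26173924, .negSucc 73275557, .ofNat 0, .negSucc 29732316, .ofNat 69847190, .ofNat 86752144, .ofNat 38306361, .ofNat 0, .negSucc 221731806, .ofNat 62723533, .ofNat 169004768, .ofNat 0, .ofNat 64847530, .negSucc 149255450, .negSucc 2792]

/-- Its row D. -/
def d158 : List ℤ := [.ofNat 86752144, .ofNat 38306361, .ofNat 0, .negSucc 221731806, .ofNat 62723533, .ofNat 169004768, .ofNat 0, .ofNat 64847530, .negSucc 149255450, .ofNat 43765, .ofNat 11458]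

/-- A plane. -/
def p159 : Plane := ⟨[.ofNat 26122020, .ofNat 9981292, .ofNat 0, .negSucc 83886079, .ofNat 30347720, .ofNat 81752346, .ofNat 0, .ofNat 16067777, .negSucc 66309631], [.ofNat 89055663, .ofNat 29216277, .ofNat 0, .negSucc 212880386, .ofNat 69153763, .ofNat 178528441, .ofNat 0, .ofNat 32974907, .negSucc 133227408], .ofNat 3955, .negSucc 5810, .ofNat 63836, .ofNat 14768⟩

/-- Its row F. -/
def f159 : List ℤ := [.negSucc 77480001, .negSucc 26122019, .negSucc 9981291, .ofNat 0, .ofNat 83886080, .negSucc 30347719, .negSucc 81752345, .ofNat 0, .negSucc 16067776, .ofNat 66309632, .ofNat 89055663, .ofNat 29216277, .ofNat 0, .negSucc 212880386, .ofNat 69153763, .ofNat 178528441, .ofNat 0, .ofNat 32974907, .negSucc 133227408, .negSucc 3954]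

/-- Its row D. -/
def d159 : List ℤ := [.ofNat 89055663, .ofNat 29216277, .ofNat 0, .negSucc 212880386, .ofNat 69153763, .ofNat 178528441, .ofNat 0, .ofNat 32974907, .negSucc 133227408, .ofNat 63836, .ofNat 14768]

/-- A plane. -/
def p160 : Plane := ⟨[.ofNat 27828094, .ofNat 6876668, .ofNat 0, .negSucc 83886079, .ofNat 36198214, .ofNat 83886080, .ofNat 0, .ofNat 12909770, .negSucc 68444521], [.ofNat 93371700, .ofNat 19464823, .ofNat 0, .negSucc 203207641, .ofNat 77969797, .ofNat 172316607, .ofNat 0, .ofNat 24778607, .negSucc 128175464], .ofNat 5387, .negSucc 4676, .ofNat 88618, .ofNat 19374⟩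

/-- Its row F. -/
def f160 : List ℤ := [.negSucc 82291051, .negSucc 27828093, .negSucc 6876667, .ofNat 0, .ofNat 83886080, .negSucc 36198213, .negSucc 83886079, .ofNat 0, .negSucc 12909769, .ofNat 68444522, .ofNat 93371700, .ofNat 19464823, .ofNat 0, .negSucc 203207641, .ofNat 77969797, .ofNat 172316607, .ofNat 0, .ofNat 24778607, .negSucc 128175464, .negSucc 5386]

/-- Its row D. -/
def d160 : List ℤ := [.ofNat 93371700, .ofNat 19464823, .ofNat 0, .negSucc 203207641, .ofNat 77969797, .ofNat 172316607, .ofNat 0, .ofNat 24778607, .negSucc 128175464, .ofNat 88618, .ofNat 19374]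

/-- A plane. -/
def p161 : Plane := ⟨[.ofNat 24141096, .ofNat 5695312, .ofNat 0, .negSucc 76590059, .ofNat 36204321, .ofNat 83886080, .ofNat 2670611, .ofNat 0, .negSucc 60787750], [.ofNat 79438613, .ofNat 15511995, .ofNat 0, .negSucc 175715292, .ofNat 73036422, .ofNat 160362895, .ofNat 5954298, .ofNat 0, .negSucc 104853264], .ofNat 8040, .negSucc 1953, .ofNat 134973, .ofNat 24916⟩

/-- Its row F. -/
def f161 : List ℤ := [.negSucc 77028203, .negSucc 24141095, .negSucc 5695311, .ofNat 0, .ofNat 76590060, .negSucc 36204320, .negSucc 83886079, .negSucc 2670610, .ofNat 0, .ofNat 60787751, .ofNat 79438613, .ofNat 15511995, .ofNat 0, .negSucc 175715292, .ofNat 73036422, .ofNat 160362895, .ofNat 5954298, .ofNat 0, .negSucc 104853264, .negSucc 8039]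

/-- Its row D. -/
def d161 : List ℤ := [.ofNat 79438613, .ofNat 15511995, .ofNat 0, .negSucc 175715292, .ofNat 73036422, .ofNat 160362895, .ofNat 5954298, .ofNat 0, .negSucc 104853264, .ofNat 134973, .ofNat 24916]

/-- A plane. -/
def p162 : Plane := ⟨[.ofNat 24218711, .ofNat 2124501, .ofNat 0, .negSucc 75734677, .ofNat 47106165, .ofNat 83886080, .ofNat 7950569, .ofNat 0, .negSucc 70394956], [.ofNat 77864341, .ofNat 5534283, .ofNat 0, .negSucc 162596600, .ofNat 88118496, .ofNat 147614343, .ofNat 16691470, .ofNat 0, .negSucc 109840038], .ofNat 975, .negSucc 3570, .ofNat 8389, .ofNat 73398⟩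

/-- Its row F. -/
def f162 : List ℤ := [.negSucc 88452661, .negSucc 24218710, .negSucc 2124500, .ofNat 0, .ofNat 75734678, .negSucc 47106164, .negSucc 83886079, .negSucc 7950568, .ofNat 0, .ofNat 70394957, .ofNat 77864341, .ofNat 5534283, .ofNat 0, .negSucc 162596600, .ofNat 88118496, .ofNat 147614343, .ofNat 16691470, .ofNat 0, .negSucc 109840038, .negSucc 974]

/-- Its row D. -/
def d162 : List ℤ := [.ofNat 77864341, .ofNat 5534283, .ofNat 0, .negSucc 162596600, .ofNat 88118496, .ofNat 147614343, .ofNat 16691470, .ofNat 0, .negSucc 109840038, .ofNat 8389, .ofNat 73398]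

/-- A plane. -/
def p163 : Plane := ⟨[.ofNat 19877856, .ofNat 0, .ofNat 0, .negSucc 70991388, .ofNat 56527311, .ofNat 81632258, .ofNat 23122369, .ofNat 0, .negSucc 83886079], [.ofNat 61891100, .ofNat 0, .ofNat 0, .negSucc 139303252, .ofNat 95807719, .ofNat 129127296, .ofNat 45181011, .ofNat 0, .negSucc 114293809], .ofNat 1056, .negSucc 1972, .ofNat 8389, .ofNat 146467⟩

/-- Its row F. -/
def f163 : List ℤ := [.negSucc 104251529, .negSucc 19877855, .ofNat 0, .ofNat 0, .ofNat 70991389, .negSucc 56527310, .negSucc 81632257, .negSucc 23122368, .ofNat 0, .ofNat 83886080, .ofNat 61891100, .ofNat 0, .ofNat 0, .negSucc 139303252, .ofNat 95807719, .ofNat 129127296, .ofNat 45181011, .ofNat 0, .negSucc 114293809, .negSucc 1055]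

/-- Its row D. -/
def d163 : List ℤ := [.ofNat 61891100, .ofNat 0, .ofNat 0, .negSucc 139303252, .ofNat 95807719, .ofNat 129127296, .ofNat 45181011, .ofNat 0, .negSucc 114293809, .ofNat 8389, .ofNat 146467]

/-- A plane. -/
def p164 : Plane := ⟨[.ofNat 1399003, .ofNat 0, .ofNat 0, .negSucc 35603709, .ofNat 41012670, .ofNat 52642295, .ofNat 62069886, .ofNat 0, .negSucc 83886079], [.ofNat 4149707, .ofNat 0, .ofNat 0, .negSucc 60008701, .ofNat 60146567, .ofNat 71439043, .ofNat 109836551, .ofNat 0, .negSucc 90979123], .ofNat 1208, .negSucc 8947, .ofNat 8389, .ofNat 304278⟩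

/-- Its row F. -/
def f164 : List ℤ := [.negSucc 113882059, .negSucc 1399002, .ofNat 0, .ofNat 0, .ofNat 35603710, .negSucc 41012669, .negSucc 52642294, .negSucc 62069885, .ofNat 0, .ofNat 83886080, .ofNat 4149707, .ofNat 0, .ofNat 0, .negSucc 60008701, .ofNat 60146567, .ofNat 71439043, .ofNat 109836551, .ofNat 0, .negSucc 90979123, .negSucc 1207]

/-- Its row D. -/
def d164 : List ℤ := [.ofNat 4149707, .ofNat 0, .ofNat 0, .negSucc 60008701, .ofNat 60146567, .ofNat 71439043, .ofNat 109836551, .ofNat 0, .negSucc 90979123, .ofNat 8389, .ofNat 304278]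

/-- A plane. -/
def p165 : Plane := ⟨[.ofNat 0, .ofNat 0, .ofNat 0, .negSucc 7191675, .ofNat 17057805, .ofNat 0, .ofNat 83886080, .ofNat 0, .negSucc 46621158], [.ofNat 0, .ofNat 0, .ofNat 0, .negSucc 7192935, .ofNat 18436594, .ofNat 0, .ofNat 119028048, .ofNat 0, .negSucc 23670466], .ofNat 1893, .negSucc 21909, .ofNat 8389, .ofNat 433608⟩

/-- Its row F. -/
def f165 : List ℤ := [.negSucc 118896557, .ofNat 0, .ofNat 0, .ofNat 0, .ofNat 7191676, .negSucc 17057804, .ofNat 0, .negSucc 83886079, .ofNat 0, .ofNat 46621159, .ofNat 0, .ofNat 0, .ofNat 0, .negSucc 7192935, .ofNat 18436594, .ofNat 0, .ofNat 119028048, .ofNat 0, .negSucc 23670466, .negSucc 1892]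

/-- Its row D. -/
def d165 : List ℤ := [.ofNat 0, .ofNat 0, .ofNat 0, .negSucc 7192935, .ofNat 18436594, .ofNat 0, .ofNat 119028048, .ofNat 0, .negSucc 23670466, .ofNat 8389, .ofNat 433608]

/-- A plane. -/
def p166 : Plane := ⟨[.ofNat 1672646, .ofNat 0, .ofNat 0, .ofNat 0, .ofNat 0, .ofNat 0, .ofNat 83886080, .ofNat 12897877, .negSucc 51787325], [.ofNat 2516582, .ofNat 0, .ofNat 0, .ofNat 0, .ofNat 0, .ofNat 0, .ofNat 79267161, .ofNat 3028066, .ofNat 2669861], .ofNat 2587, .negSucc 3602671, .ofNat 8389, .ofNat 4347481⟩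

/-- Its row F. -/
def f166 : List ℤ := [.negSucc 74419441, .negSucc 1672645, .ofNat 0, .ofNat 0, .ofNat 0, .ofNat 0, .ofNat 0, .negSucc 83886079, .negSucc 12897876, .ofNat 51787326, .ofNat 2516582, .ofNat 0, .ofNat 0, .ofNat 0, .ofNat 0, .ofNat 0, .ofNat 79267161, .ofNat 3028066, .ofNat 2669861, .negSucc 2586]

/-- Its row D. -/
def d166 : List ℤ := [.ofNat 2516582, .ofNat 0, .ofNat 0, .ofNat 0, .ofNat 0, .ofNat 0, .ofNat 79267161, .ofNat 3028066, .ofNat 2669861, .ofNat 8389, .ofNat 4347481]

/-- A plane. -/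
def p167 : Plane := ⟨[.ofNat 39531411, .ofNat 0, .ofNat 0, .negSucc 80351896, .ofNat 40169270, .ofNat 83886080, .ofNat 0, .ofNat 24763258, .negSucc 83886079], [.ofNat 154918199, .ofNat 0, .ofNat 0, .negSucc 301723839, .ofNat 149322223, .ofNat 310693115, .ofNat 0, .ofNat 91027452, .negSucc 308112930], .ofNat 519, .negSucc 7356, .ofNat 8389, .ofNat 1206⟩

/-- Its row F. -/
def f167 : List ℤ := [.negSucc 144009637, .negSucc 39531410, .ofNat 0, .ofNat 0, .ofNat 80351897, .negSucc 40169269, .negSucc 83886079, .ofNat 0, .negSucc 24763257, .ofNat 83886080, .ofNat 154918199, .ofNat 0, .ofNat 0, .negSucc 301723839, .ofNat 149322223, .ofNat 310693115, .ofNat 0, .ofNat 91027452, .negSucc 308112930, .negSucc 518]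

/-- Its row D. -/
def d167 : List ℤ := [.ofNat 154918199, .ofNat 0, .ofNat 0, .negSucc 301723839, .ofNat 149322223, .ofNat 310693115, .ofNat 0, .ofNat 91027452, .negSucc 308112930, .ofNat 8389, .ofNat 1206]

/-- A plane. -/
def p168 : Plane := ⟨[.ofNat 39856744, .ofNat 0, .ofNat 0, .negSucc 80174020, .ofNat 39588734, .ofNat 83886080, .ofNat 0, .ofNat 25036967, .negSucc 83886079], [.ofNat 155726219, .ofNat 0, .ofNat 0, .negSucc 298977311, .ofNat 145767675, .ofNat 307470626, .ofNat 0, .ofNat 90995095, .negSucc 304362677], .ofNat 526, .negSucc 8067, .ofNat 8389, .ofNat 427⟩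

/-- Its row F. -/
def f168 : List ℤ := [.negSucc 144606265, .negSucc 39856743, .ofNat 0, .ofNat 0, .ofNat 80174021, .negSucc 39588733, .negSucc 83886079, .ofNat 0, .negSucc 25036966, .ofNat 83886080, .ofNat 155726219, .ofNat 0, .ofNat 0, .negSucc 298977311, .ofNat 145767675, .ofNat 307470626, .ofNat 0, .ofNat 90995095, .negSucc 304362677, .negSucc 525]

/-- Its row D. -/
def d168 : List ℤ := [.ofNat 155726219, .ofNat 0, .ofNat 0, .negSucc 298977311, .ofNat 145767675, .ofNat 307470626, .ofNat 0, .ofNat 90995095, .negSucc 304362677, .ofNat 8389, .ofNat 427]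

/-- A plane. -/
def p169 : Plane := ⟨[.ofNat 39314537, .ofNat 3661871, .ofNat 0, .negSucc 83886079, .ofNat 36026317, .ofNat 83886080, .ofNat 0, .ofNat 28590393, .negSucc 83886079], [.ofNat 153129926, .ofNat 13910920, .ofNat 0, .negSucc 309413001, .ofNat 130977818, .ofNat 303325243, .ofNat 0, .ofNat 102366005, .negSucc 299944058], .ofNat 534, .negSucc 9399, .ofNat 8389, .ofNat 441⟩

/-- Its row F. -/
def f169 : List ℤ := [.negSucc 141272825, .negSucc 39314536, .negSucc 3661870, .ofNat 0, .ofNat 83886080, .negSucc 36026316, .negSucc 83886079, .ofNat 0, .negSucc 28590392, .ofNat 83886080, .ofNat 153129926, .ofNat 13910920, .ofNat 0, .negSucc 309413001, .ofNat 130977818, .ofNat 303325243, .ofNat 0, .ofNat 102366005, .negSucc 299944058, .negSucc 533]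

/-- Its row D. -/
def d169 : List ℤ := [.ofNat 153129926, .ofNat 13910920, .ofNat 0, .negSucc 309413001, .ofNat 130977818, .ofNat 303325243, .ofNat 0, .ofNat 102366005, .negSucc 299944058, .ofNat 8389, .ofNat 441]

/-- A plane. -/
def p170 : Plane := ⟨[.ofNat 27437555, .ofNat 18832368, .ofNat 0, .negSucc 83886079, .ofNat 18728655, .ofNat 49921515, .ofNat 0, .ofNat 68341521, .negSucc 83886079], [.ofNat 106472923, .ofNat 71028494, .ofNat 0, .negSucc 305552177, .ofNat 67144659, .ofNat 177886297, .ofNat 0, .ofNat 240719235, .negSucc 295162721], .ofNat 542, .negSucc 5558, .ofNat 8389, .ofNat 568⟩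

/-- Its row F. -/
def f170 : List ℤ := [.negSucc 94083389, .negSucc 27437554, .negSucc 18832367, .ofNat 0, .ofNat 83886080, .negSucc 18728654, .negSucc 49921514, .ofNat 0, .negSucc 68341520, .ofNat 83886080, .ofNat 106472923, .ofNat 71028494, .ofNat 0, .negSucc 305552177, .ofNat 67144659, .ofNat 177886297, .ofNat 0, .ofNat 240719235, .negSucc 295162721, .negSucc 541]

/-- Its row D. -/
def d170 : List ℤ := [.ofNat 106472923, .ofNat 71028494, .ofNat 0, .negSucc 305552177, .ofNat 67144659, .ofNat 177886297, .ofNat 0, .ofNat 240719235, .negSucc 295162721, .ofNat 8389, .ofNat 568]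

/-- A plane. -/
def p171 : Plane := ⟨[.ofNat 24055133, .ofNat 23933213, .ofNat 0, .negSucc 83886079, .ofNat 13515881, .ofNat 35929934, .ofNat 0, .ofNat 83396492, .negSucc 83886079], [.ofNat 92951484, .ofNat 89525832, .ofNat 0, .negSucc 301579176, .ofNat 47717861, .ofNat 125995564, .ofNat 0, .ofNat 288558057, .negSucc 289902978], .ofNat 552, .negSucc 4083, .ofNat 8389, .ofNat 563⟩

/-- Its row F. -/
def f171 : List ℤ := [.negSucc 80408129, .negSucc 24055132, .negSucc 23933212, .ofNat 0, .ofNat 83886080, .negSucc 13515880, .negSucc 35929933, .ofNat 0, .negSucc 83396491, .ofNat 83886080, .ofNat 92951484, .ofNat 89525832, .ofNat 0, .negSucc 301579176, .ofNat 47717861, .ofNat 125995564, .ofNat 0, .ofNat 288558057, .negSucc 289902978, .negSucc 551]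

/-- Its row D. -/
def d171 : List ℤ := [.ofNat 92951484, .ofNat 89525832, .ofNat 0, .negSucc 301579176, .ofNat 47717861, .ofNat 125995564, .ofNat 0, .ofNat 288558057, .negSucc 289902978, .ofNat 8389, .ofNat 563]

/-- A plane. -/
def p172 : Plane := ⟨[.ofNat 23604347, .ofNat 24273225, .ofNat 0, .negSucc 83886079, .ofNat 13083369, .ofNat 34894652, .ofNat 0, .ofNat 83886080, .negSucc 83218642], [.ofNat 90746716, .ofNat 89926211, .ofNat 0, .negSucc 297095964, .ofNat 45389250, .ofNat 120102599, .ofNat 0, .ofNat 284413756, .negSucc 281760250], .ofNat 563, .negSucc 4205, .ofNat 8389, .ofNat 637⟩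

/-- Its row F. -/
def f172 : List ℤ := [.negSucc 78162319, .negSucc 23604346, .negSucc 24273224, .ofNat 0, .ofNat 83886080, .negSucc 13083368, .negSucc 34894651, .ofNat 0, .negSucc 83886079, .ofNat 83218643, .ofNat 90746716, .ofNat 89926211, .ofNat 0, .negSucc 297095964, .ofNat 45389250, .ofNat 120102599, .ofNat 0, .ofNat 284413756, .negSucc 281760250, .negSucc 562]

/-- Its row D. -/
def d172 : List ℤ := [.ofNat 90746716, .ofNat 89926211, .ofNat 0, .negSucc 297095964, .ofNat 45389250, .ofNat 120102599, .ofNat 0, .ofNat 284413756, .negSucc 281760250, .ofNat 8389, .ofNat 637]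

/-- A plane. -/
def p173 : Plane := ⟨[.ofNat 22996744, .ofNat 24686679, .ofNat 0, .negSucc 83886079, .ofNat 12646349, .ofNat 33919629, .ofNat 0, .ofNat 83886080, .negSucc 82140996], [.ofNat 87945401, .ofNat 90479834, .ofNat 0, .negSucc 292225750, .ofNat 43047934, .ofNat 114328260, .ofNat 0, .ofNat 277901137, .negSucc 271685878], .ofNat 575, .negSucc 4384, .ofNat 8389, .ofNat 835⟩

/-- Its row F. -/
def f173 : List ℤ := [.negSucc 75356293, .negSucc 22996743, .negSucc 24686678, .ofNat 0, .ofNat 83886080, .negSucc 12646348, .negSucc 33919628, .ofNat 0, .negSucc 83886079, .ofNat 82140997, .ofNat 87945401, .ofNat 90479834, .ofNat 0, .negSucc 292225750, .ofNat 43047934, .ofNat 114328260, .ofNat 0, .ofNat 277901137, .negSucc 271685878, .negSucc 574]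

/-- Its row D. -/
def d173 : List ℤ := [.ofNat 87945401, .ofNat 90479834, .ofNat 0, .negSucc 292225750, .ofNat 43047934, .ofNat 114328260, .ofNat 0, .ofNat 277901137, .negSucc 271685878, .ofNat 8389, .ofNat 835]

/-- A plane. -/
def p174 : Plane := ⟨[.ofNat 22544985, .ofNat 25013062, .ofNat 0, .negSucc 83886079, .ofNat 12161800, .ofNat 32923891, .ofNat 0, .ofNat 83886080, .negSucc 81002861], [.ofNat 85676725, .ofNat 90587835, .ofNat 0, .negSucc 286741133, .ofNat 40472419, .ofNat 108355007, .ofNat 0, .ofNat 270658603, .negSucc 260874828], .ofNat 590, .negSucc 4302, .ofNat 8389, .ofNat 1233⟩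

/-- Its row F. -/
def f174 : List ℤ := [.negSucc 72978893, .negSucc 22544984, .negSucc 25013061, .ofNat 0, .ofNat 83886080, .negSucc 12161799, .negSucc 32923890, .ofNat 0, .negSucc 83886079, .ofNat 81002862, .ofNat 85676725, .ofNat 90587835, .ofNat 0, .negSucc 286741133, .ofNat 40472419, .ofNat 108355007, .ofNat 0, .ofNat 270658603, .negSucc 260874828, .negSucc 589]

/-- Its row D. -/
def d174 : List ℤ := [.ofNat 85676725, .ofNat 90587835, .ofNat 0, .negSucc 286741133, .ofNat 40472419, .ofNat 108355007, .ofNat 0, .ofNat 270658603, .negSucc 260874828, .ofNat 8389, .ofNat 1233]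

/-- A plane. -/
def p175 : Plane := ⟨[.ofNat 22069711, .ofNat 24831075, .ofNat 0, .negSucc 83886079, .ofNat 11043735, .ofNat 44529092, .ofNat 0, .ofNat 62884039, .negSucc 70186644], [.ofNat 83180374, .ofNat 88533933, .ofNat 0, .negSucc 280912681, .ofNat 35814560, .ofNat 142422959, .ofNat 0, .ofNat 196665826, .negSucc 219132935], .ofNat 607, .negSucc 3615, .ofNat 8389, .ofNat 699⟩

/-- Its row F. -/
def f175 : List ℤ := [.negSucc 70566981, .negSucc 22069710, .negSucc 24831074, .ofNat 0, .ofNat 83886080, .negSucc 11043734, .negSucc 44529091, .ofNat 0, .negSucc 62884038, .ofNat 70186645, .ofNat 83180374, .ofNat 88533933, .ofNat 0, .negSucc 280912681, .ofNat 35814560, .ofNat 142422959, .ofNat 0, .ofNat 196665826, .negSucc 219132935, .negSucc 606]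

/-- Its row D. -/
def d175 : List ℤ := [.ofNat 83180374, .ofNat 88533933, .ofNat 0, .negSucc 280912681, .ofNat 35814560, .ofNat 142422959, .ofNat 0, .ofNat 196665826, .negSucc 219132935, .ofNat 8389, .ofNat 699]

/-- A plane. -/
def p176 : Plane := ⟨[.ofNat 22618288, .ofNat 25303672, .ofNat 0, .negSucc 83886079, .ofNat 10616691, .ofNat 41285981, .ofNat 0, .ofNat 65792194, .negSucc 70187651], [.ofNat 84512273, .ofNat 88715996, .ofNat 0, .negSucc 273727850, .ofNat 33392129, .ofNat 127815858, .ofNat 0, .ofNat 198467813, .negSucc 211359315], .ofNat 626, .negSucc 4013, .ofNat 8389, .ofNat 1047⟩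

/-- Its row F. -/
def f176 : List ℤ := [.negSucc 72539587, .negSucc 22618287, .negSucc 25303671, .ofNat 0, .ofNat 83886080, .negSucc 10616690, .negSucc 41285980, .ofNat 0, .negSucc 65792193, .ofNat 70187652, .ofNat 84512273, .ofNat 88715996, .ofNat 0, .negSucc 273727850, .ofNat 33392129, .ofNat 127815858, .ofNat 0, .ofNat 198467813, .negSucc 211359315, .negSucc 625]

/-- Its row D. -/
def d176 : List ℤ := [.ofNat 84512273, .ofNat 88715996, .ofNat 0, .negSucc 273727850, .ofNat 33392129, .ofNat 127815858, .ofNat 0, .ofNat 198467813, .negSucc 211359315, .ofNat 8389, .ofNat 1047]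

/-- A plane. -/
def p177 : Plane := ⟨[.ofNat 23403255, .ofNat 24657501, .ofNat 0, .negSucc 83886079, .ofNat 11605372, .ofNat 39658696, .ofNat 0, .ofNat 68005482, .negSucc 71490648], [.ofNat 86581370, .ofNat 84857034, .ofNat 0, .negSucc 265721651, .ofNat 35244193, .ofNat 118278543, .ofNat 0, .ofNat 196884810, .negSucc 206552057], .ofNat 648, .negSucc 5130, .ofNat 8389, .ofNat 1416⟩

/-- Its row F. -/
def f177 : List ℤ := [.negSucc 75227063, .negSucc 23403254, .negSucc 24657500, .ofNat 0, .ofNat 83886080, .negSucc 11605371, .negSucc 39658695, .ofNat 0, .negSucc 68005481, .ofNat 71490649, .ofNat 86581370, .ofNat 84857034, .ofNat 0, .negSucc 265721651, .ofNat 35244193, .ofNat 118278543, .ofNat 0, .ofNat 196884810, .negSucc 206552057, .negSucc 647]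

/-- Its row D. -/
def d177 : List ℤ := [.ofNat 86581370, .ofNat 84857034, .ofNat 0, .negSucc 265721651, .ofNat 35244193, .ofNat 118278543, .ofNat 0, .ofNat 196884810, .negSucc 206552057, .ofNat 8389, .ofNat 1416]

/-- A plane. -/
def p178 : Plane := ⟨[.ofNat 24142711, .ofNat 23085363, .ofNat 0, .negSucc 83886079, .ofNat 13634291, .ofNat 41585263, .ofNat 0, .ofNat 65918090, .negSucc 72113384], [.ofNat 88307010, .ofNat 77653969, .ofNat 0, .negSucc 256836386, .ofNat 39775385, .ofNat 118831744, .ofNat 0, .ofNat 182066788, .negSucc 198698460], .ofNat 674, .negSucc 5743, .ofNat 8389, .ofNat 1877⟩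

/-- Its row F. -/
def f178 : List ℤ := [.negSucc 77456101, .negSucc 24142710, .negSucc 23085362, .ofNat 0, .ofNat 83886080, .negSucc 13634290, .negSucc 41585262, .ofNat 0, .negSucc 65918089, .ofNat 72113385, .ofNat 88307010, .ofNat 77653969, .ofNat 0, .negSucc 256836386, .ofNat 39775385, .ofNat 118831744, .ofNat 0, .ofNat 182066788, .negSucc 198698460, .negSucc 673]

/-- Its row D. -/
def d178 : List ℤ := [.ofNat 88307010, .ofNat 77653969, .ofNat 0, .negSucc 256836386, .ofNat 39775385, .ofNat 118831744, .ofNat 0, .ofNat 182066788, .negSucc 198698460, .ofNat 8389, .ofNat 1877]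

/-- A plane. -/
def p179 : Plane := ⟨[.ofNat 25602340, .ofNat 19595161, .ofNat 0, .negSucc 83886079, .ofNat 18044670, .ofNat 44010270, .ofNat 0, .ofNat 66765456, .negSucc 76938431], [.ofNat 92433989, .ofNat 64271025, .ofNat 0, .negSucc 247021353, .ofNat 50385045, .ofNat 119748481, .ofNat 0, .ofNat 174924721, .negSucc 200778450], .ofNat 703, .negSucc 8017, .ofNat 8389, .ofNat 2546⟩

/-- Its row F. -/
def f179 : List ℤ := [.negSucc 81524105, .negSucc 25602339, .negSucc 19595160, .ofNat 0, .ofNat 83886080, .negSucc 18044669, .negSucc 44010269, .ofNat 0, .negSucc 66765455, .ofNat 76938432, .ofNat 92433989, .ofNat 64271025, .ofNat 0, .negSucc 247021353, .ofNat 50385045, .ofNat 119748481, .ofNat 0, .ofNat 174924721, .negSucc 200778450, .negSucc 702]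

/-- Its row D. -/
def d179 : List ℤ := [.ofNat 92433989, .ofNat 64271025, .ofNat 0, .negSucc 247021353, .ofNat 50385045, .ofNat 119748481, .ofNat 0, .ofNat 174924721, .negSucc 200778450, .ofNat 8389, .ofNat 2546]

/-- A plane. -/
def p180 : Plane := ⟨[.ofNat 26871635, .ofNat 18061609, .ofNat 0, .negSucc 83886079, .ofNat 19507478, .ofNat 47148146, .ofNat 0, .ofNat 61324640, .negSucc 75167446], [.ofNat 95579980, .ofNat 57438918, .ofNat 0, .negSucc 236236938, .ofNat 51702830, .ofNat 121285512, .ofNat 0, .ofNat 150881262, .negSucc 184313886], .ofNat 737, .negSucc 9435, .ofNat 8389, .ofNat 3587⟩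

/-- Its row F. -/
def f180 : List ℤ := [.negSucc 84936517, .negSucc 26871634, .negSucc 18061608, .ofNat 0, .ofNat 83886080, .negSucc 19507477, .negSucc 47148145, .ofNat 0, .negSucc 61324639, .ofNat 75167447, .ofNat 95579980, .ofNat 57438918, .ofNat 0, .negSucc 236236938, .ofNat 51702830, .ofNat 121285512, .ofNat 0, .ofNat 150881262, .negSucc 184313886, .negSucc 736]

/-- Its row D. -/
def d180 : List ℤ := [.ofNat 95579980, .ofNat 57438918, .ofNat 0, .negSucc 236236938, .ofNat 51702830, .ofNat 121285512, .ofNat 0, .ofNat 150881262, .negSucc 184313886, .ofNat 8389, .ofNat 3587]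

/-- A plane. -/
def p181 : Plane := ⟨[.ofNat 29603354, .ofNat 11681177, .ofNat 0, .negSucc 83886079, .ofNat 27048399, .ofNat 53927781, .ofNat 0, .ofNat 59149764, .negSucc 82121636], [.ofNat 103512685, .ofNat 35932518, .ofNat 0, .negSucc 224459572, .ofNat 67687369, .ofNat 130268685, .ofNat 0, .ofNat 135795734, .negSucc 187498837], .ofNat 775, .negSucc 13962, .ofNat 8389, .ofNat 8528⟩

/-- Its row F. -/
def f181 : List ℤ := [.negSucc 91643717, .negSucc 29603353, .negSucc 11681176, .ofNat 0, .ofNat 83886080, .negSucc 27048398, .negSucc 53927780, .ofNat 0, .negSucc 59149763, .ofNat 82121637, .ofNat 103512685, .ofNat 35932518, .ofNat 0, .negSucc 224459572, .ofNat 67687369, .ofNat 130268685, .ofNat 0, .ofNat 135795734, .negSucc 187498837, .negSucc 774]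

/-- Its row D. -/
def d181 : List ℤ := [.ofNat 103512685, .ofNat 35932518, .ofNat 0, .negSucc 224459572, .ofNat 67687369, .ofNat 130268685, .ofNat 0, .ofNat 135795734, .negSucc 187498837, .ofNat 8389, .ofNat 8528]

/-- A plane. -/
def p182 : Plane := ⟨[.ofNat 31987861, .ofNat 7013308, .ofNat 0, .negSucc 83886079, .ofNat 32297770, .ofNat 67384665, .ofNat 0, .ofNat 38813269, .negSucc 76768533], [.ofNat 109631421, .ofNat 20753596, .ofNat 0, .negSucc 211413771, .ofNat 75219382, .ofNat 150719409, .ofNat 0, .ofNat 81915731, .negSucc 161238770], .ofNat 821, .negSucc 13296, .ofNat 8389, .ofNat 14398⟩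

/-- Its row F. -/
def f182 : List ℤ := [.negSucc 97462879, .negSucc 31987860, .negSucc 7013307, .ofNat 0, .ofNat 83886080, .negSucc 32297769, .negSucc 67384664, .ofNat 0, .negSucc 38813268, .ofNat 76768534, .ofNat 109631421, .ofNat 20753596, .ofNat 0, .negSucc 211413771, .ofNat 75219382, .ofNat 150719409, .ofNat 0, .ofNat 81915731, .negSucc 161238770, .negSucc 820]

/-- Its row D. -/
def d182 : List ℤ := [.ofNat 109631421, .ofNat 20753596, .ofNat 0, .negSucc 211413771, .ofNat 75219382, .ofNat 150719409, .ofNat 0, .ofNat 81915731, .negSucc 161238770, .ofNat 8389, .ofNat 14398]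

/-- A plane. -/
def p183 : Plane := ⟨[.ofNat 35504229, .ofNat 190088, .ofNat 0, .negSucc 83886079, .ofNat 42780993, .ofNat 81249465, .ofNat 0, .ofNat 16854678, .negSucc 73370272], [.ofNat 118774089, .ofNat 536232, .ofNat 0, .negSucc 196815561, .ofNat 91659855, .ofNat 165915794, .ofNat 0, .ofNat 32147187, .negSucc 139470485], .ofNat 875, .negSucc 11132, .ofNat 8389, .ofNat 26947⟩

/-- Its row F. -/
def f183 : List ℤ := [.negSucc 106825751, .negSucc 35504228, .negSucc 190087, .ofNat 0, .ofNat 83886080, .negSucc 42780992, .negSucc 81249464, .ofNat 0, .negSucc 16854677, .ofNat 73370273, .ofNat 118774089, .ofNat 536232, .ofNat 0, .negSucc 196815561, .ofNat 91659855, .ofNat 165915794, .ofNat 0, .ofNat 32147187, .negSucc 139470485, .negSucc 874]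

/-- Its row D. -/
def d183 : List ℤ := [.ofNat 118774089, .ofNat 536232, .ofNat 0, .negSucc 196815561, .ofNat 91659855, .ofNat 165915794, .ofNat 0, .ofNat 32147187, .negSucc 139470485, .ofNat 8389, .ofNat 26947]

/-- A plane. -/
def p184 : Plane := ⟨[.ofNat 31387165, .ofNat 0, .ofNat 0, .negSucc 77732982, .ofNat 41621467, .ofNat 83886080, .ofNat 4399572, .ofNat 1999248, .negSucc 65774849], [.ofNat 101798965, .ofNat 0, .ofNat 0, .negSucc 167359337, .ofNat 80746290, .ofNat 153626534, .ofNat 9602371, .ofNat 3375645, .negSucc 110911870], .ofNat 4935, .negSucc 2608, .ofNat 79393, .ofNat 36424⟩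

/-- Its row F. -/
def f184 : List ℤ := [.negSucc 102180575, .negSucc 31387164, .ofNat 0, .ofNat 0, .ofNat 77732983, .negSucc 41621466, .negSucc 83886079, .negSucc 4399571, .negSucc 1999247, .ofNat 65774850, .ofNat 101798965, .ofNat 0, .ofNat 0, .negSucc 167359337, .ofNat 80746290, .ofNat 153626534, .ofNat 9602371, .ofNat 3375645, .negSucc 110911870, .negSucc 4934]

/-- Its row D. -/
def d184 : List ℤ := [.ofNat 101798965, .ofNat 0, .ofNat 0, .negSucc 167359337, .ofNat 80746290, .ofNat 153626534, .ofNat 9602371, .ofNat 3375645, .negSucc 110911870, .ofNat 79393, .ofNat 36424]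

/-- A plane. -/
def p185 : Plane := ⟨[.ofNat 24809782, .ofNat 0, .ofNat 0, .negSucc 72225597, .ofNat 45298121, .ofNat 83886080, .ofNat 19321589, .ofNat 0, .negSucc 75885727], [.ofNat 77464459, .ofNat 0, .ofNat 0, .negSucc 139537225, .ofNat 78519032, .ofNat 135652449, .ofNat 38678746, .ofNat 0, .negSucc 110047838], .ofNat 1028, .negSucc 4570, .ofNat 8389, .ofNat 108855⟩

/-- Its row F. -/
def f185 : List ℤ := [.negSucc 111041607, .negSucc 24809781, .ofNat 0, .ofNat 0, .ofNat 72225598, .negSucc 45298120, .negSucc 83886079, .negSucc 19321588, .ofNat 0, .ofNat 75885728, .ofNat 77464459, .ofNat 0, .ofNat 0, .negSucc 139537225, .ofNat 78519032, .ofNat 135652449, .ofNat 38678746, .ofNat 0, .negSucc 110047838, .negSucc 1027]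

/-- Its row D. -/
def d185 : List ℤ := [.ofNat 77464459, .ofNat 0, .ofNat 0, .negSucc 139537225, .ofNat 78519032, .ofNat 135652449, .ofNat 38678746, .ofNat 0, .negSucc 110047838, .ofNat 8389, .ofNat 108855]

/-- A plane. -/
def p186 : Plane := ⟨[.ofNat 9591149, .ofNat 0, .ofNat 0, .negSucc 48098788, .ofNat 41162158, .ofNat 64514920, .ofNat 52997083, .ofNat 0, .negSucc 83886079], [.ofNat 28413906, .ofNat 0, .ofNat 0, .negSucc 79008073, .ofNat 61338511, .ofNat 88884450, .ofNat 95451401, .ofNat 0, .negSucc 97160752], .ofNat 1170, .negSucc 2899, .ofNat 8389, .ofNat 256364⟩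

/-- Its row F. -/
def f186 : List ℤ := [.negSucc 123272199, .negSucc 9591148, .ofNat 0, .ofNat 0, .ofNat 48098789, .negSucc 41162157, .negSucc 64514919, .negSucc 52997082, .ofNat 0, .ofNat 83886080, .ofNat 28413906, .ofNat 0, .ofNat 0, .negSucc 79008073, .ofNat 61338511, .ofNat 88884450, .ofNat 95451401, .ofNat 0, .negSucc 97160752, .negSucc 1169]

/-- Its row D. -/
def d186 : List ℤ := [.ofNat 28413906, .ofNat 0, .ofNat 0, .negSucc 79008073, .ofNat 61338511, .ofNat 88884450, .ofNat 95451401, .ofNat 0, .negSucc 97160752, .ofNat 8389, .ofNat 256364]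

/-- A plane. -/
def p187 : Plane := ⟨[.ofNat 0, .ofNat 0, .ofNat 0, .negSucc 9102101, .ofNat 21695236, .ofNat 0, .ofNat 83886080, .ofNat 0, .negSucc 48935816], [.ofNat 0, .ofNat 0, .ofNat 0, .negSucc 9620228, .ofNat 24883100, .ofNat 0, .ofNat 126799185, .ofNat 0, .negSucc 31162674], .ofNat 1667, .negSucc 29826, .ofNat 8389, .ofNat 427598⟩

/-- Its row F. -/
def f187 : List ℤ := [.negSucc 126652313, .ofNat 0, .ofNat 0, .ofNat 0, .ofNat 9102102, .negSucc 21695235, .ofNat 0, .negSucc 83886079, .ofNat 0, .ofNat 48935817, .ofNat 0, .ofNat 0, .ofNat 0, .negSucc 9620228, .ofNat 24883100, .ofNat 0, .ofNat 126799185, .ofNat 0, .negSucc 31162674, .negSucc 1666]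

/-- Its row D. -/
def d187 : List ℤ := [.ofNat 0, .ofNat 0, .ofNat 0, .negSucc 9620228, .ofNat 24883100, .ofNat 0, .ofNat 126799185, .ofNat 0, .negSucc 31162674, .ofNat 8389, .ofNat 427598]

/-- A plane. -/
def p188 : Plane := ⟨[.ofNat 1334067, .ofNat 0, .ofNat 0, .negSucc 3359785, .ofNat 2874410, .ofNat 0, .ofNat 83886080, .ofNat 18250944, .negSucc 56359539], [.ofNat 2342364, .ofNat 0, .ofNat 0, .negSucc 1367863, .ofNat 1542083, .ofNat 0, .ofNat 94284419, .ofNat 7749838, .negSucc 9656006], .ofNat 2587, .negSucc 2433979, .ofNat 8389, .ofNat 2954160⟩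

/-- Its row F. -/
def f188 : List ℤ := [.negSucc 91669355, .negSucc 1334066, .ofNat 0, .ofNat 0, .ofNat 3359786, .negSucc 2874409, .ofNat 0, .negSucc 83886079, .negSucc 18250943, .ofNat 56359540, .ofNat 2342364, .ofNat 0, .ofNat 0, .negSucc 1367863, .ofNat 1542083, .ofNat 0, .ofNat 94284419, .ofNat 7749838, .negSucc 9656006, .negSucc 2586]

/-- Its row D. -/
def d188 : List ℤ := [.ofNat 2342364, .ofNat 0, .ofNat 0, .negSucc 1367863, .ofNat 1542083, .ofNat 0, .ofNat 94284419, .ofNat 7749838, .negSucc 9656006, .ofNat 8389, .ofNat 2954160]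

/-- A plane. -/
def p189 : Plane := ⟨[.ofNat 83886080, .ofNat 0, .ofNat 0, .negSucc 83886079, .ofNat 0, .ofNat 48584348, .ofNat 23714103, .ofNat 67545984, .negSucc 83886079], [.ofNat 328244488, .ofNat 0, .ofNat 0, .negSucc 214314917, .ofNat 0, .ofNat 179075935, .ofNat 88621308, .ofNat 247019040, .negSucc 367075782], .ofNat 521, .negSucc 68550, .ofNat 8389, .ofNat 77058⟩

/-- Its row F. -/
def f189 : List ℤ := [.negSucc 411086327, .negSucc 83886079, .ofNat 0, .ofNat 0, .ofNat 83886080, .ofNat 0, .negSucc 48584347, .negSucc 23714102, .negSucc 67545983, .ofNat 83886080, .ofNat 328244488, .ofNat 0, .ofNat 0, .negSucc 214314917, .ofNat 0, .ofNat 179075935, .ofNat 88621308, .ofNat 247019040, .negSucc 367075782, .negSucc 520]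

/-- Its row D. -/
def d189 : List ℤ := [.ofNat 328244488, .ofNat 0, .ofNat 0, .negSucc 214314917, .ofNat 0, .ofNat 179075935, .ofNat 88621308, .ofNat 247019040, .negSucc 367075782, .ofNat 8389, .ofNat 77058]

/-- A plane. -/
def p190 : Plane := ⟨[.ofNat 42072737, .ofNat 1850930, .ofNat 0, .negSucc 83886079, .ofNat 35725812, .ofNat 83603577, .ofNat 0, .ofNat 29312268, .negSucc 83886079], [.ofNat 163851440, .ofNat 7038909, .ofNat 0, .negSucc 305396373, .ofNat 129983699, .ofNat 302532966, .ofNat 0, .ofNat 105014359, .negSucc 302673585], .ofNat 533, .negSucc 9969, .ofNat 8389, .ofNat 831⟩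

/-- Its row F. -/
def f190 : List ℤ := [.negSucc 151096557, .negSucc 42072736, .negSucc 1850929, .ofNat 0, .ofNat 83886080, .negSucc 35725811, .negSucc 83603576, .ofNat 0, .negSucc 29312267, .ofNat 83886080, .ofNat 163851440, .ofNat 7038909, .ofNat 0, .negSucc 305396373, .ofNat 129983699, .ofNat 302532966, .ofNat 0, .ofNat 105014359, .negSucc 302673585, .negSucc 532]

/-- Its row D. -/
def d190 : List ℤ := [.ofNat 163851440, .ofNat 7038909, .ofNat 0, .negSucc 305396373, .ofNat 129983699, .ofNat 302532966, .ofNat 0, .ofNat 105014359, .negSucc 302673585, .ofNat 8389, .ofNat 831]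

/-- A plane. -/
def p191 : Plane := ⟨[.ofNat 28807826, .ofNat 20283812, .ofNat 0, .negSucc 83886079, .ofNat 13883935, .ofNat 39622448, .ofNat 0, .ofNat 80435340, .negSucc 83886079], [.ofNat 111434615, .ofNat 76072855, .ofNat 0, .negSucc 298209916, .ofNat 49317955, .ofNat 139791208, .ofNat 0, .ofNat 280182285, .negSucc 294759156], .ofNat 548, .negSucc 5159, .ofNat 8389, .ofNat 737⟩

/-- Its row F. -/
def f191 : List ℤ := [.negSucc 97126965, .negSucc 28807825, .negSucc 20283811, .ofNat 0, .ofNat 83886080, .negSucc 13883934, .negSucc 39622447, .ofNat 0, .negSucc 80435339, .ofNat 83886080, .ofNat 111434615, .ofNat 76072855, .ofNat 0, .negSucc 298209916, .ofNat 49317955, .ofNat 139791208, .ofNat 0, .ofNat 280182285, .negSucc 294759156, .negSucc 547]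

/-- Its row D. -/
def d191 : List ℤ := [.ofNat 111434615, .ofNat 76072855, .ofNat 0, .negSucc 298209916, .ofNat 49317955, .ofNat 139791208, .ofNat 0, .ofNat 280182285, .negSucc 294759156, .ofNat 8389, .ofNat 737]

/-- A plane. -/
def p192 : Plane := ⟨[.ofNat 29406070, .ofNat 20102047, .ofNat 0, .negSucc 83886079, .ofNat 12825063, .ofNat 36964297, .ofNat 0, .ofNat 83603098, .negSucc 83886079], [.ofNat 112787907, .ofNat 74171418, .ofNat 0, .negSucc 289446641, .ofNat 44208400, .ofNat 126336693, .ofNat 0, .ofNat 281204183, .negSucc 285282813], .ofNat 567, .negSucc 6384, .ofNat 8389, .ofNat 1002⟩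

/-- Its row F. -/
def f192 : List ℤ := [.negSucc 97688689, .negSucc 29406069, .negSucc 20102046, .ofNat 0, .ofNat 83886080, .negSucc 12825062, .negSucc 36964296, .ofNat 0, .negSucc 83603097, .ofNat 83886080, .ofNat 112787907, .ofNat 74171418, .ofNat 0, .negSucc 289446641, .ofNat 44208400, .ofNat 126336693, .ofNat 0, .ofNat 281204183, .negSucc 285282813, .negSucc 566]

/-- Its row D. -/
def d192 : List ℤ := [.ofNat 112787907, .ofNat 74171418, .ofNat 0, .negSucc 289446641, .ofNat 44208400, .ofNat 126336693, .ofNat 0, .ofNat 281204183, .negSucc 285282813, .ofNat 8389, .ofNat 1002]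

/-- A plane. -/
def p193 : Plane := ⟨[.ofNat 30200323, .ofNat 20886598, .ofNat 0, .negSucc 83886079, .ofNat 12253803, .ofNat 33066684, .ofNat 0, .ofNat 83886080, .negSucc 80985435], [.ofNat 114609486, .ofNat 75507036, .ofNat 0, .negSucc 278834131, .ofNat 40679155, .ofNat 108608237, .ofNat 0, .ofNat 270058017, .negSucc 264664401], .ofNat 590, .negSucc 8270, .ofNat 8389, .ofNat 1402⟩

/-- Its row F. -/
def f193 : List ℤ := [.negSucc 101066307, .negSucc 30200322, .negSucc 20886597, .ofNat 0, .ofNat 83886080, .negSucc 12253802, .negSucc 33066683, .ofNat 0, .negSucc 83886079, .ofNat 80985436, .ofNat 114609486, .ofNat 75507036, .ofNat 0, .negSucc 278834131, .ofNat 40679155, .ofNat 108608237, .ofNat 0, .ofNat 270058017, .negSucc 264664401, .negSucc 589]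

/-- Its row D. -/
def d193 : List ℤ := [.ofNat 114609486, .ofNat 75507036, .ofNat 0, .negSucc 278834131, .ofNat 40679155, .ofNat 108608237, .ofNat 0, .ofNat 270058017, .negSucc 264664401, .ofNat 8389, .ofNat 1402]

/-- A plane. -/
def p194 : Plane := ⟨[.ofNat 31652848, .ofNat 21685722, .ofNat 0, .negSucc 83886079, .ofNat 11924969, .ofNat 28264461, .ofNat 0, .ofNat 83886080, .negSucc 77379699], [.ofNat 118575584, .ofNat 76413659, .ofNat 0, .negSucc 266092746, .ofNat 37829572, .ofNat 88247628, .ofNat 0, .ofNat 255635316, .negSucc 240794712], .ofNat 620, .negSucc 10326, .ofNat 8389, .ofNat 1881⟩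

/-- Its row F. -/
def f194 : List ℤ := [.negSucc 107311343, .negSucc 31652847, .negSucc 21685721, .ofNat 0, .ofNat 83886080, .negSucc 11924968, .negSucc 28264460, .ofNat 0, .negSucc 83886079, .ofNat 77379700, .ofNat 118575584, .ofNat 76413659, .ofNat 0, .negSucc 266092746, .ofNat 37829572, .ofNat 88247628, .ofNat 0, .ofNat 255635316, .negSucc 240794712, .negSucc 619]

/-- Its row D. -/
def d194 : List ℤ := [.ofNat 118575584, .ofNat 76413659, .ofNat 0, .negSucc 266092746, .ofNat 37829572, .ofNat 88247628, .ofNat 0, .ofNat 255635316, .negSucc 240794712, .ofNat 8389, .ofNat 1881]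

/-- A plane. -/
def p195 : Plane := ⟨[.ofNat 22175651, .ofNat 12345229, .ofNat 0, .negSucc 52966002, .ofNat 11212882, .ofNat 0, .ofNat 0, .ofNat 83886080, .negSucc 65241879], [.ofNat 81630575, .ofNat 42050841, .ofNat 0, .negSucc 158457058, .ofNat 33545808, .ofNat 0, .ofNat 0, .ofNat 238591398, .negSucc 188242509], .ofNat 657, .negSucc 9135, .ofNat 8389, .ofNat 1628⟩

/-- Its row F. -/
def f195 : List ℤ := [.negSucc 75395915, .negSucc 22175650, .negSucc 12345228, .ofNat 0, .ofNat 52966003, .negSucc 11212881, .ofNat 0, .ofNat 0, .negSucc 83886079, .ofNat 65241880, .ofNat 81630575, .ofNat 42050841, .ofNat 0, .negSucc 158457058, .ofNat 33545808, .ofNat 0, .ofNat 0, .ofNat 238591398, .negSucc 188242509, .negSucc 656]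

/-- Its row D. -/
def d195 : List ℤ := [.ofNat 81630575, .ofNat 42050841, .ofNat 0, .negSucc 158457058, .ofNat 33545808, .ofNat 0, .ofNat 0, .ofNat 238591398, .negSucc 188242509, .ofNat 8389, .ofNat 1628]

/-- A plane. -/
def p196 : Plane := ⟨[.ofNat 27627061, .ofNat 5611747, .ofNat 0, .negSucc 57289297, .ofNat 21133880, .ofNat 9117673, .ofNat 0, .ofNat 83886080, .negSucc 75776823], [.ofNat 99581312, .ofNat 18311822, .ofNat 0, .negSucc 159280986, .ofNat 58870700, .ofNat 24741140, .ofNat 0, .ofNat 219205527, .negSucc 201136492], .ofNat 703, .negSucc 16078, .ofNat 8389, .ofNat 1368⟩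

/-- Its row F. -/
def f196 : List ℤ := [.negSucc 91933245, .negSucc 27627060, .negSucc 5611746, .ofNat 0, .ofNat 57289298, .negSucc 21133879, .negSucc 9117672, .ofNat 0, .negSucc 83886079, .ofNat 75776824, .ofNat 99581312, .ofNat 18311822, .ofNat 0, .negSucc 159280986, .ofNat 58870700, .ofNat 24741140, .ofNat 0, .ofNat 219205527, .negSucc 201136492, .negSucc 702]

/-- Its row D. -/
def d196 : List ℤ := [.ofNat 99581312, .ofNat 18311822, .ofNat 0, .negSucc 159280986, .ofNat 58870700, .ofNat 24741140, .ofNat 0, .ofNat 219205527, .negSucc 201136492, .ofNat 8389, .ofNat 1368]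

/-- A plane. -/
def p197 : Plane := ⟨[.ofNat 33654680, .ofNat 0, .ofNat 0, .negSucc 60041027, .ofNat 28438962, .ofNat 13463939, .ofNat 0, .ofNat 83886080, .negSucc 81923889], [.ofNat 118110423, .ofNat 0, .ofNat 0, .negSucc 152308908, .ofNat 72391732, .ofNat 33155170, .ofNat 0, .ofNat 196877770, .negSucc 196023094], .ofNat 761, .negSucc 20151, .ofNat 8389, .ofNat 3929⟩

/-- Its row F. -/
def f197 : List ℤ := [.negSucc 109408391, .negSucc 33654679, .ofNat 0, .ofNat 0, .ofNat 60041028, .negSucc 28438961, .negSucc 13463938, .ofNat 0, .negSucc 83886079, .ofNat 81923890, .ofNat 118110423, .ofNat 0, .ofNat 0, .negSucc 152308908, .ofNat 72391732, .ofNat 33155170, .ofNat 0, .ofNat 196877770, .negSucc 196023094, .negSucc 760]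

/-- Its row D. -/
def d197 : List ℤ := [.ofNat 118110423, .ofNat 0, .ofNat 0, .negSucc 152308908, .ofNat 72391732, .ofNat 33155170, .ofNat 0, .ofNat 196877770, .negSucc 196023094, .ofNat 8389, .ofNat 3929]

/-- A plane. -/
def p198 : Plane := ⟨[.ofNat 37415198, .ofNat 0, .ofNat 0, .negSucc 64312181, .ofNat 30714117, .ofNat 14549708, .ofNat 2409682, .ofNat 83886080, .negSucc 83886079], [.ofNat 126495804, .ofNat 0, .ofNat 0, .negSucc 145940099, .ofNat 69811073, .ofNat 31618482, .ofNat 5971630, .ofNat 172180768, .negSucc 176835286], .ofNat 831, .negSucc 19286, .ofNat 8389, .ofNat 14684⟩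

/-- Its row F. -/
def f198 : List ℤ := [.negSucc 125013119, .negSucc 37415197, .ofNat 0, .ofNat 0, .ofNat 64312182, .negSucc 30714116, .negSucc 14549707, .negSucc 2409681, .negSucc 83886079, .ofNat 83886080, .ofNat 126495804, .ofNat 0, .ofNat 0, .negSucc 145940099, .ofNat 69811073, .ofNat 31618482, .ofNat 5971630, .ofNat 172180768, .negSucc 176835286, .negSucc 830]

/-- Its row D. -/
def d198 : List ℤ := [.ofNat 126495804, .ofNat 0, .ofNat 0, .negSucc 145940099, .ofNat 69811073, .ofNat 31618482, .ofNat 5971630, .ofNat 172180768, .negSucc 176835286, .ofNat 8389, .ofNat 14684]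

/-- A plane. -/
def p199 : Plane := ⟨[.ofNat 32660966, .ofNat 0, .ofNat 0, .negSucc 59496847, .ofNat 29007163, .ofNat 19605563, .ofNat 10930231, .ofNat 74228886, .negSucc 83886079], [.ofNat 105347159, .ofNat 0, .ofNat 0, .negSucc 118295646, .ofNat 57919497, .ofNat 36998999, .ofNat 24884220, .ofNat 130921686, .negSucc 152109217], .ofNat 913, .negSucc 25473, .ofNat 8389, .ofNat 31010⟩

/-- Its row F. -/
def f199 : List ℤ := [.negSucc 125182681, .negSucc 32660965, .ofNat 0, .ofNat 0, .ofNat 59496848, .negSucc 29007162, .negSucc 19605562, .negSucc 10930230, .negSucc 74228885, .ofNat 83886080, .ofNat 105347159, .ofNat 0, .ofNat 0, .negSucc 118295646, .ofNat 57919497, .ofNat 36998999, .ofNat 24884220, .ofNat 130921686, .negSucc 152109217, .negSucc 912]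

/-- Its row D. -/
def d199 : List ℤ := [.ofNat 105347159, .ofNat 0, .ofNat 0, .negSucc 118295646, .ofNat 57919497, .ofNat 36998999, .ofNat 24884220, .ofNat 130921686, .negSucc 152109217, .ofNat 8389, .ofNat 31010]

/-- A plane. -/
def p200 : Plane := ⟨[.ofNat 25664824, .ofNat 0, .ofNat 0, .negSucc 66854524, .ofNat 34768924, .ofNat 81807882, .ofNat 44018351, .ofNat 2620711, .negSucc 83886079], [.ofNat 78352059, .ofNat 0, .ofNat 0, .negSucc 112867011, .ofNat 58795594, .ofNat 129397646, .ofNat 89283357, .ofNat 3874509, .negSucc 126291397], .ofNat 1019, .negSucc 23406, .ofNat 8389, .ofNat 166200⟩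

/-- Its row F. -/
def f200 : List ℤ := [.negSucc 164762521, .negSucc 25664823, .ofNat 0, .ofNat 0, .ofNat 66854525, .negSucc 34768923, .negSucc 81807881, .negSucc 44018350, .negSucc 2620710, .ofNat 83886080, .ofNat 78352059, .ofNat 0, .ofNat 0, .negSucc 112867011, .ofNat 58795594, .ofNat 129397646, .ofNat 89283357, .ofNat 3874509, .negSucc 126291397, .negSucc 1018]

/-- Its row D. -/
def d200 : List ℤ := [.ofNat 78352059, .ofNat 0, .ofNat 0, .negSucc 112867011, .ofNat 58795594, .ofNat 129397646, .ofNat 89283357, .ofNat 3874509, .negSucc 126291397, .ofNat 8389, .ofNat 166200]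

/-- A plane. -/
def p201 : Plane := ⟨[.ofNat 8945801, .ofNat 0, .ofNat 0, .negSucc 38597966, .ofNat 26596844, .ofNat 58008029, .ofNat 76555462, .ofNat 0, .negSucc 83886079], [.ofNat 25597503, .ofNat 0, .ofNat 0, .negSucc 50988549, .ofNat 37519290, .ofNat 75608843, .ofNat 136680620, .ofNat 0, .negSucc 95785268], .ofNat 1195, .negSucc 10089, .ofNat 8389, .ofNat 331906⟩

/-- Its row F. -/
def f201 : List ℤ := [.negSucc 162000515, .negSucc 8945800, .ofNat 0, .ofNat 0, .ofNat 38597967, .negSucc 26596843, .negSucc 58008028, .negSucc 76555461, .ofNat 0, .ofNat 83886080, .ofNat 25597503, .ofNat 0, .ofNat 0, .negSucc 50988549, .ofNat 37519290, .ofNat 75608843, .ofNat 136680620, .ofNat 0, .negSucc 95785268, .negSucc 1194]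

/-- Its row D. -/
def d201 : List ℤ := [.ofNat 25597503, .ofNat 0, .ofNat 0, .negSucc 50988549, .ofNat 37519290, .ofNat 75608843, .ofNat 136680620, .ofNat 0, .negSucc 95785268, .ofNat 8389, .ofNat 331906]

/-- A plane. -/
def p202 : Plane := ⟨[.ofNat 0, .ofNat 0, .ofNat 0, .negSucc 6781420, .ofNat 12777811, .ofNat 0, .ofNat 83886080, .ofNat 0, .negSucc 43192847], [.ofNat 0, .ofNat 0, .ofNat 0, .negSucc 4343093, .ofNat 13324445, .ofNat 0, .ofNat 119567327, .ofNat 0, .negSucc 22119236], .ofNat 1903, .negSucc 40343, .ofNat 8389, .ofNat 430479⟩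

/-- Its row F. -/
def f202 : List ℤ := [.negSucc 119398949, .ofNat 0, .ofNat 0, .ofNat 0, .ofNat 6781421, .negSucc 12777810, .ofNat 0, .negSucc 83886079, .ofNat 0, .ofNat 43192848, .ofNat 0, .ofNat 0, .ofNat 0, .negSucc 4343093, .ofNat 13324445, .ofNat 0, .ofNat 119567327, .ofNat 0, .negSucc 22119236, .negSucc 1902]

/-- Its row D. -/
def d202 : List ℤ := [.ofNat 0, .ofNat 0, .ofNat 0, .negSucc 4343093, .ofNat 13324445, .ofNat 0, .ofNat 119567327, .ofNat 0, .negSucc 22119236, .ofNat 8389, .ofNat 430479]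

/-- A plane. -/
def p203 : Plane := ⟨[.ofNat 1667337, .ofNat 0, .ofNat 0, .ofNat 0, .ofNat 56746, .ofNat 0, .ofNat 83886080, .ofNat 12584029, .negSucc 51535670], [.ofNat 2492855, .ofNat 0, .ofNat 0, .ofNat 0, .ofNat 23728, .ofNat 0, .ofNat 78528697, .ofNat 2911076, .ofNat 3134741], .ofNat 2587, .negSucc 3653862, .ofNat 8389, .ofNat 4409000⟩

/-- Its row F. -/
def f203 : List ℤ := [.negSucc 73557425, .negSucc 1667336, .ofNat 0, .ofNat 0, .ofNat 0, .negSucc 56745, .ofNat 0, .negSucc 83886079, .negSucc 12584028, .ofNat 51535671, .ofNat 2492855, .ofNat 0, .ofNat 0, .ofNat 0, .ofNat 23728, .ofNat 0, .ofNat 78528697, .ofNat 2911076, .ofNat 3134741, .negSucc 2586]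

/-- Its row D. -/
def d203 : List ℤ := [.ofNat 2492855, .ofNat 0, .ofNat 0, .ofNat 0, .ofNat 23728, .ofNat 0, .ofNat 78528697, .ofNat 2911076, .ofNat 3134741, .ofNat 8389, .ofNat 4409000]

/-- A part of the planes. -/
def planesC0 : List Plane := [p0, p1, p2, p3, p4, p5, p6, p7, p8, p9, p10, p11, p12, p13, p14, p15, p16, p17, p18, p19, p20, p21, p22, p23, p24, p25, p26, p27, p28, p29, p30, p31, p32, p33, p34, p35, p36, p37, p38, p39, p40, p41, p42, p43, p44, p45, p46, p47, p48, p49]

/-- A part of the planes. -/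
def planesC1 : List Plane := [p50, p51, p52, p53, p54, p55, p56, p57, p58, p59, p60, p61, p62, p63, p64, p65, p66, p67, p68, p69, p70, p71, p72, p73, p74, p75, p76, p77, p78, p79, p80, p81, p82, p83, p84, p85, p86, p87, p88, p89, p90, p91, p92, p93, p94, p95, p96, p97, p98, p99]

/-- A part of the planes. -/
def planesC2 : List Plane := [p100, p101, p102, p103, p104, p105, p106, p107, p108, p109, p110, p111, p112, p113, p114, p115, p116, p117, p118, p119, p120, p121, p122, p123, p124, p125, p126, p127, p128, p129, p130, p131, p132, p133, p134, p135, p136, p137, p138, p139, p140, p141, p142, p143, p144, p145, p146, p147, p148, p149]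

/-- A part of the planes. -/
def planesC3 : List Plane := [p150, p151, p152, p153, p154, p155, p156, p157, p158, p159, p160, p161, p162, p163, p164, p165, p166, p167, p168, p169, p170, p171, p172, p173, p174, p175, p176, p177, p178, p179, p180, p181, p182, p183, p184, p185, p186, p187, p188, p189, p190, p191, p192, p193, p194, p195, p196, p197, p198, p199]

/-- A part of the planes. -/
def planesC4 : List Plane := [p200, p201, p202, p203]

/-- The list of planes. -/
def planes : List Plane := planesC0 ++ planesC1 ++ planesC2 ++ planesC3 ++ planesC4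

/-- A part of the forms of row F. -/
def zFC0 : List (List ℤ) := [f0, f1, f2, f3, f4, f5, f6, f7, f8, f9, f10, f11, f12, f13, f14, f15, f16, f17, f18, f19, f20, f21, f22, f23, f24, f25, f26, f27, f28, f29, f30, f31, f32, f33, f34, f35, f36, f37, f38, f39, f40, f41, f42, f43, f44, f45, f46, f47, f48, f49]

/-- A part of the forms of row F. -/
def zFC1 : List (List ℤ) := [f50, f51, f52, f53, f54, f55, f56, f57, f58, f59, f60, f61, f62, f63, f64, f65, f66, f67, f68, f69, f70, f71, f72, f73, f74, f75, f76, f77, f78, f79, f80, f81, f82, f83, f84, f85, f86, f87, f88, f89, f90, f91, f92, f93, f94, f95, f96, f97, f98, f99]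

/-- A part of the forms of row F. -/
def zFC2 : List (List ℤ) := [f100, f101, f102, f103, f104, f105, f106, f107, f108, f109, f110, f111, f112, f113, f114, f115, f116, f117, f118, f119, f120, f121, f122, f123, f124, f125, f126, f127, f128, f129, f130, f131, f132, f133, f134, f135, f136, f137, f138, f139, f140, f141, f142, f143, f144, f145, f146, f147, f148, f149]

/-- A part of the forms of row F. -/
def zFC3 : List (List ℤ) := [f150, f151, f152, f153, f154, f155, f156, f157, f158, f159, f160, f161, f162, f163, f164, f165, f166, f167, f168, f169, f170, f171, f172, f173, f174, f175, f176, f177, f178, f179, f180, f181, f182, f183, f184, f185, f186, f187, f188, f189, f190, f191, f192, f193, f194, f195, f196, f197, f198, f199]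

/-- A part of the forms of row F. -/
def zFC4 : List (List ℤ) := [f200, f201, f202, f203]

/-- The forms of row F. -/
def zF : List (List ℤ) := zFC0 ++ zFC1 ++ zFC2 ++ zFC3 ++ zFC4

/-- A part of the forms of row D. -/
def zDC0 : List (List ℤ) := [d0, d1, d2, d3, d4, d5, d6, d7, d8, d9, d10, d11, d12, d13, d14, d15, d16, d17, d18, d19, d20, d21, d22, d23, d24, d25, d26, d27, d28, d29, d30, d31, d32, d33, d34, d35, d36, d37, d38, d39, d40, d41, d42, d43, d44, d45, d46, d47, d48, d49]

/-- A part of the forms of row D. -/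
def zDC1 : List (List ℤ) := [d50, d51, d52, d53, d54, d55, d56, d57, d58, d59, d60, d61, d62, d63, d64, d65, d66, d67, d68, d69, d70, d71, d72, d73, d74, d75, d76, d77, d78, d79, d80, d81, d82, d83, d84, d85, d86, d87, d88, d89, d90, d91, d92, d93, d94, d95, d96, d97, d98, d99]

/-- A part of the forms of row D. -/
def zDC2 : List (List ℤ) := [d100, d101, d102, d103, d104, d105, d106, d107, d108, d109, d110, d111, d112, d113, d114, d115, d116, d117, d118, d119, d120, d121, d122, d123, d124, d125, d126, d127, d128, d129, d130, d131, d132, d133, d134, d135, d136, d137, d138, d139, d140, d141, d142, d143, d144, d145, d146, d147, d148, d149]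

/-- A part of the forms of row D. -/
def zDC3 : List (List ℤ) := [d150, d151, d152, d153, d154, d155, d156, d157, d158, d159, d160, d161, d162, d163, d164, d165, d166, d167, d168, d169, d170, d171, d172, d173, d174, d175, d176, d177, d178, d179, d180, d181, d182, d183, d184, d185, d186, d187, d188, d189, d190, d191, d192, d193, d194, d195, d196, d197, d198, d199]

/-- A part of the forms of row D. -/
def zDC4 : List (List ℤ) := [d200, d201, d202, d203]

/-- The forms of row D. -/
def zD : List (List ℤ) := zDC0 ++ zDC1 ++ zDC2 ++ zDC3 ++ zDC4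

/-- A bound for the sizes of the forms. -/
def LL : ℕ := 2226940996

theorem hLL : LL ≤ 2 ^ cfgD.b := by
  decide +kernel

theorem hSF : ∀ z ∈ zF, linS z ≤ LL := by
  decide +kernel

theorem hSD : ∀ z ∈ zD, linS z ≤ LL := by
  decide +kernel

theorem hS0 : ∀ z ∈ ([] : List (List ℤ)), linS z ≤ LL := by
  decide +kernel

/-- The forms are those of the planes. -/
theorem zF_eq : formsF X9 planes = zF := by
  decide +kernel

/-- The forms are those of the planes. -/
theorem zD_eq : formsD planes = zD := by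
  decide +kernel

/-- The lengths of the lists. -/
theorem lengths : ∀ p ∈ planes, p.A.length = X9.length ∧ p.C.length = X9.length := by
  decide +kernel

end Vale.Agent.P154.Hel.Direct.Poi2
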